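import Vale.Agent.P246.Q24.G1

/-!
# Completions of unimodular columns: general lemmas
-/

set_option linter.all false

namespace Vale.Agent.P246.Q36

open Vale.Agent.P246.Q24

/-- an invertible matrix completing the column `(a, b)` -/
structure Cmp {T : Type} [Ring T] (a b : T) (g k : Matrix (Fin 2) (Fin 2) T) : Prop where
  gk : g * k = 1
  kg : k * g = 1
  h0 : g 0 0 * a + g 0 1 * b = 1
  h1 : g 1 0 * a + g 1 1 * b = 0

theorem Cmp.KG {T : Type} [Ring T] {a b : T} {g k : Matrix (Fin 2) (Fin 2) T} (h : Cmp a b g k) :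
    KG a b (g 1 0) (g 1 1) := KG_of_inv h.gk h.kg h.h0 h.h1

theorem TR.cmp {T : Type} [Ring T] (hT : TR T) {a b c d : T} (h : c * a + d * b = 1) :
    ∃ g k, Cmp a b g k := by
  obtain ⟨g, k, h1, h2, h3, h4⟩ := hT a b c d h
  exact ⟨g, k, h1, h2, h3, h4⟩

theorem Cmp.map {T S : Type} [Ring T] [Ring S] (f : T →+* S) {a b : T}
    {g k : Matrix (Fin 2) (Fin 2) T} (h : Cmp a b g k) :
    Cmp (f a) (f b) (f.mapMatrix g) (f.mapMatrix k) where
  gk := by rw [← map_mul, h.gk, map_one]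
  kg := by rw [← map_mul, h.kg, map_one]
  h0 := by
    simp only [RingHom.mapMatrix_apply, Matrix.map_apply]
    rw [← map_mul, ← map_mul, ← map_add, h.h0, map_one]
  h1 := by
    simp only [RingHom.mapMatrix_apply, Matrix.map_apply]
    rw [← map_mul, ← map_mul, ← map_add, h.h1, map_zero]

/-- rescaling the second row -/
theorem Cmp.scale {T : Type} [Ring T] {a b : T} {g k : Matrix (Fin 2) (Fin 2) T}
    (h : Cmp a b g k) {ε ε' : T} (h1 : ε * ε' = 1) (h2 : ε' * ε = 1) :
    ∃ g' k', Cmp a b g' k' ∧ g' 1 0 = ε * g 1 0 ∧ g' 1 1 = ε * g 1 1 := by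
  have e1 : (!![1, 0; 0, ε] * !![1, 0; 0, ε'] : Matrix (Fin 2) (Fin 2) T) = 1 := by
    apply Matrix.ext
    intro i j
    fin_cases i <;> fin_cases j <;> simp [Matrix.mul_apply, Fin.sum_univ_two, h1]
  have e2 : (!![1, 0; 0, ε'] * !![1, 0; 0, ε] : Matrix (Fin 2) (Fin 2) T) = 1 := by
    apply Matrix.ext
    intro i j
    fin_cases i <;> fin_cases j <;> simp [Matrix.mul_apply, Fin.sum_univ_two, h2]
  refine ⟨!![1, 0; 0, ε] * g, k * !![1, 0; 0, ε'], ⟨?_, ?_, ?_, ?_⟩, ?_, ?_⟩
  · rw [mul_assoc, ← mul_assoc g, h.gk, one_mul, e1]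
  · rw [mul_assoc, ← mul_assoc !![1, 0; 0, ε'], e2, one_mul, h.kg]
  · simpa [Matrix.mul_apply, Fin.sum_univ_two] using h.h0
  · simp only [Matrix.mul_apply, Fin.sum_univ_two, Matrix.of_apply, Matrix.cons_val', Matrix.cons_val_zero,
      Matrix.cons_val_one, Matrix.cons_val_fin_one, zero_mul, zero_add]
    rw [mul_assoc, mul_assoc, ← mul_add, h.h1, mul_zero]
  · simp [Matrix.mul_apply, Fin.sum_univ_two]
  · simp [Matrix.mul_apply, Fin.sum_univ_two]

/-- comparison of two completions -/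
theorem Cmp.compare {T : Type} [Ring T] {a b : T} {g k g' k' : Matrix (Fin 2) (Fin 2) T}
    (h : Cmp a b g k) (h' : Cmp a b g' k') {δ : T} (h1 : g 1 0 = δ * g' 1 0)
    (h2 : g 1 1 = δ * g' 1 1) : ∃ s, g = !![1, s; 0, δ] * g' := by
  obtain ⟨s, hs1, hs2⟩ := h'.KG.gen (g 0 0 - g' 0 0) (g 0 1 - g' 0 1) (by
    have : (g 0 0 - g' 0 0) * a + (g 0 1 - g' 0 1) * b =
      (g 0 0 * a + g 0 1 * b) - (g' 0 0 * a + g' 0 1 * b) := by noncomm_ring
    rw [this, h.h0, h'.h0, sub_self])
  refine ⟨s, ?_⟩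
  apply Matrix.ext
  intro i j
  fin_cases i <;> fin_cases j
  · simp [Matrix.mul_apply, Fin.sum_univ_two, ← hs1]
  · simp [Matrix.mul_apply, Fin.sum_univ_two, ← hs2]
  · simp [Matrix.mul_apply, Fin.sum_univ_two, h1]
  · simp [Matrix.mul_apply, Fin.sum_univ_two, h2]

theorem nrd_one_b {R : Type} [CommRing R] [Invo R] {b : Bool} : Dbl.nrd (1 : Dbl R b) = 1 := by
  simp [Dbl.nrd]

theorem cmp_Dt {R : Type} [CommRing R] [Invo R] {b : Bool} {x y : Dbl R b}
    {g k g' k' : Matrix (Fin 2) (Fin 2) (Dbl R b)} (h : Cmp x y g k)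
    (h' : Cmp x y g' k') {δ : Dbl R b} (h1 : g 1 0 = δ * g' 1 0)
    (h2 : g 1 1 = δ * g' 1 1) : Dt g = Dbl.nrd δ * Dt g' := by
  obtain ⟨s, hs⟩ := h.compare h' h1 h2
  rw [hs, Dt_mul, Dt_upper, nrd_one_b, one_mul]

/-- a completion from a kernel generator -/
theorem Cmp_of_KG {T : Type} [Ring T] {a b c d u v : T} (h : c * a + d * b = 1)
    (hk : KG a b u v) : ∃ g k, Cmp a b g k ∧ g 1 0 = u ∧ g 1 1 = v := by
  have key : ∀ x y : T, ∃ s t, x = s * c + t * u ∧ y = s * d + t * v := by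
    intro x y
    have h1 : (x - (x * a + y * b) * c) * a + (y - (x * a + y * b) * d) * b = 0 := by
      have : (x - (x * a + y * b) * c) * a + (y - (x * a + y * b) * d) * b =
        (x * a + y * b) - (x * a + y * b) * (c * a + d * b) := by noncomm_ring
      rw [this, h, mul_one, sub_self]
    obtain ⟨t, ht1, ht2⟩ := hk.gen _ _ h1
    exact ⟨x * a + y * b, t, by rw [← ht1]; abel, by rw [← ht2]; abel⟩
  obtain ⟨s0, t0, e1, e2⟩ := key 1 0
  obtain ⟨s1, t1, e3, e4⟩ := key 0 1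
  have hhg : !![s0, t0; s1, t1] * !![c, d; u, v] = (1 : Matrix (Fin 2) (Fin 2) T) := by
    apply Matrix.ext
    intro i j
    fin_cases i <;> fin_cases j <;> simp [Matrix.mul_apply, Fin.sum_univ_two, ← e1, ← e2, ← e3, ← e4]
  have hinj : ∀ x y : T, x * c + y * u = 0 → x * d + y * v = 0 → x = 0 ∧ y = 0 := by
    intro x y h1 h2
    have hx : x = 0 := by
      have : (x * c + y * u) * a + (x * d + y * v) * b =
        x * (c * a + d * b) + y * (u * a + v * b) := by noncomm_ring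
      rw [h1, h2, h, hk.ker, zero_mul, zero_mul, mul_one, mul_zero, add_zero, add_zero] at this
      exact this.symm
    rw [hx, zero_mul, zero_add] at h1 h2
    exact ⟨hx, hk.free h1 h2⟩
  refine ⟨!![c, d; u, v], !![s0, t0; s1, t1], ⟨?_, hhg, ?_, ?_⟩, rfl, rfl⟩
  · have h3 : (!![c, d; u, v] * !![s0, t0; s1, t1] - 1) * !![c, d; u, v] = 0 := by
      rw [sub_mul, mul_assoc, hhg, mul_one, one_mul, sub_self]
    have h4 : ∀ M : Matrix (Fin 2) (Fin 2) T, M * !![c, d; u, v] = 0 → M = 0 := by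
      intro M hM
      have h5 : ∀ i, M i 0 = 0 ∧ M i 1 = 0 := by
        intro i
        apply hinj
        · have := congrFun (congrFun hM i) 0
          simpa [Matrix.mul_apply, Fin.sum_univ_two] using this
        · have := congrFun (congrFun hM i) 1
          simpa [Matrix.mul_apply, Fin.sum_univ_two] using this
      apply Matrix.ext
      intro i j
      fin_cases j
      · exact (h5 i).1
      · exact (h5 i).2
    exact sub_eq_zero.1 (h4 _ h3)
  · simpa using h
  · simpa using hk.ker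

/-- scaling a kernel generator by a unit -/
theorem KG.scale {T : Type} [Ring T] {a b u v : T} (h : KG a b u v) {ε ε' : T} (h1 : ε * ε' = 1)
    (h2 : ε' * ε = 1) : KG a b (ε * u) (ε * v) where
  ker := by rw [mul_assoc, mul_assoc, ← mul_add, h.ker, mul_zero]
  gen x y hxy := by
    obtain ⟨t, h3, h4⟩ := h.gen x y hxy
    exact ⟨t * ε', by rw [h3, mul_assoc t, ← mul_assoc ε', h2, one_mul],
      by rw [h4, mul_assoc t, ← mul_assoc ε', h2, one_mul]⟩
  inv := by
    obtain ⟨r, s, hrs⟩ := h.inv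
    refine ⟨r * ε', s * ε', ?_⟩
    have : ε * u * (r * ε') + ε * v * (s * ε') = ε * (u * r + v * s) * ε' := by noncomm_ring
    rw [this, hrs, mul_one, h1]

/-- images of kernel generators of unimodular columns -/
theorem KG.map' {T S : Type} [Ring T] [Ring S] (f : T →+* S) {a b c d u v : T}
    (h : c * a + d * b = 1) (hk : KG a b u v) : KG (f a) (f b) (f u) (f v) := by
  obtain ⟨g, k, hC, e1, e2⟩ := Cmp_of_KG h hk
  have := (hC.map f).KG
  rw [← e1, ← e2]
  exact this

/-- gluing of kernel generators along a pullback square -/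
theorem KG_glue {T A B C : Type} [Ring T] [Ring A] [Ring B] [Ring C] (f : T →+* A) (g : T →+* B)
    (p : A →+* C) (q : B →+* C) (hpq : ∀ t, p (f t) = q (g t))
    (hinj : ∀ t, f t = 0 → g t = 0 → t = 0) (hsurj : ∀ x y, p x = q y → ∃ t, f t = x ∧ g t = y)
    {a b c d : T} (h : c * a + d * b = 1) {uA vA : A} {uB vB : B}
    (KA : KG (f a) (f b) uA vA) (KB : KG (g a) (g b) uB vB) (hu : p uA = q uB)
    (hv : p vA = q vB) : ∃ u v, f u = uA ∧ g u = uB ∧ f v = vA ∧ g v = vB ∧ KG a b u v := by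
  obtain ⟨u, hu1, hu2⟩ := hsurj uA uB hu
  obtain ⟨v, hv1, hv2⟩ := hsurj vA vB hv
  subst hu1 hu2 hv1 hv2
  have hg : c * a + d * b = 1 := h
  have LB : KG (q (g a)) (q (g b)) (q (g u)) (q (g v)) :=
    KG.map' q (c := g c) (d := g d) (by rw [← map_mul, ← map_mul, ← map_add, h, map_one]) KB
  refine ⟨u, v, rfl, rfl, rfl, rfl, ?_⟩
  have hk : u * a + v * b = 0 := by
    apply hinj
    · rw [map_add, map_mul, map_mul]; exact KA.ker
    · rw [map_add, map_mul, map_mul]; exact KB.ker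
  have hgen : ∀ x y, x * a + y * b = 0 → ∃ t, x = t * u ∧ y = t * v := by
    intro x y hxy
    obtain ⟨t1, h1, h2⟩ := KA.gen (f x) (f y) (by
      rw [← map_mul, ← map_mul, ← map_add, hxy, map_zero])
    obtain ⟨t2, h3, h4⟩ := KB.gen (g x) (g y) (by
      rw [← map_mul, ← map_mul, ← map_add, hxy, map_zero])
    have hpt : p t1 = q t2 := by
      obtain ⟨r, s, hrs⟩ := LB.inv
      have e1 : p t1 * q (g u) = q t2 * q (g u) := by
        rw [← hpq, ← map_mul, ← h1, hpq, hpq, ← map_mul, ← h3]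
      have e2 : p t1 * q (g v) = q t2 * q (g v) := by
        rw [← hpq, ← map_mul, ← h2, hpq, hpq, ← map_mul, ← h4]
      calc p t1 = p t1 * (q (g u) * r + q (g v) * s) := by rw [hrs, mul_one]
        _ = p t1 * q (g u) * r + p t1 * q (g v) * s := by noncomm_ring
        _ = q t2 * q (g u) * r + q t2 * q (g v) * s := by rw [e1, e2]
        _ = q t2 * (q (g u) * r + q (g v) * s) := by noncomm_ring
        _ = q t2 := by rw [hrs, mul_one]
    obtain ⟨t, ht1, ht2⟩ := hsurj t1 t2 hpt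
    refine ⟨t, ?_, ?_⟩
    · apply sub_eq_zero.1
      apply hinj
      · rw [map_sub, map_mul, ht1, h1, sub_self]
      · rw [map_sub, map_mul, ht2, h3, sub_self]
    · apply sub_eq_zero.1
      apply hinj
      · rw [map_sub, map_mul, ht1, h2, sub_self]
      · rw [map_sub, map_mul, ht2, h4, sub_self]
  have hfree : ∀ t, t * u = 0 → t * v = 0 → t = 0 := by
    intro t h1 h2
    apply hinj
    · apply KA.free
      · rw [← map_mul, h1, map_zero]
      · rw [← map_mul, h2, map_zero]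
    · apply KB.free
      · rw [← map_mul, h1, map_zero]
      · rw [← map_mul, h2, map_zero]
  obtain ⟨G, K, g1, g2, g3, g4⟩ := TR_of_ker h hk hgen hfree
  refine ⟨hk, hgen, ?_⟩
  -- the inverse: compare with the completion
  have hKG := KG_of_inv g1 g2 g3 g4
  obtain ⟨t, h1, h2⟩ := hgen (G 1 0) (G 1 1) g4
  obtain ⟨t', h3, h4⟩ := hKG.gen u v hk
  obtain ⟨r, s, hrs⟩ := hKG.inv
  -- `u = t' G10`, `G10 = t u`, so `t' t = 1`
  have h5 : t' * t = 1 := by
    apply sub_eq_zero.1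
    apply hfree
    · rw [sub_mul, mul_assoc, ← h1, ← h3, one_mul, sub_self]
    · rw [sub_mul, mul_assoc, ← h2, ← h4, one_mul, sub_self]
  have h6 : t * t' = 1 := by
    apply sub_eq_zero.1
    apply hKG.free
    · rw [sub_mul, mul_assoc, ← h3, ← h1, one_mul, sub_self]
    · rw [sub_mul, mul_assoc, ← h4, ← h2, one_mul, sub_self]
  refine ⟨r * t, s * t, ?_⟩
  have : u * (r * t) + v * (s * t) = t' * (G 1 0 * r + G 1 1 * s) * t := by
    rw [h3, h4]; noncomm_ring
  rw [this, hrs, mul_one, h5]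

/-- transitivity glues along a pullback square if the relevant units lift -/
theorem TR_glue' {T A B C : Type} [Ring T] [Ring A] [Ring B] [Ring C] (f : T →+* A) (g : T →+* B)
    (p : A →+* C) (q : B →+* C) (hpq : ∀ t, p (f t) = q (g t))
    (hinj : ∀ t, f t = 0 → g t = 0 → t = 0) (hsurj : ∀ x y, p x = q y → ∃ t, f t = x ∧ g t = y)
    (hA : TR A) (hB : TR B)
    (hunit : ∀ (a b : T) gA kA gB kB, Cmp (f a) (f b) gA kA → Cmp (g a) (g b) gB kB →
      ∀ δ δ' : C, δ * δ' = 1 → δ' * δ = 1 → q (gB 1 0) = δ * p (gA 1 0) →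
        q (gB 1 1) = δ * p (gA 1 1) → ∃ ε ε' : A, ε * ε' = 1 ∧ ε' * ε = 1 ∧ p ε = δ) :
    TR T := by
  intro a b c d h
  have hA1 : f c * f a + f d * f b = 1 := by rw [← map_mul, ← map_mul, ← map_add, h, map_one]
  have hB1 : g c * g a + g d * g b = 1 := by rw [← map_mul, ← map_mul, ← map_add, h, map_one]
  obtain ⟨gA, kA, CA⟩ := TR.cmp hA hA1
  obtain ⟨gB, kB, CB⟩ := TR.cmp hB hB1
  have LA := (CA.map p).KG
  have LB := (CB.map q).KG
  rw [← hpq, ← hpq] at LB
  obtain ⟨δ, δ', d1, d2, d3, d4, -, -⟩ := LB.unit LA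
  obtain ⟨ε, ε', e1, e2, e3⟩ := hunit a b gA kA gB kB CA CB δ δ' d1 d2 d3 d4
  have KA' := KG.scale CA.KG e1 e2
  obtain ⟨u, v, -, -, -, -, hK⟩ := KG_glue f g p q hpq hinj hsurj h KA' CB.KG
    (by rw [map_mul, e3]; exact d3.symm) (by rw [map_mul, e3]; exact d4.symm)
  obtain ⟨G, K, hC, -, -⟩ := Cmp_of_KG h hK
  exact ⟨G, K, hC.gk, hC.kg, hC.h0, hC.h1⟩

/-- kernel generator from six scalar identities -/
theorem KG_mk {T : Type} [Ring T] {a b u v : T} (c d r s : T) (h : u * a + v * b = 0 ∧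
    u * r + v * s = 1 ∧ a * c + r * u = 1 ∧ a * d + r * v = 0 ∧ b * c + s * u = 0 ∧
    b * d + s * v = 1) : KG a b u v where
  ker := h.1
  gen x y hxy := by
    obtain ⟨-, -, h1, h2, h3, h4⟩ := h
    refine ⟨x * r + y * s, ?_, ?_⟩
    · have : (x * r + y * s) * u = x * (a * c + r * u) + y * (b * c + s * u) -
        (x * a + y * b) * c := by noncomm_ring
      rw [this, h1, h3, hxy]
      simp
    · have : (x * r + y * s) * v = x * (a * d + r * v) + y * (b * d + s * v) -
        (x * a + y * b) * d := by noncomm_ring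
      rw [this, h2, h4, hxy]
      simp
  inv := ⟨r, s, h.2.1⟩

theorem KG_col {T : Type} [Ring T] (c : T) : KG 1 (-c) c 1 where
  ker := by simp
  gen x y hxy := by
    refine ⟨y, ?_, (mul_one y).symm⟩
    rw [mul_one, mul_neg, ← sub_eq_add_neg, sub_eq_zero] at hxy
    exact hxy
  inv := ⟨0, 1, by simp⟩

/-- coefficients with respect to generators -/
theorem coef_unique {T : Type} [Ring T] {u v r s x y t : T} (hrs : u * r + v * s = 1)
    (hx : x = t * u) (hy : y = t * v) : x * r + y * s = t := by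
  rw [hx, hy]
  calc t * u * r + t * v * s = t * (u * r + v * s) := by noncomm_ring
    _ = t := by rw [hrs, mul_one]

theorem right_cancel {T : Type} [Ring T] {u v x y : T} (hi : ∃ r s, u * r + v * s = 1)
    (h1 : x * u = y * u) (h2 : x * v = y * v) : x = y := by
  obtain ⟨r, s, h⟩ := hi
  calc x = x * (u * r + v * s) := by rw [h, mul_one]
    _ = x * u * r + x * v * s := by noncomm_ring
    _ = y * u * r + y * v * s := by rw [h1, h2]
    _ = y * (u * r + v * s) := by noncomm_ring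
    _ = y := by rw [h, mul_one]

theorem inv_im {T S : Type} [Ring T] [Ring S] (f : T →+* S) {u v : T}
    (hi : ∃ r s, u * r + v * s = 1) : ∃ r s, f u * r + f v * s = 1 := by
  obtain ⟨r, s, h⟩ := hi
  exact ⟨f r, f s, by rw [← map_mul, ← map_mul, ← map_add, h, map_one]⟩

end Vale.Agent.P246.Q36
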