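import Vale.Agent.P246.Q36.Base
import Vale.Agent.P246.Q24.G3
import Vale.Agent.P246.Cyc.GamEquiv

/-!
# Maps between the rings for `Q_36`
-/

set_option linter.all false

namespace Vale.Agent.P246.Q36

open Vale.Agent.P246.Q24 Vale.Agent.P246.Cyc

/-- evaluation of `Zt K` at a root of `z² = η z - 1` -/
def Ztev {K L : Type} [CommRing K] [Eta K] [CommRing L] (f : K →+* L) (z : L)
    (h : z * z = f eta * z - 1) : Zt K →+* L where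
  toFun := fun x => f x.re + f x.im * z
  map_one' := by simp
  map_zero' := by simp
  map_add' := fun x y => by simp; ring
  map_mul' := fun x y => by
    simp
    linear_combination (-(f x.im * f y.im)) * h

@[simp] theorem Ztev_apply {K L : Type} [CommRing K] [Eta K] [CommRing L] (f : K →+* L) (z : L)
    (h : z * z = f eta * z - 1) (x : Zt K) : Ztev f z h x = f x.re + f x.im * z := rfl

theorem Ztev_conj {K L : Type} [CommRing K] [Eta K] [CommRing L] [Invo L] (f : K →+* L) (z : L)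
    (h : z * z = f eta * z - 1) (hf : ∀ r, conj (f r) = f r) (hz : z + conj z = f eta)
    (x : Zt K) : Ztev f z h (conj x) = conj (Ztev f z h x) := by
  simp [hf]
  linear_combination (-(f x.im)) * hz

/-- the generator `u` of `C_3` -/
def u3 : C3 := Tri.gen ℤ 1
/-- the generator `u` of `C_3` modulo three -/
def u3f : F3C3 := Tri.gen F3 1
/-- the generator of `C_9` -/
def u9 : C9 := Tri.gen C3 (Tri.gen ℤ 1)

/-- `ℤ[C_3] → ℤ` -/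
def augZ : C3 →+* ℤ := Tri.ev (RingHom.id ℤ) 1 (by simp)
/-- `ℤ[C_3] → ℤ[ω]` -/
def c3w : C3 →+* ZW := Tri.ev Eis.C ⟨0, 1⟩ (by decide)

theorem augZ_conj (x : C3) : augZ (conj x) = conj (augZ x) :=
  Tri.ev_conj (RingHom.id ℤ) (fun _ => rfl) 1 (by simp) (by simp) x

theorem Eis_C_conj (r : ℤ) : (Eis.C (conj r) : ZW) = conj (Eis.C r) := by
  ext <;> simp

theorem c3w_conj (x : C3) : c3w (conj x) = conj (c3w x) :=
  Tri.ev_conj Eis.C Eis_C_conj ⟨0, 1⟩ (by decide) (by decide) x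

/-- `ℤ → ℤ[ζ_9]` -/
def iZ9 : ℤ →+* Z9 := Int.castRingHom Z9

@[simp] theorem iZ9_re (n : ℤ) : (iZ9 n).re = (n : P9) := rfl
@[simp] theorem iZ9_im (n : ℤ) : (iZ9 n).im = 0 := rfl

theorem iZ9_conj (n : ℤ) : iZ9 (conj n) = conj (iZ9 n) := by
  ext <;> simp

/-- `ζ³` -/
def zz3 : Z9 := ⟨⟨0, -1, 0⟩, ⟨-1, 0, 1⟩⟩

theorem zz3_spec : Zt.zeta P9 * Zt.zeta P9 * Zt.zeta P9 = zz3 ∧ zz3 * zz3 * zz3 = iZ9 1 ∧
    zz3 * conj zz3 = 1 ∧ Zt.zeta P9 * conj (Zt.zeta P9) = 1 := by decide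

/-- `ℤ[C_3] → ℤ[ζ_9]`, `u ↦ ζ³` -/
def c3z : C3 →+* Z9 := Tri.ev iZ9 zz3 zz3_spec.2.1

theorem c3z_conj (x : C3) : c3z (conj x) = conj (c3z x) :=
  Tri.ev_conj iZ9 iZ9_conj zz3 zz3_spec.2.1 zz3_spec.2.2.1 x

/-- `ℤ[C_9] → ℤ[ζ_9]` -/
def c9z : C9 →+* Z9 := Tri.ev c3z (Zt.zeta P9) (by
  rw [zz3_spec.1]
  simp [c3z, Tri.gen])

theorem c9z_conj (x : C9) : c9z (conj x) = conj (c9z x) :=
  Tri.ev_conj c3z c3z_conj (Zt.zeta P9) _ zz3_spec.2.2.2 x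

/-- `ℤ[C_3] → ℤ[C_3]`, `u ↦ 1` -/
def c3t : C3 →+* C3 := Tri.C.comp augZ

theorem TriC_conj {K : Type} [CommRing K] [Invo K] {a : K} [NOne a] (r : K) :
    (Tri.C (conj r) : Tri K a) = conj (Tri.C r) := by
  ext <;> simp

theorem c3t_conj (x : C3) : c3t (conj x) = conj (c3t x) := by
  change Tri.C (augZ (conj x)) = conj (Tri.C (augZ x))
  rw [augZ_conj, TriC_conj]

/-- `ℤ[C_9] → ℤ[C_3]` -/
def c9c3 : C9 →+* C3 := Tri.ev c3t u3 (by decide)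

theorem c9c3_conj (x : C9) : c9c3 (conj x) = conj (c9c3 x) :=
  Tri.ev_conj c3t c3t_conj u3 _ (by decide) x

/-- `ℤ[C_3] → 𝔽_3[C_3]` -/
def c3f : C3 →+* F3C3 := Tri.map zF3 (map_one _)

theorem c3f_conj (x : C3) : c3f (conj x) = conj (c3f x) :=
  Tri.map_conj zF3 zF3_conj (map_one _) x

/-- `ℤ → 𝔽_3[C_3]` -/
def iF3C3 : ℤ →+* F3C3 := Int.castRingHom F3C3

@[simp] theorem iF3C3_x0 (n : ℤ) : (iF3C3 n).x0 = zF3 n := rfl
@[simp] theorem iF3C3_x1 (n : ℤ) : (iF3C3 n).x1 = 0 := rfl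
@[simp] theorem iF3C3_x2 (n : ℤ) : (iF3C3 n).x2 = 0 := rfl

/-- `ℤ[η] → 𝔽_3[C_3]`, `η ↦ u + u²` -/
def pF3 : P9 →+* F3C3 := Cub.ev iF3C3 ⟨0, 1, 1⟩ (by decide)

theorem pF3_conj (r : P9) : conj (pF3 r) = pF3 r := by
  have h : conj (⟨0, 1, 1⟩ : F3C3) = ⟨0, 1, 1⟩ := by decide
  have h0 : ∀ n, conj (iF3C3 n) = iF3C3 n := fun n => by ext <;> simp
  simp only [pF3, Cub.ev_apply, map_add, map_mul, h, h0]

/-- `ℤ[ζ_9] → 𝔽_3[C_3]`, `ζ ↦ u` -/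
def zF3C3 : Z9 →+* F3C3 := Ztev pF3 u3f (by decide)

theorem zF3C3_conj (x : Z9) : zF3C3 (conj x) = conj (zF3C3 x) :=
  Ztev_conj pF3 u3f _ pF3_conj (by decide) x

/-! ### reductions modulo two -/

/-- `ℤ[C_3] → 𝔽_2[C_3]` -/
def c3m : C3 →+* F2C3 := Tri.map zF2 (map_one _)
theorem c3m_conj (x : C3) : c3m (conj x) = conj (c3m x) :=
  Tri.map_conj zF2 zF2_conj (map_one _) x

theorem c3m_gen : c3m (Tri.gen ℤ 1) = Tri.gen F2 1 := by decide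

/-- `ℤ[C_9] → 𝔽_2[C_9]` -/
def c9m : C9 →+* F2C9 := Tri.map c3m c3m_gen
theorem c9m_conj (x : C9) : c9m (conj x) = conj (c9m x) :=
  Tri.map_conj c3m c3m_conj c3m_gen x

/-- `ℤ[ζ_9] → 𝔽_64` -/
def zF64 : Z9 →+* F64 := Zt.map (Cub.map zF2) (Cub.map_eta _)
theorem zF64_conj (x : Z9) : zF64 (conj x) = conj (zF64 x) := Zt.map_conj _ _ x

/-! ### gluing -/

/-- transitivity glues along a pullback square of commutative rings with involution -/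
theorem TR_glue_Dbl {T A B C : Type} [CommRing T] [CommRing A] [CommRing B] [CommRing C]
    [Invo T] [Invo A] [Invo B] [Invo C] (f : T →+* A) (g : T →+* B)
    (p : A →+* C) (q : B →+* C) (hf : ∀ x, f (conj x) = conj (f x))
    (hg : ∀ x, g (conj x) = conj (g x)) (hp : ∀ x, p (conj x) = conj (p x))
    (hq : ∀ x, q (conj x) = conj (q x)) (hpq : ∀ t, p (f t) = q (g t))
    (hinj : ∀ t, f t = 0 → g t = 0 → t = 0) (hsurj : ∀ x y, p x = q y → ∃ t, f t = x ∧ g t = y)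
    (b : Bool) (hA : TR (Dbl A b)) (hB : TR (Dbl B b))
    (hunit : ∀ δ δ' : Dbl C b, δ * δ' = 1 → δ' * δ = 1 →
      ∃ ε ε' : Dbl A b, ε * ε' = 1 ∧ ε' * ε = 1 ∧ Dbl.map p hp ε = δ) :
    TR (Dbl T b) := by
  refine TR_glue (Dbl.map f hf) (Dbl.map g hg) (Dbl.map p hp) (Dbl.map q hq) ?_ ?_ ?_ hA hB hunit
  · intro t
    ext
    · exact hpq _
    · exact hpq _
  · intro t h1 h2
    ext
    · exact hinj _ (congrArg Dbl.fst h1) (congrArg Dbl.fst h2)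
    · exact hinj _ (congrArg Dbl.snd h1) (congrArg Dbl.snd h2)
  · intro x y h
    obtain ⟨s, hs1, hs2⟩ := hsurj x.fst y.fst (congrArg Dbl.fst h)
    obtain ⟨t, ht1, ht2⟩ := hsurj x.snd y.snd (congrArg Dbl.snd h)
    refine ⟨⟨s, t⟩, ?_, ?_⟩
    · ext
      · exact hs1
      · exact ht1
    · ext
      · exact hs2
      · exact ht2

/-! ### explicit formulas -/

theorem augZ_eq (t : C3) : augZ t = t.x0 + t.x1 + t.x2 := by
  simp [augZ]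

theorem c3w_re (t : C3) : (c3w t).re = t.x0 - t.x2 := by
  simp [c3w]; ring

theorem c3w_im (t : C3) : (c3w t).im = t.x1 - t.x2 := by
  simp [c3w]; ring

theorem mul3_F3 (x : F3) : 3 * x = 0 := by
  revert x; decide

/-- the square `ℤ[C_3] → ℤ, ℤ[ω] → 𝔽_3` commutes -/
theorem sq3 (t : C3) : zF3 (augZ t) = wF3 (c3w t) := by
  rw [wF3_apply, augZ_eq, c3w_re, c3w_im]
  simp only [map_add, map_sub]
  linear_combination mul3_F3 (zF3 t.x2)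

theorem inj3 (t : C3) (h1 : augZ t = 0) (h2 : c3w t = 0) : t = 0 := by
  rw [augZ_eq] at h1
  have h3 := c3w_re t
  have h4 := c3w_im t
  rw [h2] at h3 h4
  simp only [Eis.zero_re, Eis.zero_im] at h3 h4
  ext <;> simp <;> omega

theorem dvd3' {x y : ℤ} (h : zF3 x = zF3 y) : (3 : ℤ) ∣ x - y := by
  have h' : ((x : ℤ) : ZMod 3) = ((y : ℤ) : ZMod 3) := h
  exact (ZMod.intCast_eq_intCast_iff_dvd_sub y x 3).1 h'.symm

theorem surj3 (x : ℤ) (y : ZW) (h : zF3 x = wF3 y) : ∃ t : C3, augZ t = x ∧ c3w t = y := by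
  rw [wF3_apply, ← map_add] at h
  obtain ⟨k, hk⟩ := dvd3' h
  refine ⟨⟨y.re + k, y.im + k, k⟩, ?_, ?_⟩
  · rw [augZ_eq]
    simp only
    omega
  · ext
    · rw [c3w_re]; ring
    · rw [c3w_im]; ring

theorem c9z_re0 (t : C9) : (c9z t).re.x0 =
    t.x0.x0 - t.x2.x0 + t.x1.x1 + t.x2.x1 - t.x0.x2 - t.x1.x2 := by
  simp [c9z, c3z, zz3, Zt.zeta]; ring
theorem c9z_re1 (t : C9) : (c9z t).re.x1 = - t.x0.x1 - t.x2.x1 + t.x0.x2 + t.x2.x2 := by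
  simp [c9z, c3z, zz3, Zt.zeta]; ring
theorem c9z_re2 (t : C9) : (c9z t).re.x2 = - t.x1.x1 + t.x1.x2 := by
  simp [c9z, c3z, zz3, Zt.zeta]; ring
theorem c9z_im0 (t : C9) : (c9z t).im.x0 =
    t.x1.x0 - t.x0.x1 - t.x1.x1 + t.x2.x1 + t.x0.x2 - t.x2.x2 := by
  simp [c9z, c3z, zz3, Zt.zeta]; ring
theorem c9z_im1 (t : C9) : (c9z t).im.x1 = t.x2.x0 + t.x1.x1 - t.x2.x1 - t.x1.x2 := by
  simp [c9z, c3z, zz3, Zt.zeta]; ring
theorem c9z_im2 (t : C9) : (c9z t).im.x2 = t.x0.x1 - t.x0.x2 := by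
  simp [c9z, c3z, zz3, Zt.zeta]; ring

theorem c9c3_apply (t : C9) :
    c9c3 t = ⟨augZ t.x0, 0, 0⟩ + ⟨augZ t.x1, 0, 0⟩ * ⟨0, 1, 0⟩ +
      ⟨augZ t.x2, 0, 0⟩ * (⟨0, 1, 0⟩ * ⟨0, 1, 0⟩) := rfl

theorem c9c3_x0 (t : C9) : (c9c3 t).x0 = t.x0.x0 + t.x0.x1 + t.x0.x2 := by
  rw [c9c3_apply]; simp [augZ_eq]
theorem c9c3_x1 (t : C9) : (c9c3 t).x1 = t.x1.x0 + t.x1.x1 + t.x1.x2 := by
  rw [c9c3_apply]; simp [augZ_eq]
theorem c9c3_x2 (t : C9) : (c9c3 t).x2 = t.x2.x0 + t.x2.x1 + t.x2.x2 := by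
  rw [c9c3_apply]; simp [augZ_eq]

theorem zF3C3_x0 (x : Z9) : (zF3C3 x).x0 =
    zF3 (x.re.x0 + 2 * x.re.x2 + x.im.x1 + x.im.x2) := by
  simp [zF3C3, pF3, u3f, Tri.gen]
  ring
theorem zF3C3_x1 (x : Z9) : (zF3C3 x).x1 =
    zF3 (x.re.x1 + x.re.x2 + x.im.x0 + 2 * x.im.x2) := by
  simp [zF3C3, pF3, u3f, Tri.gen]
  ring
theorem zF3C3_x2 (x : Z9) : (zF3C3 x).x2 =
    zF3 (x.re.x1 + x.re.x2 + x.im.x1 + x.im.x2) := by
  simp [zF3C3, pF3, u3f, Tri.gen]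
  ring

theorem zF3_congr {x y : ℤ} (h : (3 : ℤ) ∣ x - y) : zF3 x = zF3 y := by
  have h' := (ZMod.intCast_eq_intCast_iff_dvd_sub y x 3).2 h
  exact h'.symm

/-- the square `ℤ[C_9] → ℤ[ζ_9], ℤ[C_3] → 𝔽_3[C_3]` commutes -/
theorem sq9 (t : C9) : zF3C3 (c9z t) = c3f (c9c3 t) := by
  ext
  · rw [zF3C3_x0, c9z_re0, c9z_re2, c9z_im1, c9z_im2]
    change _ = zF3 (c9c3 t).x0
    rw [c9c3_x0]
    apply zF3_congr
    omega
  · rw [zF3C3_x1, c9z_re1, c9z_re2, c9z_im0, c9z_im2]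
    change _ = zF3 (c9c3 t).x1
    rw [c9c3_x1]
    apply zF3_congr
    omega
  · rw [zF3C3_x2, c9z_re1, c9z_re2, c9z_im1, c9z_im2]
    change _ = zF3 (c9c3 t).x2
    rw [c9c3_x2]
    apply zF3_congr
    omega

theorem inj9 (t : C9) (h1 : c9z t = 0) (h2 : c9c3 t = 0) : t = 0 := by
  have a1 := c9z_re0 t
  have a2 := c9z_re1 t
  have a3 := c9z_re2 t
  have a4 := c9z_im0 t
  have a5 := c9z_im1 t
  have a6 := c9z_im2 t
  have a7 := c9c3_x0 t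
  have a8 := c9c3_x1 t
  have a9 := c9c3_x2 t
  rw [h1] at a1 a2 a3 a4 a5 a6
  rw [h2] at a7 a8 a9
  simp only [Zt.zero_re, Zt.zero_im, Cub.zero_x0, Cub.zero_x1, Cub.zero_x2, Tri.zero_x0,
    Tri.zero_x1, Tri.zero_x2] at *
  ext <;> simp <;> omega

theorem surj9 (x : Z9) (y : C3) (h : zF3C3 x = c3f y) : ∃ t : C9, c9z t = x ∧ c9c3 t = y := by
  have h0 : (zF3C3 x).x0 = zF3 y.x0 := congrArg Tri.x0 h
  have h1 : (zF3C3 x).x1 = zF3 y.x1 := congrArg Tri.x1 h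
  have h2 : (zF3C3 x).x2 = zF3 y.x2 := congrArg Tri.x2 h
  rw [zF3C3_x0] at h0
  rw [zF3C3_x1] at h1
  rw [zF3C3_x2] at h2
  have d0 := dvd3' h0
  have d1 := dvd3' h1
  have d2 := dvd3' h2
  obtain ⟨k0, hk0⟩ : (3 : ℤ) ∣ y.x0 - (x.re.x0 + x.im.x1 + 2 * x.re.x2) - x.im.x2 := by omega
  obtain ⟨k1, hk1⟩ : (3 : ℤ) ∣ y.x1 - (x.im.x0 + 2 * x.im.x2 - x.re.x2 + x.re.x1) + x.re.x2 := by
    omega
  obtain ⟨k2, hk2⟩ : (3 : ℤ) ∣ y.x2 - (x.im.x1 + x.re.x2 - x.re.x1 - x.im.x2) + x.re.x1 +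
    x.im.x2 := by omega
  refine ⟨⟨⟨x.re.x0 + x.im.x1 + 2 * x.re.x2 + k0, x.im.x2 + k0, k0⟩,
    ⟨x.im.x0 + 2 * x.im.x2 - x.re.x2 + x.re.x1 + k1, -x.re.x2 + k1, k1⟩,
    ⟨x.im.x1 + x.re.x2 - x.re.x1 - x.im.x2 + k2, -x.re.x1 - x.im.x2 + k2, k2⟩⟩, ?_, ?_⟩
  · ext
    · rw [c9z_re0]; ring
    · rw [c9z_re1]; ring
    · rw [c9z_re2]; ring
    · rw [c9z_im0]; ring
    · rw [c9z_im1]; ring
    · rw [c9z_im2]; ring
  · ext
    · rw [c9c3_x0]; simp only; omega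
    · rw [c9c3_x1]; simp only; omega
    · rw [c9c3_x2]; simp only; omega

/-! ### `TR (Dbl ℤ[C_3] false)` -/

theorem units_F3 : ∀ δ δ' : Dbl F3 false, δ * δ' = 1 → ∃ p ∈ ([((1 : Dbl ℤ false), (1 : Dbl ℤ false)),
    (-1, -1), (⟨0, 1⟩, ⟨0, 1⟩), (⟨0, -1⟩, ⟨0, -1⟩)] : List _),
    p.1 * p.2 = 1 ∧ p.2 * p.1 = 1 ∧ Dbl.map zF3 zF3_conj p.1 = δ := by
  decide

theorem TR_DblZ (b : Bool) : TR (Dbl ℤ b) := by
  letI : CommRing (Dbl ℤ b) :=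
    { (inferInstance : Ring (Dbl ℤ b)) with
      mul_comm := fun x y => by ext <;> simp <;> ring }
  exact TR_comm (Dbl ℤ b)

theorem TR_C3f : TR (Dbl C3 false) :=
  TR_glue_Dbl augZ c3w zF3 wF3 augZ_conj c3w_conj zF3_conj wF3_conj sq3 inj3 surj3 false
    (TR_DblZ false) TR_Or (by
      intro δ δ' h _
      obtain ⟨p, -, h1, h2, h3⟩ := units_F3 δ δ' h
      exact ⟨p.1, p.2, h1, h2, h3⟩)

end Vale.Agent.P246.Q36
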