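import Vale.Agent.P246.Q24.H4

/-!
# Transitivity for `ℤ[ω]⟨j⟩`
-/

set_option linter.all false

namespace Vale.Agent.P246.Q36

open Vale.Agent.P246.Q24 Vale.Agent.P246.Q24.Zet

instance : Nontrivial ZW := ⟨0, 1, by decide⟩

namespace Wj

theorem nf_conj (x : ZW) : nf (conj x) = nf x := by
  simp [nf]; ring

/-- division with remainder of norm at most `1/3` -/
theorem div (α n : ZW) (hn : n ≠ 0) : ∃ q, 3 * nf (α - q * n) ≤ nf n := by
  have hm : 0 < nf n := lt_of_le_of_ne (nf_nonneg n) (fun h => hn (nf_eq_zero n h.symm))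
  obtain ⟨q1, q2, h1⟩ := hex (α * conj n).re (α * conj n).im (nf n) hm
  refine ⟨⟨q1, q2⟩, ?_⟩
  have h3 : (α - ⟨q1, q2⟩ * n) * conj n =
      ⟨(α * conj n).re - q1 * nf n, (α * conj n).im - q2 * nf n⟩ := by
    ext <;> simp [nf] <;> ring
  have h4 := congrArg nf h3
  rw [nf_mul, nf_conj] at h4
  have h6 : 3 * nf (α - ⟨q1, q2⟩ * n) * nf n ≤ nf n * nf n := by
    rw [mul_assoc, h4]
    exact h1
  exact le_of_mul_le_mul_right h6 hm

theorem conj_fixed {x : ZW} (h : conj x = x) : x.im = 0 := by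
  have := congrArg Eis.im h
  simp at this
  omega

theorem nrd_re (x : Dbl ZW true) : (Dbl.nrd x).re = nf x.fst + nf x.snd := by
  simp [Dbl.nrd, nf]; ring

theorem nrd_im (x : Dbl ZW true) : (Dbl.nrd x).im = 0 := conj_fixed (Dbl.conj_nrd x)

theorem nrd_nonneg (x : Dbl ZW true) : 0 ≤ (Dbl.nrd x).re := by
  rw [nrd_re]; exact add_nonneg (nf_nonneg _) (nf_nonneg _)

theorem nrd_zero (x : Dbl ZW true) (h : Dbl.nrd x = 0) : x = 0 := by
  have h1 := congrArg Eis.re h
  rw [nrd_re] at h1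
  have h2 := nf_nonneg x.fst
  have h3 := nf_nonneg x.snd
  have h4 : (0 : ZW).re = 0 := rfl
  ext : 1
  · exact nf_eq_zero _ (by linarith)
  · exact nf_eq_zero _ (by linarith)

/-- the determinant is a non-negative integer -/
theorem Dt_nonneg (g : Matrix (Fin 2) (Fin 2) (Dbl ZW true)) : 0 ≤ (Dt g).re := by
  by_cases h : g 0 0 = 0
  · rw [Dt_swap g h]
    have h1 := nrd_nonneg (g 0 1)
    have h2 := nrd_nonneg (g 1 0)
    have h3 := nrd_im (g 0 1)
    simp only [Eis.mul_re, h3, zero_mul, sub_zero]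
    exact mul_nonneg h1 h2
  · have h0 := Dt_schur g
    have h1 := congrArg Eis.re h0
    have h2 := nrd_im (g 0 0)
    have h3 := nrd_nonneg (g 0 0)
    have h4 : (Dbl.nrd (g 0 0)).re ≠ 0 := by
      intro h5
      exact h (nrd_zero _ (by ext <;> simp [h5, h2]))
    have h5 : 0 < (Dbl.nrd (g 0 0)).re := lt_of_le_of_ne h3 (Ne.symm h4)
    simp only [Eis.mul_re, Eis.mul_im, h2, mul_zero, zero_mul, sub_zero, add_zero] at h1
    have h6 := nrd_nonneg (Dbl.C (Dbl.nrd (g 0 0)) * g 1 1 - g 1 0 * Dbl.star (g 0 0) * g 0 1)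
    by_contra hcon
    have h7 : (Dbl.nrd (g 0 0)).re * (Dbl.nrd (g 0 0)).re * (Dt g).re < 0 :=
      mul_neg_of_pos_of_neg (mul_pos h5 h5) (not_le.1 hcon)
    have h8 : 0 ≤ (Dbl.nrd (g 0 0)).re *
      (Dbl.nrd (Dbl.C (Dbl.nrd (g 0 0)) * g 1 1 - g 1 0 * Dbl.star (g 0 0) * g 0 1)).re :=
      mul_nonneg h3 h6
    linarith

theorem Dt_im (g : Matrix (Fin 2) (Fin 2) (Dbl ZW true)) : (Dt g).im = 0 :=
  conj_fixed (conj_Dt g)

/-- the arithmetic data -/
def data : QuatData ZW where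
  N x := (nf x).natAbs
  mul x y := by rw [nf_mul, Int.natAbs_mul]
  zero x := by
    rw [Int.natAbs_eq_zero]
    constructor
    · exact nf_eq_zero x
    · rintro rfl
      simp [nf]
  conj' x := by rw [nf_conj]
  euclid α n hn := by
    obtain ⟨q, hq⟩ := div α n hn
    refine ⟨q, ?_⟩
    have hm : 0 < nf n := lt_of_le_of_ne (nf_nonneg n) (fun h => hn (nf_eq_zero n h.symm))
    have h1 := nf_nonneg (α - q * n)
    omega
  B := 2
  hP w hB hw := by
    refine ⟨1, one_ne_zero, ?_⟩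
    intro α
    obtain ⟨q, hq⟩ := div α w hw
    refine ⟨q, ?_⟩
    have h0 : (α - q * w) * conj (α - q * w) + 1 * conj 1 =
      (⟨nf (α - q * w) + 1, 0⟩ : ZW) := by
      ext <;> simp [nf] <;> ring
    have h1 : nf (⟨nf (α - q * w) + 1, 0⟩ : ZW) =
      (nf (α - q * w) + 1) * (nf (α - q * w) + 1) := by simp [nf]
    rw [h0, h1]
    have h2 := nf_nonneg (α - q * w)
    have h3 := nf_nonneg w
    have h4 : nf (α - q * w) + 1 < nf w := by omega
    rw [← Int.natAbs_mul]
    have h5 : (nf (α - q * w) + 1) * (nf (α - q * w) + 1) < nf w * nf w := by nlinarith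
    have h6 : 0 ≤ (nf (α - q * w) + 1) * (nf (α - q * w) + 1) := mul_self_nonneg _
    omega
  hQ g hN h0 := by
    have h1 := Dt_nonneg g
    have h2 := Dt_im g
    have h3 : nf (Dt g) = (Dt g).re * (Dt g).re := by rw [nf, h2]; ring
    rw [h3] at hN
    have h4 : (Dt g).re ≠ 0 := by
      intro h5
      apply h0
      ext
      · simpa using h5
      · simpa using h2
    have h5 : (Dt g).re = 1 := by
      have h6 : 0 ≤ (Dt g).re * (Dt g).re := mul_self_nonneg _
      have h7 : (Dt g).re * (Dt g).re < 2 := by omega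
      have h8 : (Dt g).re < 2 := by nlinarith
      omega
    have h6 : Dt g = 1 := by
      ext
      · simpa using h5
      · simpa using h2
    rw [h6]
    exact isUnit_one
  nz := nrd_zero

end Wj

theorem TR_Wj : TR (Dbl ZW true) := Wj.data.TR

/-- the determinant of an invertible matrix is `1` -/
theorem Dt_Wj (g h : Matrix (Fin 2) (Fin 2) (Dbl ZW true)) (hgh : g * h = 1) : Dt g = 1 := by
  have h1 := congrArg Dt hgh
  rw [Dt_mul, Dt_one] at h1
  have h2 := congrArg Eis.re h1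
  have h3 := Wj.Dt_im g
  have h4 := Wj.Dt_im h
  have h5 := Wj.Dt_nonneg g
  simp only [Eis.mul_re, h3, h4, mul_zero, sub_zero, Eis.one_re] at h2
  have h6 : (Dt g).re = 1 := by
    rcases Int.isUnit_iff.1 (IsUnit.of_mul_eq_one _ h2) with h7 | h7 <;> omega
  ext
  · simpa using h6
  · simpa using h3

end Vale.Agent.P246.Q36
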