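import Vale.Agent.P246.Q36.W0
import Vale.Agent.P246.Q36.W1

/-!
# Transitivity for `ℤ[C_3]⟨j⟩`
-/

set_option linter.all false

namespace Vale.Agent.P246.Q36

open Vale.Agent.P246.Q24

/-- `ℤ⟨j⟩ → 𝔽_3⟨j⟩` -/
def zj : Dbl ℤ true →+* Dbl F3 true := Dbl.map zF3 zF3_conj
/-- `ℤ[ω]⟨j⟩ → 𝔽_3⟨j⟩` -/
def wj : Dbl ZW true →+* Dbl F3 true := Dbl.map wF3 wF3_conj

theorem Zj_comm (x y : Dbl ℤ true) : x * y = y * x := by
  ext <;> simp <;> ring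

/-- `ℤ⟨j⟩` is commutative -/
local instance : CommRing (Dbl ℤ true) :=
  { (inferInstance : Ring (Dbl ℤ true)) with mul_comm := Zj_comm }

theorem TR_Zj : TR (Dbl ℤ true) := TR_comm (Dbl ℤ true)

theorem Zj_nrd_nonneg (x : Dbl ℤ true) : 0 ≤ Dbl.nrd x := by
  have : Dbl.nrd x = x.fst * x.fst + x.snd * x.snd := by simp [Dbl.nrd]
  rw [this]
  exact add_nonneg (mul_self_nonneg _) (mul_self_nonneg _)

theorem Zj_nrd_zero (x : Dbl ℤ true) (h : Dbl.nrd x = 0) : x = 0 := by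
  have h1 : Dbl.nrd x = x.fst * x.fst + x.snd * x.snd := by simp [Dbl.nrd]
  rw [h1] at h
  have h2 := mul_self_nonneg x.fst
  have h3 := mul_self_nonneg x.snd
  ext
  · exact mul_self_eq_zero.1 (by linarith)
  · exact mul_self_eq_zero.1 (by linarith)

theorem Dt_Zj_nonneg (g : Matrix (Fin 2) (Fin 2) (Dbl ℤ true)) : 0 ≤ Dt g := by
  by_cases h : g 0 0 = 0
  · rw [Dt_swap g h]
    exact mul_nonneg (Zj_nrd_nonneg _) (Zj_nrd_nonneg _)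
  · have h0 := Dt_schur g
    have h3 := Zj_nrd_nonneg (g 0 0)
    have h4 : Dbl.nrd (g 0 0) ≠ 0 := fun h5 => h (Zj_nrd_zero _ h5)
    have h5 : 0 < Dbl.nrd (g 0 0) := lt_of_le_of_ne h3 (Ne.symm h4)
    have h6 := Zj_nrd_nonneg (Dbl.C (Dbl.nrd (g 0 0)) * g 1 1 - g 1 0 * Dbl.star (g 0 0) * g 0 1)
    by_contra hcon
    have h7 : Dbl.nrd (g 0 0) * Dbl.nrd (g 0 0) * Dt g < 0 :=
      mul_neg_of_pos_of_neg (mul_pos h5 h5) (not_le.1 hcon)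
    have h8 := mul_nonneg h3 h6
    rw [← h0] at h8
    linarith

theorem Dt_Zj (g h : Matrix (Fin 2) (Fin 2) (Dbl ℤ true)) (hgh : g * h = 1) : Dt g = 1 := by
  have h1 := congrArg Dt hgh
  rw [Dt_mul, Dt_one] at h1
  have h5 := Dt_Zj_nonneg g
  rcases Int.isUnit_iff.1 (IsUnit.of_mul_eq_one _ h1) with h7 | h7 <;> omega

/-- units of norm one of `𝔽_9` lift to `ℤ[i]` -/
def l4 : List (Dbl ℤ true × Dbl ℤ true) :=
  [(⟨1, 0⟩, ⟨1, 0⟩), (⟨-1, 0⟩, ⟨-1, 0⟩), (⟨0, 1⟩, ⟨0, -1⟩), (⟨0, -1⟩, ⟨0, 1⟩)]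

theorem l4_spec : ∀ p ∈ l4, p.1 * p.2 = 1 ∧ p.2 * p.1 = 1 := by decide

instance : Fintype (Dbl F3 true) :=
  Fintype.ofEquiv (F3 × F3) ⟨fun p => ⟨p.1, p.2⟩, fun x => (x.fst, x.snd), fun _ => rfl,
    fun _ => rfl⟩

theorem l4_lift : ∀ δ : Dbl F3 true, Dbl.nrd δ = 1 → ∃ p ∈ l4, zj p.1 = δ := by decide +kernel

/-- `ℤ[C_3]⟨j⟩` as a pullback -/
theorem TR_C3j {T : Type} [Ring T] (f : T →+* Dbl ℤ true) (g : T →+* Dbl ZW true)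
    (hpq : ∀ t, zj (f t) = wj (g t)) (hinj : ∀ t, f t = 0 → g t = 0 → t = 0)
    (hsurj : ∀ x y, zj x = wj y → ∃ t, f t = x ∧ g t = y) : TR T := by
  apply TR_glue' f g zj wj hpq hinj hsurj TR_Zj TR_Wj
  intro a b gA kA gB kB CA CB δ δ' d1 d2 d3 d4
  have CA' := CA.map zj
  have CB' := CB.map wj
  rw [← hpq, ← hpq] at CB'
  have h1 := cmp_Dt CB' CA' d3 d4
  have h2 : Dt (zj.mapMatrix gA) = 1 := by
    rw [show zj = Dbl.map zF3 zF3_conj from rfl, Dt_map, Dt_Zj gA kA CA.gk, map_one]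
  have h3 : Dt (wj.mapMatrix gB) = 1 := by
    rw [show wj = Dbl.map wF3 wF3_conj from rfl, Dt_map, Dt_Wj gB kB CB.gk, map_one]
  rw [h2, h3, mul_one] at h1
  obtain ⟨p, hp, h4⟩ := l4_lift δ h1.symm
  obtain ⟨s1, s2⟩ := l4_spec p hp
  exact ⟨p.1, p.2, s1, s2, h4⟩

end Vale.Agent.P246.Q36
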