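import Vale.Agent.P246.Cyc.Base

/-!
# `Tri K a = K[u]/(u³ - a)`: the group rings `ℤ[C_3]`, `ℤ[C_9]`
-/

set_option linter.all false

namespace Vale.Agent.P246.Q36

open Vale.Agent.P246.Q24 Vale.Agent.P246.Cyc

/-- `a * conj a = 1` -/
class NOne {K : Type} [CommRing K] [Invo K] (a : K) : Prop where
  out : a * conj a = 1

instance {K : Type} [CommRing K] [Invo K] : NOne (1 : K) := ⟨by simp⟩

/-- `x0 + x1 u + x2 u²`, `u³ = a` -/
@[ext] structure Tri (K : Type) (a : K) where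
  x0 : K
  x1 : K
  x2 : K
deriving DecidableEq

namespace Tri

variable {K : Type} [CommRing K] {a : K}

instance : Zero (Tri K a) := ⟨⟨0, 0, 0⟩⟩
instance : One (Tri K a) := ⟨⟨1, 0, 0⟩⟩
instance : Add (Tri K a) := ⟨fun x y => ⟨x.x0 + y.x0, x.x1 + y.x1, x.x2 + y.x2⟩⟩
instance : Neg (Tri K a) := ⟨fun x => ⟨-x.x0, -x.x1, -x.x2⟩⟩
instance : Sub (Tri K a) := ⟨fun x y => ⟨x.x0 - y.x0, x.x1 - y.x1, x.x2 - y.x2⟩⟩
instance : Mul (Tri K a) := ⟨fun x y =>
  ⟨x.x0 * y.x0 + a * (x.x1 * y.x2 + x.x2 * y.x1),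
   x.x0 * y.x1 + x.x1 * y.x0 + a * (x.x2 * y.x2),
   x.x0 * y.x2 + x.x1 * y.x1 + x.x2 * y.x0⟩⟩
instance : SMul ℕ (Tri K a) := ⟨fun n x => ⟨n • x.x0, n • x.x1, n • x.x2⟩⟩
instance : SMul ℤ (Tri K a) := ⟨fun n x => ⟨n • x.x0, n • x.x1, n • x.x2⟩⟩
instance : NatCast (Tri K a) := ⟨fun n => ⟨n, 0, 0⟩⟩
instance : IntCast (Tri K a) := ⟨fun n => ⟨n, 0, 0⟩⟩

@[simp] theorem zero_x0 : (0 : Tri K a).x0 = 0 := rfl
@[simp] theorem zero_x1 : (0 : Tri K a).x1 = 0 := rfl
@[simp] theorem zero_x2 : (0 : Tri K a).x2 = 0 := rfl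
@[simp] theorem one_x0 : (1 : Tri K a).x0 = 1 := rfl
@[simp] theorem one_x1 : (1 : Tri K a).x1 = 0 := rfl
@[simp] theorem one_x2 : (1 : Tri K a).x2 = 0 := rfl
@[simp] theorem add_x0 (x y : Tri K a) : (x + y).x0 = x.x0 + y.x0 := rfl
@[simp] theorem add_x1 (x y : Tri K a) : (x + y).x1 = x.x1 + y.x1 := rfl
@[simp] theorem add_x2 (x y : Tri K a) : (x + y).x2 = x.x2 + y.x2 := rfl
@[simp] theorem neg_x0 (x : Tri K a) : (-x).x0 = -x.x0 := rfl
@[simp] theorem neg_x1 (x : Tri K a) : (-x).x1 = -x.x1 := rfl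
@[simp] theorem neg_x2 (x : Tri K a) : (-x).x2 = -x.x2 := rfl
@[simp] theorem sub_x0 (x y : Tri K a) : (x - y).x0 = x.x0 - y.x0 := rfl
@[simp] theorem sub_x1 (x y : Tri K a) : (x - y).x1 = x.x1 - y.x1 := rfl
@[simp] theorem sub_x2 (x y : Tri K a) : (x - y).x2 = x.x2 - y.x2 := rfl
@[simp] theorem mul_x0 (x y : Tri K a) : (x * y).x0 =
  x.x0 * y.x0 + a * (x.x1 * y.x2 + x.x2 * y.x1) := rfl
@[simp] theorem mul_x1 (x y : Tri K a) : (x * y).x1 =
  x.x0 * y.x1 + x.x1 * y.x0 + a * (x.x2 * y.x2) := rfl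
@[simp] theorem mul_x2 (x y : Tri K a) : (x * y).x2 =
  x.x0 * y.x2 + x.x1 * y.x1 + x.x2 * y.x0 := rfl
@[simp] theorem nsmul_x0 (n : ℕ) (x : Tri K a) : (n • x).x0 = n • x.x0 := rfl
@[simp] theorem nsmul_x1 (n : ℕ) (x : Tri K a) : (n • x).x1 = n • x.x1 := rfl
@[simp] theorem nsmul_x2 (n : ℕ) (x : Tri K a) : (n • x).x2 = n • x.x2 := rfl
@[simp] theorem zsmul_x0 (n : ℤ) (x : Tri K a) : (n • x).x0 = n • x.x0 := rfl
@[simp] theorem zsmul_x1 (n : ℤ) (x : Tri K a) : (n • x).x1 = n • x.x1 := rfl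
@[simp] theorem zsmul_x2 (n : ℤ) (x : Tri K a) : (n • x).x2 = n • x.x2 := rfl
@[simp] theorem natCast_x0 (n : ℕ) : (n : Tri K a).x0 = n := rfl
@[simp] theorem natCast_x1 (n : ℕ) : (n : Tri K a).x1 = 0 := rfl
@[simp] theorem natCast_x2 (n : ℕ) : (n : Tri K a).x2 = 0 := rfl
@[simp] theorem intCast_x0 (n : ℤ) : (n : Tri K a).x0 = n := rfl
@[simp] theorem intCast_x1 (n : ℤ) : (n : Tri K a).x1 = 0 := rfl
@[simp] theorem intCast_x2 (n : ℤ) : (n : Tri K a).x2 = 0 := rfl

instance : CommRing (Tri K a) where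
  add_assoc a b c := by ext <;> simp [add_assoc]
  zero_add a := by ext <;> simp
  add_zero a := by ext <;> simp
  add_comm a b := by ext <;> simp [add_comm]
  neg_add_cancel a := by ext <;> simp
  sub_eq_add_neg a b := by ext <;> simp [sub_eq_add_neg]
  nsmul n x := n • x
  nsmul_zero x := by ext <;> simp
  nsmul_succ n x := by ext <;> simp [add_mul]
  zsmul n x := n • x
  zsmul_zero' x := by ext <;> simp
  zsmul_succ' n x := by ext <;> simp [add_mul]
  zsmul_neg' n x := by ext <;> simp <;> ring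
  mul_assoc a b c := by ext <;> simp <;> ring
  one_mul a := by ext <;> simp
  mul_one a := by ext <;> simp
  mul_comm a b := by ext <;> simp <;> ring
  left_distrib a b c := by ext <;> simp <;> ring
  right_distrib a b c := by ext <;> simp <;> ring
  zero_mul a := by ext <;> simp
  mul_zero a := by ext <;> simp
  natCast n := n
  natCast_zero := by ext <;> simp
  natCast_succ n := by ext <;> simp
  intCast n := n
  intCast_ofNat n := by ext <;> simp
  intCast_negSucc n := by ext <;> simp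

@[simp] theorem ofNat_x0 (n : ℕ) [n.AtLeastTwo] : (ofNat(n) : Tri K a).x0 = ofNat(n) := by
  change ((n : ℕ) : Tri K a).x0 = _
  simp; rfl
@[simp] theorem ofNat_x1 (n : ℕ) [n.AtLeastTwo] : (ofNat(n) : Tri K a).x1 = 0 := by
  change ((n : ℕ) : Tri K a).x1 = _
  simp
@[simp] theorem ofNat_x2 (n : ℕ) [n.AtLeastTwo] : (ofNat(n) : Tri K a).x2 = 0 := by
  change ((n : ℕ) : Tri K a).x2 = _
  simp

/-- `conj u = u⁻¹ = conj a u²` -/
instance [Invo K] [ha : NOne a] : Invo (Tri K a) where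
  conj :=
    { toFun := fun x => ⟨conj x.x0, conj a * conj x.x2, conj a * conj x.x1⟩
      map_one' := by ext <;> simp
      map_zero' := by ext <;> simp
      map_add' := fun x y => by ext <;> simp <;> ring
      map_mul' := fun x y => by
        have h := ha.out
        ext
        · simp
          linear_combination (-(conj a * conj x.x1 * conj y.x2 + conj a * conj x.x2 * conj y.x1)) * h
        · simp
          linear_combination (-(conj a * conj x.x1 * conj y.x1)) * h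
        · simp
          ring }
  conj_conj x := by
    have h := ha.out
    ext
    · simp
    · simp
      linear_combination x.x1 * h
    · simp
      linear_combination x.x2 * h

@[simp] theorem conj_x0 [Invo K] [NOne a] (x : Tri K a) : (conj x : Tri K a).x0 = conj x.x0 := rfl
@[simp] theorem conj_x1 [Invo K] [NOne a] (x : Tri K a) :
    (conj x : Tri K a).x1 = conj a * conj x.x2 := rfl
@[simp] theorem conj_x2 [Invo K] [NOne a] (x : Tri K a) :
    (conj x : Tri K a).x2 = conj a * conj x.x1 := rfl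

/-- the generator -/
def gen (K : Type) [CommRing K] (a : K) : Tri K a := ⟨0, 1, 0⟩

instance [Invo K] [NOne a] : NOne (gen K a) := ⟨by
  have h := (inferInstance : NOne a).out
  ext <;> simp [gen, h]⟩

/-- the inclusion of the coefficients -/
def C : K →+* Tri K a where
  toFun := fun r => ⟨r, 0, 0⟩
  map_one' := rfl
  map_zero' := rfl
  map_add' := fun x y => by ext <;> simp
  map_mul' := fun x y => by ext <;> simp

@[simp] theorem C_x0 (r : K) : (C r : Tri K a).x0 = r := rfl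
@[simp] theorem C_x1 (r : K) : (C r : Tri K a).x1 = 0 := rfl
@[simp] theorem C_x2 (r : K) : (C r : Tri K a).x2 = 0 := rfl

/-- functoriality -/
def map {L : Type} [CommRing L] (f : K →+* L) {b : L} (h : f a = b) : Tri K a →+* Tri L b where
  toFun := fun x => ⟨f x.x0, f x.x1, f x.x2⟩
  map_one' := by ext <;> simp
  map_zero' := by ext <;> simp
  map_add' := fun x y => by ext <;> simp
  map_mul' := fun x y => by subst h; ext <;> simp

@[simp] theorem map_x0 {L : Type} [CommRing L] (f : K →+* L) {b : L} (h : f a = b) (x : Tri K a) :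
    (map f h x).x0 = f x.x0 := rfl
@[simp] theorem map_x1 {L : Type} [CommRing L] (f : K →+* L) {b : L} (h : f a = b) (x : Tri K a) :
    (map f h x).x1 = f x.x1 := rfl
@[simp] theorem map_x2 {L : Type} [CommRing L] (f : K →+* L) {b : L} (h : f a = b) (x : Tri K a) :
    (map f h x).x2 = f x.x2 := rfl

theorem map_conj {L : Type} [CommRing L] [Invo K] [Invo L] (f : K →+* L)
    (hf : ∀ r, f (conj r) = conj (f r)) {b : L} (h : f a = b) [NOne a] [NOne b] (x : Tri K a) :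
    map f h (conj x) = conj (map f h x) := by
  subst h
  ext <;> simp [hf]

/-- evaluation at a cube root of `a` -/
def ev {L : Type} [CommRing L] (f : K →+* L) (θ : L) (h : θ * θ * θ = f a) : Tri K a →+* L where
  toFun := fun x => f x.x0 + f x.x1 * θ + f x.x2 * (θ * θ)
  map_one' := by simp
  map_zero' := by simp
  map_add' := fun x y => by simp; ring
  map_mul' := fun x y => by
    simp
    rw [← h]
    ring

@[simp] theorem ev_apply {L : Type} [CommRing L] (f : K →+* L) (θ : L) (h : θ * θ * θ = f a)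
    (x : Tri K a) : ev f θ h x = f x.x0 + f x.x1 * θ + f x.x2 * (θ * θ) := rfl

theorem ev_conj {L : Type} [CommRing L] [Invo K] [Invo L] (f : K →+* L)
    (hf : ∀ r, f (conj r) = conj (f r)) [NOne a] (θ : L) (h : θ * θ * θ = f a)
    (hθ : θ * conj θ = 1) (x : Tri K a) : ev f θ h (conj x) = conj (ev f θ h x) := by
  have e1 : conj (f a) = conj θ * conj θ * conj θ := by rw [← h]; simp
  simp [hf, e1]
  linear_combination (conj (f x.x2) * (conj θ * conj θ)) * hθ +
    (conj (f x.x1) * conj θ * (1 + θ * conj θ)) * hθ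

instance {K : Type} {a : K} [Fintype K] : Fintype (Tri K a) :=
  Fintype.ofEquiv (K × K × K) ⟨fun x => ⟨x.1, x.2.1, x.2.2⟩, fun x => (x.x0, x.x1, x.x2),
    fun _ => rfl, fun _ => rfl⟩

end Tri

/-- `ℤ[C_3]` -/
abbrev C3 : Type := Tri ℤ 1
/-- `𝔽_3[C_3]` -/
abbrev F3C3 : Type := Tri F3 1
/-- `𝔽_2[C_3]` -/
abbrev F2C3 : Type := Tri F2 1
/-- `ℤ[C_9]` -/
abbrev C9 : Type := Tri C3 (Tri.gen ℤ 1)
/-- `𝔽_2[C_9]` -/
abbrev F2C9 : Type := Tri F2C3 (Tri.gen F2 1)
/-- `ℤ[ζ_9 + ζ_9⁻¹]` -/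
abbrev P9 : Type := Cub ℤ true
/-- `ℤ[ζ_9]` -/
abbrev Z9 : Type := Zt P9
/-- `𝔽_8` -/
abbrev F8 : Type := Cub F2 true
/-- `𝔽_64` -/
abbrev F64 : Type := Zt F8

end Vale.Agent.P246.Q36
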