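import Vale.Agent.P246.Gen.J
import Vale.Agent.P246.Q36.W0

/-!
# Abstract gluing along four pieces
-/

set_option linter.all false

namespace Vale.Agent.P246.Q36

open Vale.Agent.P246.Q24 Vale.Agent.P246.Gen

/-- a ring glued from four pieces -/
structure Glue (L T1 T2 T3 T4 C12 C34 C13 C24 : Type) [Ring L] [Ring T1] [Ring T2] [Ring T3]
    [Ring T4] [Ring C12] [Ring C34] [Ring C13] [Ring C24] where
  p1 : L →+* T1
  p2 : L →+* T2
  p3 : L →+* T3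
  p4 : L →+* T4
  a12 : T1 →+* C12
  b12 : T2 →+* C12
  a34 : T3 →+* C34
  b34 : T4 →+* C34
  a13 : T1 →+* C13
  b13 : T3 →+* C13
  a24 : T2 →+* C24
  b24 : T4 →+* C24
  h12 : ∀ x, a12 (p1 x) = b12 (p2 x)
  h34 : ∀ x, a34 (p3 x) = b34 (p4 x)
  h13 : ∀ x, a13 (p1 x) = b13 (p3 x)
  h24 : ∀ x, a24 (p2 x) = b24 (p4 x)
  inj : ∀ x, p1 x = 0 → p2 x = 0 → p3 x = 0 → p4 x = 0 → x = 0
  surj : ∀ t1 t2 t3 t4, a12 t1 = b12 t2 → a34 t3 = b34 t4 → a13 t1 = b13 t3 → a24 t2 = b24 t4 →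
    ∃ x, p1 x = t1 ∧ p2 x = t2 ∧ p3 x = t3 ∧ p4 x = t4

namespace Glue

variable {L T1 T2 T3 T4 C12 C34 C13 C24 : Type} [Ring L] [Ring T1] [Ring T2] [Ring T3]
    [Ring T4] [Ring C12] [Ring C34] [Ring C13] [Ring C24]
    (S : Glue L T1 T2 T3 T4 C12 C34 C13 C24)

theorem inj' {x y : L} (h1 : S.p1 x = S.p1 y) (h2 : S.p2 x = S.p2 y) (h3 : S.p3 x = S.p3 y)
    (h4 : S.p4 x = S.p4 y) : x = y := by
  apply sub_eq_zero.1
  apply S.inj
  · rw [map_sub, h1, sub_self]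
  · rw [map_sub, h2, sub_self]
  · rw [map_sub, h3, sub_self]
  · rw [map_sub, h4, sub_self]

/-- `T1 × T2 × T3 × T4` as a module -/
def TM (_ : Glue L T1 T2 T3 T4 C12 C34 C13 C24) : Type := T1 × T2 × T3 × T4

instance : AddCommGroup S.TM := inferInstanceAs (AddCommGroup (T1 × T2 × T3 × T4))

instance : Module L S.TM :=
  Module.compHom (T1 × T2 × T3 × T4) (S.p1.prod (S.p2.prod (S.p3.prod S.p4)))

/-- the module glued by `e` -/
def Md (e : C24) : Submodule L S.TM where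
  carrier := {t | S.a12 t.1 = S.b12 t.2.1 ∧ S.a34 t.2.2.1 = S.b34 t.2.2.2 ∧
    S.a13 t.1 = S.b13 t.2.2.1 ∧ S.a24 t.2.1 * e = S.b24 t.2.2.2}
  add_mem' := by
    rintro a b ⟨h1, h2, h3, h4⟩ ⟨k1, k2, k3, k4⟩
    refine ⟨?_, ?_, ?_, ?_⟩
    · change S.a12 (a.1 + b.1) = S.b12 (a.2.1 + b.2.1)
      rw [map_add, map_add, h1, k1]
    · change S.a34 (a.2.2.1 + b.2.2.1) = S.b34 (a.2.2.2 + b.2.2.2)
      rw [map_add, map_add, h2, k2]
    · change S.a13 (a.1 + b.1) = S.b13 (a.2.2.1 + b.2.2.1)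
      rw [map_add, map_add, h3, k3]
    · change S.a24 (a.2.1 + b.2.1) * e = S.b24 (a.2.2.2 + b.2.2.2)
      rw [map_add, map_add, add_mul, h4, k4]
  zero_mem' := by
    refine ⟨?_, ?_, ?_, ?_⟩
    · change S.a12 0 = S.b12 0
      rw [map_zero, map_zero]
    · change S.a34 0 = S.b34 0
      rw [map_zero, map_zero]
    · change S.a13 0 = S.b13 0
      rw [map_zero, map_zero]
    · change S.a24 0 * e = S.b24 0
      rw [map_zero, map_zero, zero_mul]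
  smul_mem' := by
    rintro c a ⟨h1, h2, h3, h4⟩
    refine ⟨?_, ?_, ?_, ?_⟩
    · change S.a12 (S.p1 c * a.1) = S.b12 (S.p2 c * a.2.1)
      rw [map_mul, map_mul, h1, S.h12]
    · change S.a34 (S.p3 c * a.2.2.1) = S.b34 (S.p4 c * a.2.2.2)
      rw [map_mul, map_mul, h2, S.h34]
    · change S.a13 (S.p1 c * a.1) = S.b13 (S.p3 c * a.2.2.1)
      rw [map_mul, map_mul, h3, S.h13]
    · change S.a24 (S.p2 c * a.2.1) * e = S.b24 (S.p4 c * a.2.2.2)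
      rw [map_mul, map_mul, mul_assoc, h4, S.h24]

theorem mem_Md {e : C24} {t : S.TM} : t ∈ S.Md e ↔
    S.a12 t.1 = S.b12 t.2.1 ∧ S.a34 t.2.2.1 = S.b34 t.2.2.2 ∧
    S.a13 t.1 = S.b13 t.2.2.1 ∧ S.a24 t.2.1 * e = S.b24 t.2.2.2 := Iff.rfl

theorem TM_ext {s t : S.TM} (h1 : s.1 = t.1) (h2 : s.2.1 = t.2.1) (h3 : s.2.2.1 = t.2.2.1)
    (h4 : s.2.2.2 = t.2.2.2) : s = t :=
  Prod.ext h1 (Prod.ext h2 (Prod.ext h3 h4))

/-- right multiplication -/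
def rmul (u1 : T1) (u2 : T2) (u3 : T3) (u4 : T4) : S.TM →ₗ[L] S.TM where
  toFun := fun t => (t.1 * u1, t.2.1 * u2, t.2.2.1 * u3, t.2.2.2 * u4)
  map_add' := fun s t => S.TM_ext (add_mul _ _ _) (add_mul _ _ _) (add_mul _ _ _) (add_mul _ _ _)
  map_smul' := fun a t => S.TM_ext (mul_assoc _ _ _) (mul_assoc _ _ _) (mul_assoc _ _ _)
    (mul_assoc _ _ _)

theorem rmul_rmul {u1 v1 : T1} {u2 v2 : T2} {u3 v3 : T3} {u4 v4 : T4} (h1 : u1 * v1 = 1)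
    (h2 : u2 * v2 = 1) (h3 : u3 * v3 = 1) (h4 : u4 * v4 = 1) (t : S.TM) :
    S.rmul v1 v2 v3 v4 (S.rmul u1 u2 u3 u4 t) = t := by
  apply S.TM_ext
  · change t.1 * u1 * v1 = _
    rw [mul_assoc, h1, mul_one]
  · change t.2.1 * u2 * v2 = _
    rw [mul_assoc, h2, mul_one]
  · change t.2.2.1 * u3 * v3 = _
    rw [mul_assoc, h3, mul_one]
  · change t.2.2.2 * u4 * v4 = _
    rw [mul_assoc, h4, mul_one]

theorem rmul_mem {e e' : C24} {u1 : T1} {u2 : T2} {u3 : T3} {u4 : T4}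
    (c12 : S.a12 u1 = S.b12 u2) (c34 : S.a34 u3 = S.b34 u4) (c13 : S.a13 u1 = S.b13 u3)
    (c24 : S.a24 u2 * e' = e * S.b24 u4) (t : S.TM) (ht : t ∈ S.Md e) :
    S.rmul u1 u2 u3 u4 t ∈ S.Md e' := by
  obtain ⟨g1, g2, g3, g4⟩ := ht
  refine ⟨?_, ?_, ?_, ?_⟩
  · change S.a12 (t.1 * u1) = S.b12 (t.2.1 * u2)
    rw [map_mul, map_mul, g1, c12]
  · change S.a34 (t.2.2.1 * u3) = S.b34 (t.2.2.2 * u4)
    rw [map_mul, map_mul, g2, c34]
  · change S.a13 (t.1 * u1) = S.b13 (t.2.2.1 * u3)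
    rw [map_mul, map_mul, g3, c13]
  · change S.a24 (t.2.1 * u2) * e' = S.b24 (t.2.2.2 * u4)
    rw [map_mul, map_mul, ← g4, mul_assoc, c24, mul_assoc]

/-- right multiplication as a map of glued modules -/
def rmulM {e e' : C24} {u1 : T1} {u2 : T2} {u3 : T3}
    {u4 : T4} (c12 : S.a12 u1 = S.b12 u2) (c34 : S.a34 u3 = S.b34 u4) (c13 : S.a13 u1 = S.b13 u3)
    (c24 : S.a24 u2 * e' = e * S.b24 u4) : S.Md e →ₗ[L] S.Md e' :=
  LinearMap.restrict (p := S.Md e) (q := S.Md e') (S.rmul u1 u2 u3 u4)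
    (fun t ht => S.rmul_mem c12 c34 c13 c24 t ht)

theorem rmulM_coe {e e' : C24} {u1 : T1} {u2 : T2} {u3 : T3}
    {u4 : T4} (c12 : S.a12 u1 = S.b12 u2) (c34 : S.a34 u3 = S.b34 u4) (c13 : S.a13 u1 = S.b13 u3)
    (c24 : S.a24 u2 * e' = e * S.b24 u4) (t : S.Md e) :
    (S.rmulM c12 c34 c13 c24 t : S.TM) = S.rmul u1 u2 u3 u4 t.1 := rfl

theorem _root_.Vale.Agent.P246.Q36.inv_compat {R S P : Type} [Ring R] [Ring S] [Ring P]
    (f : R →+* P) (g : S →+* P)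
    {u v : R} {u' v' : S} {d e : P} (h1 : v * u = 1) (h2 : u' * v' = 1) (h : f u * e = d * g u') :
    f v * d = e * g v' := by
  have : f v * (f u * e) * g v' = f v * (d * g u') * g v' := by rw [h]
  rw [← mul_assoc (f v), ← map_mul, h1, map_one, one_mul, mul_assoc, mul_assoc, ← map_mul,
    h2, map_one, mul_one] at this
  exact this.symm

theorem _root_.Vale.Agent.P246.Q36.inv_compat' {R S P : Type} [Ring R] [Ring S] [Ring P]
    (f : R →+* P) (g : S →+* P)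
    {u v : R} {u' v' : S} (h1 : v * u = 1) (h2 : u' * v' = 1) (h : f u = g u') :
    f v = g v' := by
  have := inv_compat f g (d := 1) (e := 1) h1 h2 (by rw [mul_one, one_mul, h])
  rwa [mul_one, one_mul] at this

/-- right multiplication by compatible units changes the gluing data -/
theorem Md_iso {e e' : C24} {u1 v1 : T1} {u2 v2 : T2} {u3 v3 : T3}
    {u4 v4 : T4} (h1 : u1 * v1 = 1) (h1' : v1 * u1 = 1) (h2 : u2 * v2 = 1) (h2' : v2 * u2 = 1)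
    (h3 : u3 * v3 = 1) (h3' : v3 * u3 = 1) (h4 : u4 * v4 = 1) (h4' : v4 * u4 = 1)
    (c12 : S.a12 u1 = S.b12 u2) (c34 : S.a34 u3 = S.b34 u4) (c13 : S.a13 u1 = S.b13 u3)
    (c24 : S.a24 u2 * e' = e * S.b24 u4) : Nonempty (S.Md e ≃ₗ[L] S.Md e') := by
  have k12 : S.a12 v1 = S.b12 v2 := inv_compat' S.a12 S.b12 h1' h2 c12
  have k34 : S.a34 v3 = S.b34 v4 := inv_compat' S.a34 S.b34 h3' h4 c34
  have k13 : S.a13 v1 = S.b13 v3 := inv_compat' S.a13 S.b13 h1' h3 c13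
  have k24 : S.a24 v2 * e = e' * S.b24 v4 := inv_compat S.a24 S.b24 h2' h4 c24
  refine ⟨LinearEquiv.ofLinear (S.rmulM c12 c34 c13 c24) (S.rmulM k12 k34 k13 k24) ?_ ?_⟩
  · apply LinearMap.ext
    intro t
    apply Subtype.ext
    rw [LinearMap.comp_apply, rmulM_coe, rmulM_coe]
    exact S.rmul_rmul h1' h2' h3' h4' t.1
  · apply LinearMap.ext
    intro t
    apply Subtype.ext
    rw [LinearMap.comp_apply, rmulM_coe, rmulM_coe]
    exact S.rmul_rmul h1 h2 h3 h4 t.1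

/-- compatible kernel generators -/
structure Loc (a b : L) (u1 v1 : T1) (u2 v2 : T2) (u3 v3 : T3) (u4 v4 : T4) (e : C24) :
    Prop where
  k1 : KG (S.p1 a) (S.p1 b) u1 v1
  k2 : KG (S.p2 a) (S.p2 b) u2 v2
  k3 : KG (S.p3 a) (S.p3 b) u3 v3
  k4 : KG (S.p4 a) (S.p4 b) u4 v4
  u12 : S.a12 u1 = S.b12 u2
  v12 : S.a12 v1 = S.b12 v2
  u34 : S.a34 u3 = S.b34 u4
  v34 : S.a34 v3 = S.b34 v4
  u13 : S.a13 u1 = S.b13 u3
  v13 : S.a13 v1 = S.b13 v3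
  u24 : S.a24 u2 = e * S.b24 u4
  v24 : S.a24 v2 = e * S.b24 v4

/-- `v ↦ (π_i(v_0) r_i + π_i(v_1) s_i)_i` -/
def toTM (r1 s1 : T1) (r2 s2 : T2) (r3 s3 : T3) (r4 s4 : T4) :
    (Fin 2 → L) →ₗ[L] S.TM where
  toFun v := (S.p1 (v 0) * r1 + S.p1 (v 1) * s1, S.p2 (v 0) * r2 + S.p2 (v 1) * s2,
    S.p3 (v 0) * r3 + S.p3 (v 1) * s3, S.p4 (v 0) * r4 + S.p4 (v 1) * s4)
  map_add' v w := by
    apply S.TM_ext
    · change S.p1 (v 0 + w 0) * r1 + S.p1 (v 1 + w 1) * s1 =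
        (S.p1 (v 0) * r1 + S.p1 (v 1) * s1) + (S.p1 (w 0) * r1 + S.p1 (w 1) * s1)
      rw [map_add, map_add]; noncomm_ring
    · change S.p2 (v 0 + w 0) * r2 + S.p2 (v 1 + w 1) * s2 =
        (S.p2 (v 0) * r2 + S.p2 (v 1) * s2) + (S.p2 (w 0) * r2 + S.p2 (w 1) * s2)
      rw [map_add, map_add]; noncomm_ring
    · change S.p3 (v 0 + w 0) * r3 + S.p3 (v 1 + w 1) * s3 =
        (S.p3 (v 0) * r3 + S.p3 (v 1) * s3) + (S.p3 (w 0) * r3 + S.p3 (w 1) * s3)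
      rw [map_add, map_add]; noncomm_ring
    · change S.p4 (v 0 + w 0) * r4 + S.p4 (v 1 + w 1) * s4 =
        (S.p4 (v 0) * r4 + S.p4 (v 1) * s4) + (S.p4 (w 0) * r4 + S.p4 (w 1) * s4)
      rw [map_add, map_add]; noncomm_ring
  map_smul' c v := by
    apply S.TM_ext
    · change S.p1 (c * v 0) * r1 + S.p1 (c * v 1) * s1 = S.p1 c * (S.p1 (v 0) * r1 + S.p1 (v 1) * s1)
      rw [map_mul, map_mul]; noncomm_ring
    · change S.p2 (c * v 0) * r2 + S.p2 (c * v 1) * s2 = S.p2 c * (S.p2 (v 0) * r2 + S.p2 (v 1) * s2)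
      rw [map_mul, map_mul]; noncomm_ring
    · change S.p3 (c * v 0) * r3 + S.p3 (c * v 1) * s3 = S.p3 c * (S.p3 (v 0) * r3 + S.p3 (v 1) * s3)
      rw [map_mul, map_mul]; noncomm_ring
    · change S.p4 (c * v 0) * r4 + S.p4 (c * v 1) * s4 = S.p4 c * (S.p4 (v 0) * r4 + S.p4 (v 1) * s4)
      rw [map_mul, map_mul]; noncomm_ring

variable {S}

theorem Loc.mem {a b : L} {u1 v1 : T1} {u2 v2 : T2} {u3 v3 : T3} {u4 v4 : T4}
    {e : C24} (K : S.Loc a b u1 v1 u2 v2 u3 v3 u4 v4 e) {x y : L} {t : S.TM}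
    (h1 : S.p1 x = t.1 * u1) (h1' : S.p1 y = t.1 * v1) (h2 : S.p2 x = t.2.1 * u2)
    (h2' : S.p2 y = t.2.1 * v2) (h3 : S.p3 x = t.2.2.1 * u3) (h3' : S.p3 y = t.2.2.1 * v3)
    (h4 : S.p4 x = t.2.2.2 * u4) (h4' : S.p4 y = t.2.2.2 * v4) : t ∈ S.Md e := by
  have e12 := S.h12 x
  have f12 := S.h12 y
  have e34 := S.h34 x
  have f34 := S.h34 y
  have e13 := S.h13 x
  have f13 := S.h13 y
  have e24 := S.h24 x
  have f24 := S.h24 y
  rw [h1, h2, map_mul, map_mul, K.u12] at e12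
  rw [h1', h2', map_mul, map_mul, K.v12] at f12
  rw [h3, h4, map_mul, map_mul, K.u34] at e34
  rw [h3', h4', map_mul, map_mul, K.v34] at f34
  rw [h1, h3, map_mul, map_mul, K.u13] at e13
  rw [h1', h3', map_mul, map_mul, K.v13] at f13
  rw [h2, h4, map_mul, map_mul, K.u24, ← mul_assoc] at e24
  rw [h2', h4', map_mul, map_mul, K.v24, ← mul_assoc] at f24
  exact S.mem_Md.2 ⟨right_cancel (inv_im S.b12 K.k2.inv) e12 f12,
    right_cancel (inv_im S.b34 K.k4.inv) e34 f34, right_cancel (inv_im S.b13 K.k3.inv) e13 f13,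
    right_cancel (inv_im S.b24 K.k4.inv) e24 f24⟩

theorem Loc.lift {a b : L} {u1 v1 : T1} {u2 v2 : T2} {u3 v3 : T3} {u4 v4 : T4}
    {e : C24} (K : S.Loc a b u1 v1 u2 v2 u3 v3 u4 v4 e) {t : S.TM} (ht : t ∈ S.Md e) :
    ∃ x y : L, S.p1 x = t.1 * u1 ∧ S.p1 y = t.1 * v1 ∧ S.p2 x = t.2.1 * u2 ∧
    S.p2 y = t.2.1 * v2 ∧ S.p3 x = t.2.2.1 * u3 ∧ S.p3 y = t.2.2.1 * v3 ∧
    S.p4 x = t.2.2.2 * u4 ∧ S.p4 y = t.2.2.2 * v4 := by
  obtain ⟨m1, m2, m3, m4⟩ := S.mem_Md.1 ht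
  obtain ⟨x, x1, x2, x3, x4⟩ := S.surj (t.1 * u1) (t.2.1 * u2) (t.2.2.1 * u3) (t.2.2.2 * u4)
    (by rw [map_mul, map_mul, m1, K.u12]) (by rw [map_mul, map_mul, m2, K.u34])
    (by rw [map_mul, map_mul, ← m3, K.u13])
    (by rw [map_mul, map_mul, ← m4, K.u24, mul_assoc])
  obtain ⟨y, y1, y2, y3, y4⟩ := S.surj (t.1 * v1) (t.2.1 * v2) (t.2.2.1 * v3) (t.2.2.2 * v4)
    (by rw [map_mul, map_mul, m1, K.v12]) (by rw [map_mul, map_mul, m2, K.v34])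
    (by rw [map_mul, map_mul, ← m3, K.v13])
    (by rw [map_mul, map_mul, ← m4, K.v24, mul_assoc])
  exact ⟨x, y, x1, y1, x2, y2, x3, y3, x4, y4⟩

theorem Loc.equiv {a b : L} {u1 v1 : T1} {u2 v2 : T2} {u3 v3 : T3} {u4 v4 : T4}
    {e : C24} (K : S.Loc a b u1 v1 u2 v2 u3 v3 u4 v4 e) :
    Nonempty (LinearMap.ker (colR a b) ≃ₗ[L] S.Md e) := by
  obtain ⟨r1, s1, i1⟩ := K.k1.inv
  obtain ⟨r2, s2, i2⟩ := K.k2.inv
  obtain ⟨r3, s3, i3⟩ := K.k3.inv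
  obtain ⟨r4, s4, i4⟩ := K.k4.inv
  have key : ∀ v : Fin 2 → L, v 0 * a + v 1 * b = 0 → ∀ t : S.TM, t = S.toTM r1 s1 r2 s2 r3 s3 r4 s4 v →
      S.p1 (v 0) = t.1 * u1 ∧ S.p1 (v 1) = t.1 * v1 ∧ S.p2 (v 0) = t.2.1 * u2 ∧
      S.p2 (v 1) = t.2.1 * v2 ∧ S.p3 (v 0) = t.2.2.1 * u3 ∧ S.p3 (v 1) = t.2.2.1 * v3 ∧
      S.p4 (v 0) = t.2.2.2 * u4 ∧ S.p4 (v 1) = t.2.2.2 * v4 := by
    intro v hv t ht
    obtain ⟨t1, x1, y1⟩ := K.k1.gen (S.p1 (v 0)) (S.p1 (v 1)) (by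
      rw [← map_mul, ← map_mul, ← map_add, hv, map_zero])
    obtain ⟨t2, x2, y2⟩ := K.k2.gen (S.p2 (v 0)) (S.p2 (v 1)) (by
      rw [← map_mul, ← map_mul, ← map_add, hv, map_zero])
    obtain ⟨t3, x3, y3⟩ := K.k3.gen (S.p3 (v 0)) (S.p3 (v 1)) (by
      rw [← map_mul, ← map_mul, ← map_add, hv, map_zero])
    obtain ⟨t4, x4, y4⟩ := K.k4.gen (S.p4 (v 0)) (S.p4 (v 1)) (by
      rw [← map_mul, ← map_mul, ← map_add, hv, map_zero])
    have z1 : t.1 = t1 := by rw [ht]; exact coef_unique i1 x1 y1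
    have z2 : t.2.1 = t2 := by rw [ht]; exact coef_unique i2 x2 y2
    have z3 : t.2.2.1 = t3 := by rw [ht]; exact coef_unique i3 x3 y3
    have z4 : t.2.2.2 = t4 := by rw [ht]; exact coef_unique i4 x4 y4
    rw [z1, z2, z3, z4]
    exact ⟨x1, y1, x2, y2, x3, y3, x4, y4⟩
  have hmem : ∀ v ∈ LinearMap.ker (colR a b), S.toTM r1 s1 r2 s2 r3 s3 r4 s4 v ∈ S.Md e := by
    intro v hv
    obtain ⟨x1, y1, x2, y2, x3, y3, x4, y4⟩ := key v hv _ rfl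
    exact K.mem x1 y1 x2 y2 x3 y3 x4 y4
  let f : LinearMap.ker (colR a b) →ₗ[L] S.Md e :=
    LinearMap.restrict (p := LinearMap.ker (colR a b)) (q := S.Md e)
      (S.toTM r1 s1 r2 s2 r3 s3 r4 s4) hmem
  have hf : ∀ v, (f v : S.TM) = S.toTM r1 s1 r2 s2 r3 s3 r4 s4 v.1 := fun v => rfl
  refine ⟨LinearEquiv.ofBijective f ⟨?_, ?_⟩⟩
  · rw [← LinearMap.ker_eq_bot, LinearMap.ker_eq_bot']
    rintro ⟨v, hv⟩ h0
    have h1 : S.toTM r1 s1 r2 s2 r3 s3 r4 s4 v = 0 := congrArg Subtype.val h0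
    obtain ⟨x1, y1, x2, y2, x3, y3, x4, y4⟩ := key v hv 0 h1.symm
    have e0 : v 0 = 0 := by
      apply S.inj'
      · rw [map_zero]; exact x1.trans (zero_mul _)
      · rw [map_zero]; exact x2.trans (zero_mul _)
      · rw [map_zero]; exact x3.trans (zero_mul _)
      · rw [map_zero]; exact x4.trans (zero_mul _)
    have e1 : v 1 = 0 := by
      apply S.inj'
      · rw [map_zero]; exact y1.trans (zero_mul _)
      · rw [map_zero]; exact y2.trans (zero_mul _)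
      · rw [map_zero]; exact y3.trans (zero_mul _)
      · rw [map_zero]; exact y4.trans (zero_mul _)
    apply Subtype.ext
    funext i
    fin_cases i
    · exact e0
    · exact e1
  · rintro ⟨t, ht⟩
    obtain ⟨x, y, x1, y1, x2, y2, x3, y3, x4, y4⟩ := K.lift ht
    have hker : ![x, y] ∈ LinearMap.ker (colR a b) := by
      change x * a + y * b = 0
      apply S.inj'
      · rw [map_add, map_mul, map_mul, x1, y1, mul_assoc, mul_assoc, ← mul_add, K.k1.ker,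
          mul_zero, map_zero]
      · rw [map_add, map_mul, map_mul, x2, y2, mul_assoc, mul_assoc, ← mul_add, K.k2.ker,
          mul_zero, map_zero]
      · rw [map_add, map_mul, map_mul, x3, y3, mul_assoc, mul_assoc, ← mul_add, K.k3.ker,
          mul_zero, map_zero]
      · rw [map_add, map_mul, map_mul, x4, y4, mul_assoc, mul_assoc, ← mul_add, K.k4.ker,
          mul_zero, map_zero]
    refine ⟨⟨![x, y], hker⟩, ?_⟩
    apply Subtype.ext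
    rw [hf]
    exact S.TM_ext (coef_unique i1 x1 y1) (coef_unique i2 x2 y2) (coef_unique i3 x3 y3)
      (coef_unique i4 x4 y4)

/-- the standard column -/
theorem Loc_col (S : Glue L T1 T2 T3 T4 C12 C34 C13 C24) (c : L) :
    S.Loc 1 (-c) (S.p1 c) 1 (S.p2 c) 1 (S.p3 c) 1 (S.p4 c) 1 1 where
  k1 := by rw [map_one, map_neg]; exact KG_col _
  k2 := by rw [map_one, map_neg]; exact KG_col _
  k3 := by rw [map_one, map_neg]; exact KG_col _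
  k4 := by rw [map_one, map_neg]; exact KG_col _
  u12 := S.h12 c
  v12 := by rw [map_one, map_one]
  u34 := S.h34 c
  v34 := by rw [map_one, map_one]
  u13 := S.h13 c
  v13 := by rw [map_one, map_one]
  u24 := by rw [one_mul]; exact S.h24 c
  v24 := by rw [map_one, map_one, one_mul]

end Glue

end Vale.Agent.P246.Q36
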