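import Vale.Agent.P246.Q36.W2
import Vale.Agent.P246.Q36.Maps

/-!
# `TR (Dbl ℤ[C_3] true)`
-/

set_option linter.all false

namespace Vale.Agent.P246.Q36

open Vale.Agent.P246.Q24

/-- `ℤ[C_3]⟨j⟩ → ℤ⟨j⟩` -/
def agj : Dbl C3 true →+* Dbl ℤ true := Dbl.map augZ augZ_conj
/-- `ℤ[C_3]⟨j⟩ → ℤ[ω]⟨j⟩` -/
def cwj : Dbl C3 true →+* Dbl ZW true := Dbl.map c3w c3w_conj

theorem TR_C3t : TR (Dbl C3 true) := by
  apply TR_C3j agj cwj
  · intro t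
    ext
    · exact sq3 _
    · exact sq3 _
  · intro t h1 h2
    ext : 1
    · exact inj3 _ (congrArg Dbl.fst h1) (congrArg Dbl.fst h2)
    · exact inj3 _ (congrArg Dbl.snd h1) (congrArg Dbl.snd h2)
  · intro x y h
    obtain ⟨s, hs1, hs2⟩ := surj3 x.fst y.fst (congrArg Dbl.fst h)
    obtain ⟨t, ht1, ht2⟩ := surj3 x.snd y.snd (congrArg Dbl.snd h)
    refine ⟨⟨s, t⟩, ?_, ?_⟩
    · exact Dbl.ext hs1 ht1
    · exact Dbl.ext hs2 ht2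

end Vale.Agent.P246.Q36
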