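import Vale.Agent.P246.Q36.P3
import Vale.Agent.P246.Q36.W3
import Vale.Agent.P246.Cyc.Ab

/-!
# Block I for `Q_36`: the constraint on the gluing unit
-/

set_option linter.all false

namespace Vale.Agent.P246.Q36

open Vale.Agent.P246 Vale.Agent.P246.Q24 Vale.Agent.P246.Cyc

/-- `𝔽_3[C_3] → 𝔽_3` -/
def augF : F3C3 →+* F3 := Tri.ev (RingHom.id F3) 1 (by decide)

theorem augF_conj (x : F3C3) : augF (conj x) = conj (augF x) :=
  Tri.ev_conj (RingHom.id F3) (fun _ => rfl) 1 (by decide) (by decide) x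

theorem augF_c3f (x : C3) : augF (c3f x) = zF3 (augZ x) := by
  rw [augZ_eq, map_add, map_add]
  simp [augF, c3f]

/-- `ℤ[η] → 𝔽_3` -/
def rho9 : P9 →+* F3 := augF.comp pF3

theorem rho9_apply (x : P9) : rho9 x = zF3 x.x0 + 2 * zF3 x.x1 + 4 * zF3 x.x2 := by
  change augF (pF3 x) = _
  simp [augF, pF3]
  ring

theorem rho9_sig (x : P9) : rho9 (Cub.sig x) = rho9 x := by
  rw [rho9_apply, rho9_apply]
  simp only [Cub.sig_x0, Cub.sig_x1, Cub.sig_x2, map_add, map_sub, map_mul, map_neg]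
  have h2 : zF3 2 = 2 := rfl
  have h4 : zF3 4 = 1 := rfl
  have h5 : zF3 (cS ℤ true) = 0 := rfl
  rw [h2, h4, h5]
  generalize zF3 x.x0 = a
  generalize zF3 x.x1 = b
  generalize zF3 x.x2 = c
  revert a b c
  decide

theorem rho9_nm (x : P9) : rho9 x = zF3 (Cub.nm x) := by
  have h1 := congrArg rho9 (Cub.nm_spec x)
  rw [map_mul, map_mul, rho9_sig, rho9_sig, rho9_sig] at h1
  have h2 : rho9 (Cub.C (Cub.nm x)) = zF3 (Cub.nm x) := by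
    rw [rho9_apply]
    simp
  rw [h2] at h1
  rw [← h1]
  generalize rho9 x = z
  revert z
  decide

/-- determinants over `T4` -/
theorem nm_of_inv {i : Bool} (g k : Matrix (Fin 2) (Fin 2) (Dbl (Zt (Cub ℤ i)) true))
    (hgk : g * k = 1) : ∃ v : Cub ℤ i, Dt g = Zt.C v ∧ Cub.nm v = 1 := by
  obtain ⟨v, hv, hv'⟩ := Dt_TN g
  obtain ⟨w, hw, hw'⟩ := Dt_TN k
  refine ⟨v, hv, ?_⟩
  have h1 : (Zt.C (v * w) : Zt (Cub ℤ i)) = Zt.C 1 := by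
    rw [map_mul, map_one, ← hv, ← hw, ← Dt_mul, hgk, Dt_one]
  have h2 := congrArg Cub.nm (Zt.C_inj h1)
  rw [Cub.nm_mul, Cub.nm_one] at h2
  have h3 := hv'.nm_nonneg
  rcases Int.isUnit_iff.1 (IsUnit.of_mul_eq_one _ h2) with h | h
  · exact h
  · omega

theorem Dt_T4 (g k : Matrix (Fin 2) (Fin 2) T4) (hgk : g * k = 1) :
    ∃ v : P9, Dt g = Zt.C v ∧ rho9 v = 1 := by
  obtain ⟨v, h1, h2⟩ := nm_of_inv g k hgk
  exact ⟨v, h1, by rw [rho9_nm, h2, map_one]⟩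

theorem Dt_b24 (g : Matrix (Fin 2) (Fin 2) T4) : Dt (b24.mapMatrix g) = zF3C3 (Dt g) :=
  Dt_map zF3C3 zF3C3_conj g
theorem Dt_a24 (g : Matrix (Fin 2) (Fin 2) T2) : Dt (a24.mapMatrix g) = c3f (Dt g) :=
  Dt_map c3f c3f_conj g

theorem zF3C3_C (v : P9) : zF3C3 (Zt.C v) = pF3 v := by
  simp [zF3C3]

theorem aug_Dt4 (g k : Matrix (Fin 2) (Fin 2) T4) (hgk : g * k = 1) :
    augF (Dt (b24.mapMatrix g)) = 1 := by
  obtain ⟨v, h1, h2⟩ := Dt_T4 g k hgk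
  rw [Dt_b24, h1, zF3C3_C]
  exact h2

theorem aug_Dt2 (g k : Matrix (Fin 2) (Fin 2) T2) (hgk : g * k = 1) :
    augF (Dt (a24.mapMatrix g)) = 1 := by
  rw [Dt_a24, augF_c3f]
  have h1 : Dt (agj.mapMatrix g) = augZ (Dt g) := Dt_map augZ augZ_conj g
  have h2 : Dt (agj.mapMatrix g) = 1 := Dt_Zj _ (agj.mapMatrix k) (by
    rw [← map_mul, hgk, map_one])
  rw [← h1, h2, map_one]

/-- the constraint on the gluing unit -/
theorem cond_of {a b : L9} {g2 k2 : Matrix (Fin 2) (Fin 2) T2} {g4 k4 : Matrix (Fin 2) (Fin 2) T4}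
    (C2 : Cmp (pi2 a) (pi2 b) g2 k2) (C4 : Cmp (pi4 a) (pi4 b) g4 k4) :
    ∃ E : Dbl F3C3 true, a24 (g2 1 0) = E * b24 (g4 1 0) ∧ a24 (g2 1 1) = E * b24 (g4 1 1) ∧
      (∃ E', E * E' = 1 ∧ E' * E = 1) ∧ augF (Dbl.nrd E) = 1 := by
  have M2 := C2.map a24
  have M4 := C4.map b24
  rw [← pi_24, ← pi_24] at M4
  obtain ⟨E, E', E1, E2, E3, E4, -, -⟩ := M2.KG.unit M4.KG
  refine ⟨E, E3, E4, ⟨E', E1, E2⟩, ?_⟩
  have h := congrArg augF (cmp_Dt M2 M4 E3 E4)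
  rw [map_mul, aug_Dt2 g2 k2 C2.gk, aug_Dt4 g4 k4 C4.gk, mul_one] at h
  exact h.symm

end Vale.Agent.P246.Q36
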