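import Vale.Agent.P246.Q36.Lift3
import Vale.Agent.P246.Q36.W0

/-!
# Lifting units of `𝔽_2[D_6]` to `ℤ[D_6]`
-/

set_option linter.all false

namespace Vale.Agent.P246.Q36

open Vale.Agent.P246.Q24 Vale.Agent.P246.Cyc

/-- reduction modulo two of `ℤ[D_6]` -/
def ra : Dbl C3 false →+* Dbl F2C3 false := Dbl.map c3m c3m_conj
/-- reduction modulo three of `ℤ[D_6]` -/
def rb (b : Bool) : Dbl C3 b →+* Dbl F3C3 b := Dbl.map c3f c3f_conj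

/-- units of `ℤ[D_6]` with their inverses -/
def l12 : List (Dbl C3 false × Dbl C3 false) :=
  let t : Dbl C3 false := ⟨⟨1, 1, -1⟩, ⟨0, 1, -1⟩⟩
  let t' : Dbl C3 false := ⟨⟨1, -1, 1⟩, ⟨0, -1, 1⟩⟩
  let u : Dbl C3 false := ⟨⟨0, 1, 0⟩, 0⟩
  let v : Dbl C3 false := ⟨⟨0, 0, 1⟩, 0⟩
  let y : Dbl C3 false := ⟨0, 1⟩
  [(1, 1), (u, v), (v, u), (y, y), (u * y, u * y), (v * y, v * y),
   (t, t'), (u * t, t' * v), (v * t, t' * u), (y * t, t' * y), (u * y * t, t' * (u * y)),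
   (v * y * t, t' * (v * y))]

theorem l12_spec : ∀ p ∈ l12, p.1 * p.2 = 1 ∧ p.2 * p.1 = 1 := by decide

theorem l12_lift : ∀ δ : Dbl F2C3 false, Dbl.nrd δ = 1 → ∃ p ∈ l12, ra p.1 = δ := by
  decide +kernel

theorem nrd_F2 : ∀ n m : F2C3, conj n = n → n * m = 1 → n = 1 := by decide

/-- every unit of `𝔽_2[D_6]` lifts to `ℤ[D_6]` -/
theorem lft1 (δ δ' : Dbl F2C3 false) (h : δ * δ' = 1) : Lft ra δ := by
  have h1 : Dbl.nrd δ * Dbl.nrd δ' = 1 := by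
    rw [← Dbl.nrd_mul, h]
    simp [Dbl.nrd]
  obtain ⟨p, hp, h2⟩ := l12_lift δ (nrd_F2 _ _ (Dbl.conj_nrd δ) h1)
  obtain ⟨h3, h4⟩ := l12_spec p hp
  exact ⟨p.1, p.2, h3, h4, h2⟩

/-- units of `𝔽_2[D_18] = 𝔽_2[D_6] × GL_2(𝔽_8)` lift to `ℤ[D_18]` -/
theorem lft_D18 (δ1 δ1' : Dbl F2C3 false) (h1 : δ1 * δ1' = 1) (δ3 δ3' : Dbl F64 false)
    (h3 : δ3 * δ3' = 1) : ∃ (e1 e1' : Dbl C3 false) (e3 e3' : Dbl Z9 false),
    e1 * e1' = 1 ∧ e1' * e1 = 1 ∧ e3 * e3' = 1 ∧ e3' * e3 = 1 ∧ rb false e1 = r3 false e3 ∧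
    ra e1 = δ1 ∧ r2 true e3 = δ3 := by
  obtain ⟨e1, e1', a1, a2, a3⟩ := lft1 δ1 δ1' h1
  obtain ⟨e3, e3', b1, b2, b3⟩ := lft23 δ3 δ3' h3 (rb false e1) (rb false e1')
    (by rw [← map_mul, a1, map_one])
  exact ⟨e1, e1', e3, e3', a1, a2, b1, b2, (congrArg Prod.snd b3).symm, a3, congrArg Prod.fst b3⟩

/-- compatible kernel generators over `ℤ[D_6]` and `Dbl ℤ[ζ_9] false` -/
theorem KG_D18 {a1 b1 c1 d1 : Dbl C3 false} {a3 b3 c3 d3 : Dbl Z9 false}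
    (h1 : c1 * a1 + d1 * b1 = 1) (h3 : c3 * a3 + d3 * b3 = 1) (ha : rb false a1 = r3 false a3)
    (hb : rb false b1 = r3 false b3) : ∃ u1 v1 u3 v3, KG a1 b1 u1 v1 ∧ KG a3 b3 u3 v3 ∧
    rb false u1 = r3 false u3 ∧ rb false v1 = r3 false v3 := by
  obtain ⟨g1, k1, C1⟩ := TR.cmp TR_C3f h1
  obtain ⟨g3, k3, D3⟩ := TR.cmp (TR_Zt_false true) h3
  have L1 := (C1.map (rb false)).KG
  have L3 := (D3.map (r3 false)).KG
  rw [← ha, ← hb] at L3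
  obtain ⟨δ, δ', p1, p2, p3, p4, -, -⟩ := L1.unit L3
  obtain ⟨ε, ε', q1, q2, q3⟩ := lft3 δ δ' p1
  rw [RingHom.mapMatrix_apply, RingHom.mapMatrix_apply, Matrix.map_apply, Matrix.map_apply] at p3 p4
  have D1K : Q24.KG a1 b1 (g1 1 0) (g1 1 1) := C1.KG
  have D3K : Q24.KG a3 b3 (g3 1 0) (g3 1 1) := D3.KG
  have K3 : Q24.KG a3 b3 (ε * g3 1 0) (ε * g3 1 1) := KG.scale D3K q1 q2
  have e1 : rb false (g1 1 0) = r3 false (ε * g3 1 0) := by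
    rw [map_mul, q3]; exact p3
  have e2 : rb false (g1 1 1) = r3 false (ε * g3 1 1) := by
    rw [map_mul, q3]; exact p4
  exact ⟨g1 1 0, g1 1 1, ε * g3 1 0, ε * g3 1 1, D1K, K3, e1, e2⟩

end Vale.Agent.P246.Q36
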