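import Vale.Agent.P246.Q36.I1
import Vale.Agent.P246.Q36.Lift1

/-!
# Block I for `Q_36`: compatible kernel generators
-/

set_option linter.all false

namespace Vale.Agent.P246.Q36

open Vale.Agent.P246 Vale.Agent.P246.Q24 Vale.Agent.P246.Cyc

theorem a12_eq : a12 = ra := rfl
theorem a34_eq : a34 = r2 true := rfl
theorem a13_eq : a13 = rb false := rfl
theorem b13_eq : b13 = r3 false := rfl

theorem map_uni {R S : Type} [Ring R] [Ring S] (f : R →+* S) {a b c d : R}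
    (h : c * a + d * b = 1) : f c * f a + f d * f b = 1 := by
  rw [← map_mul, ← map_mul, ← map_add, h, map_one]

/-- compatible kernel generators from kernel generators over the non-split pieces -/
theorem loc_of_minus {a b : L9} {c1 d1 : T1} {c2 d2 : T2} {c3 d3 : T3} {c4 d4 : T4}
    (h1 : c1 * pi1 a + d1 * pi1 b = 1) (h2 : c2 * pi2 a + d2 * pi2 b = 1)
    (h3 : c3 * pi3 a + d3 * pi3 b = 1) (h4 : c4 * pi4 a + d4 * pi4 b = 1)
    {u2 v2 : T2} {u4 v4 : T4} {E : Dbl F3C3 true}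
    (K2 : KG (pi2 a) (pi2 b) u2 v2) (K4 : KG (pi4 a) (pi4 b) u4 v4)
    (e1 : a24 u2 = E * b24 u4) (e2 : a24 v2 = E * b24 v4) :
    ∃ u1 v1 u3 v3, G9.Loc a b u1 v1 u2 v2 u3 v3 u4 v4 E := by
  obtain ⟨u1, v1, u3, v3, K1, K3, m1, m2⟩ := KG_D18 h1 h3
    (show rb false (pi1 a) = r3 false (pi3 a) from pi_13 a)
    (show rb false (pi1 b) = r3 false (pi3 b) from pi_13 b)
  have L1 : KG (ra (pi1 a)) (ra (pi1 b)) (ra u1) (ra v1) := KG.map' ra h1 K1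
  have L2 : KG (b12 (pi2 a)) (b12 (pi2 b)) (b12 u2) (b12 v2) := KG.map' b12 h2 K2
  have q1 : b12 (pi2 a) = ra (pi1 a) := (pi_12 a).symm
  have q2 : b12 (pi2 b) = ra (pi1 b) := (pi_12 b).symm
  rw [q1, q2] at L2
  obtain ⟨δ1, δ1', x1, x2, x3, x4, -, -⟩ := L2.unit L1
  have L3 : KG (r2 true (pi3 a)) (r2 true (pi3 b)) (r2 true u3) (r2 true v3) :=
    KG.map' (r2 true) h3 K3
  have L4 : KG (b34 (pi4 a)) (b34 (pi4 b)) (b34 u4) (b34 v4) := KG.map' b34 h4 K4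
  have q3 : b34 (pi4 a) = r2 true (pi3 a) := (pi_34 a).symm
  have q4 : b34 (pi4 b) = r2 true (pi3 b) := (pi_34 b).symm
  rw [q3, q4] at L4
  obtain ⟨δ3, δ3', y1, y2, y3, y4, -, -⟩ := L4.unit L3
  obtain ⟨ε1, ε1', ε3, ε3', z1, z2, z3, z4, z5, z6, z7⟩ := lft_D18 δ1 δ1' x1 δ3 δ3' y1
  have K1' : KG (pi1 a) (pi1 b) (ε1 * u1) (ε1 * v1) := KG.scale K1 z1 z2
  have K3' : KG (pi3 a) (pi3 b) (ε3 * u3) (ε3 * v3) := KG.scale K3 z3 z4
  refine ⟨ε1 * u1, ε1 * v1, ε3 * u3, ε3 * v3, ⟨K1', K2, K3', K4, ?_, ?_, ?_, ?_, ?_, ?_, e1, e2⟩⟩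
  · change ra (ε1 * u1) = b12 u2
    rw [map_mul, z6, x3]
  · change ra (ε1 * v1) = b12 v2
    rw [map_mul, z6, x4]
  · change r2 true (ε3 * u3) = b34 u4
    rw [map_mul, z7, y3]
  · change r2 true (ε3 * v3) = b34 v4
    rw [map_mul, z7, y4]
  · change rb false (ε1 * u1) = r3 false (ε3 * u3)
    rw [map_mul, map_mul, z5, m1]
  · change rb false (ε1 * v1) = r3 false (ε3 * v3)
    rw [map_mul, map_mul, z5, m2]

/-- every unimodular column has compatible kernel generators, with gluing unit of trivial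
invariant -/
theorem exists_loc9 (hT4 : TR T4) {a b c d : L9} (h : c * a + d * b = 1) :
    ∃ u1 v1 u2 v2 u3 v3 u4 v4 E, G9.Loc a b u1 v1 u2 v2 u3 v3 u4 v4 E ∧
      (∃ E', E * E' = 1 ∧ E' * E = 1) ∧ augF (Dbl.nrd E) = 1 := by
  have h1 := map_uni pi1 h
  have h2 := map_uni pi2 h
  have h3 := map_uni pi3 h
  have h4 := map_uni pi4 h
  obtain ⟨g2, k2, C2⟩ := TR.cmp TR_C3t h2
  obtain ⟨g4, k4, C4⟩ := TR.cmp hT4 h4
  obtain ⟨E, e1, e2, e3, e4⟩ := cond_of C2 C4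
  obtain ⟨u1, v1, u3, v3, hL⟩ := loc_of_minus h1 h2 h3 h4 C2.KG C4.KG e1 e2
  exact ⟨u1, v1, _, _, u3, v3, _, _, E, hL, e3, e4⟩

end Vale.Agent.P246.Q36
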