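import Vale.Agent.P246.Q36.I2

/-!
# Block I for `Q_36`: classification of the gluing units
-/

set_option linter.all false

namespace Vale.Agent.P246.Q36

open Vale.Agent.P246 Vale.Agent.P246.Q24 Vale.Agent.P246.Cyc

/-- units of `T2` with their inverses -/
def u2l : List (T2 × T2) :=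
  [(⟨⟨1, 0, 0⟩, ⟨0, 0, 0⟩⟩, ⟨⟨1, 0, 0⟩, ⟨0, 0, 0⟩⟩),
   (⟨⟨-1, 0, 0⟩, ⟨0, 0, 0⟩⟩, ⟨⟨-1, 0, 0⟩, ⟨0, 0, 0⟩⟩),
   (⟨⟨0, 0, 0⟩, ⟨1, 0, 0⟩⟩, ⟨⟨0, 0, 0⟩, ⟨-1, 0, 0⟩⟩),
   (⟨⟨0, 0, 0⟩, ⟨-1, 0, 0⟩⟩, ⟨⟨0, 0, 0⟩, ⟨1, 0, 0⟩⟩),
   (⟨⟨0, 1, 0⟩, ⟨0, 0, 0⟩⟩, ⟨⟨0, 0, 1⟩, ⟨0, 0, 0⟩⟩),
   (⟨⟨0, -1, 0⟩, ⟨0, 0, 0⟩⟩, ⟨⟨0, 0, -1⟩, ⟨0, 0, 0⟩⟩),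
   (⟨⟨0, 0, 0⟩, ⟨0, 1, 0⟩⟩, ⟨⟨0, 0, 0⟩, ⟨0, -1, 0⟩⟩),
   (⟨⟨0, 0, 0⟩, ⟨0, -1, 0⟩⟩, ⟨⟨0, 0, 0⟩, ⟨0, 1, 0⟩⟩),
   (⟨⟨0, 0, 1⟩, ⟨0, 0, 0⟩⟩, ⟨⟨0, 1, 0⟩, ⟨0, 0, 0⟩⟩),
   (⟨⟨0, 0, -1⟩, ⟨0, 0, 0⟩⟩, ⟨⟨0, -1, 0⟩, ⟨0, 0, 0⟩⟩),
   (⟨⟨0, 0, 0⟩, ⟨0, 0, 1⟩⟩, ⟨⟨0, 0, 0⟩, ⟨0, 0, -1⟩⟩),
   (⟨⟨0, 0, 0⟩, ⟨0, 0, -1⟩⟩, ⟨⟨0, 0, 0⟩, ⟨0, 0, 1⟩⟩)]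

/-- units of `T4` with their inverses -/
def u4l : List (T4 × T4) :=
  [(⟨⟨⟨1, 0, 0⟩, ⟨0, 0, 0⟩⟩, ⟨⟨0, 0, 0⟩, ⟨0, 0, 0⟩⟩⟩, ⟨⟨⟨1, 0, 0⟩, ⟨0, 0, 0⟩⟩, ⟨⟨0, 0, 0⟩, ⟨0, 0, 0⟩⟩⟩),
   (⟨⟨⟨-1, 0, 0⟩, ⟨0, 0, 0⟩⟩, ⟨⟨0, 0, 0⟩, ⟨0, 0, 0⟩⟩⟩, ⟨⟨⟨-1, 0, 0⟩, ⟨0, 0, 0⟩⟩, ⟨⟨0, 0, 0⟩, ⟨0, 0, 0⟩⟩⟩),
   (⟨⟨⟨0, 0, 0⟩, ⟨0, 0, 0⟩⟩, ⟨⟨1, 0, 0⟩, ⟨0, 0, 0⟩⟩⟩, ⟨⟨⟨0, 0, 0⟩, ⟨0, 0, 0⟩⟩, ⟨⟨-1, 0, 0⟩, ⟨0, 0, 0⟩⟩⟩),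
   (⟨⟨⟨0, 0, 0⟩, ⟨0, 0, 0⟩⟩, ⟨⟨-1, 0, 0⟩, ⟨0, 0, 0⟩⟩⟩, ⟨⟨⟨0, 0, 0⟩, ⟨0, 0, 0⟩⟩, ⟨⟨1, 0, 0⟩, ⟨0, 0, 0⟩⟩⟩),
   (⟨⟨⟨0, 0, 0⟩, ⟨1, 0, 0⟩⟩, ⟨⟨0, 0, 0⟩, ⟨0, 0, 0⟩⟩⟩, ⟨⟨⟨0, 1, 0⟩, ⟨-1, 0, 0⟩⟩, ⟨⟨0, 0, 0⟩, ⟨0, 0, 0⟩⟩⟩),
   (⟨⟨⟨0, 0, 0⟩, ⟨-1, 0, 0⟩⟩, ⟨⟨0, 0, 0⟩, ⟨0, 0, 0⟩⟩⟩, ⟨⟨⟨0, -1, 0⟩, ⟨1, 0, 0⟩⟩, ⟨⟨0, 0, 0⟩, ⟨0, 0, 0⟩⟩⟩),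
   (⟨⟨⟨0, 0, 0⟩, ⟨0, 0, 0⟩⟩, ⟨⟨0, 0, 0⟩, ⟨1, 0, 0⟩⟩⟩, ⟨⟨⟨0, 0, 0⟩, ⟨0, 0, 0⟩⟩, ⟨⟨0, 0, 0⟩, ⟨-1, 0, 0⟩⟩⟩),
   (⟨⟨⟨0, 0, 0⟩, ⟨0, 0, 0⟩⟩, ⟨⟨0, 0, 0⟩, ⟨-1, 0, 0⟩⟩⟩, ⟨⟨⟨0, 0, 0⟩, ⟨0, 0, 0⟩⟩, ⟨⟨0, 0, 0⟩, ⟨1, 0, 0⟩⟩⟩),
   (⟨⟨⟨-1, 0, 0⟩, ⟨0, 1, 0⟩⟩, ⟨⟨0, 0, 0⟩, ⟨0, 0, 0⟩⟩⟩, ⟨⟨⟨-1, 0, 1⟩, ⟨0, -1, 0⟩⟩, ⟨⟨0, 0, 0⟩, ⟨0, 0, 0⟩⟩⟩),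
   (⟨⟨⟨1, 0, 0⟩, ⟨0, -1, 0⟩⟩, ⟨⟨0, 0, 0⟩, ⟨0, 0, 0⟩⟩⟩, ⟨⟨⟨1, 0, -1⟩, ⟨0, 1, 0⟩⟩, ⟨⟨0, 0, 0⟩, ⟨0, 0, 0⟩⟩⟩),
   (⟨⟨⟨0, 0, 0⟩, ⟨0, 0, 0⟩⟩, ⟨⟨-1, 0, 0⟩, ⟨0, 1, 0⟩⟩⟩, ⟨⟨⟨0, 0, 0⟩, ⟨0, 0, 0⟩⟩, ⟨⟨1, 0, 0⟩, ⟨0, -1, 0⟩⟩⟩),
   (⟨⟨⟨0, 0, 0⟩, ⟨0, 0, 0⟩⟩, ⟨⟨1, 0, 0⟩, ⟨0, -1, 0⟩⟩⟩, ⟨⟨⟨0, 0, 0⟩, ⟨0, 0, 0⟩⟩, ⟨⟨-1, 0, 0⟩, ⟨0, 1, 0⟩⟩⟩),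
   (⟨⟨⟨0, 1, 0⟩, ⟨0, 0, 0⟩⟩, ⟨⟨0, 0, 0⟩, ⟨0, 0, 0⟩⟩⟩, ⟨⟨⟨3, 0, -1⟩, ⟨0, 0, 0⟩⟩, ⟨⟨0, 0, 0⟩, ⟨0, 0, 0⟩⟩⟩),
   (⟨⟨⟨0, -1, 0⟩, ⟨0, 0, 0⟩⟩, ⟨⟨0, 0, 0⟩, ⟨0, 0, 0⟩⟩⟩, ⟨⟨⟨-3, 0, 1⟩, ⟨0, 0, 0⟩⟩, ⟨⟨0, 0, 0⟩, ⟨0, 0, 0⟩⟩⟩),
   (⟨⟨⟨0, 0, 0⟩, ⟨0, 0, 0⟩⟩, ⟨⟨0, 1, 0⟩, ⟨0, 0, 0⟩⟩⟩, ⟨⟨⟨0, 0, 0⟩, ⟨0, 0, 0⟩⟩, ⟨⟨-3, 0, 1⟩, ⟨0, 0, 0⟩⟩⟩),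
   (⟨⟨⟨0, 0, 0⟩, ⟨0, 0, 0⟩⟩, ⟨⟨0, -1, 0⟩, ⟨0, 0, 0⟩⟩⟩, ⟨⟨⟨0, 0, 0⟩, ⟨0, 0, 0⟩⟩, ⟨⟨3, 0, -1⟩, ⟨0, 0, 0⟩⟩⟩),
   (⟨⟨⟨0, 0, 0⟩, ⟨0, 1, 0⟩⟩, ⟨⟨0, 0, 0⟩, ⟨0, 0, 0⟩⟩⟩, ⟨⟨⟨1, 0, 0⟩, ⟨-3, 0, 1⟩⟩, ⟨⟨0, 0, 0⟩, ⟨0, 0, 0⟩⟩⟩),
   (⟨⟨⟨0, 0, 0⟩, ⟨0, -1, 0⟩⟩, ⟨⟨0, 0, 0⟩, ⟨0, 0, 0⟩⟩⟩, ⟨⟨⟨-1, 0, 0⟩, ⟨3, 0, -1⟩⟩, ⟨⟨0, 0, 0⟩, ⟨0, 0, 0⟩⟩⟩),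
   (⟨⟨⟨0, 0, 0⟩, ⟨0, 0, 0⟩⟩, ⟨⟨0, 0, 0⟩, ⟨0, 1, 0⟩⟩⟩, ⟨⟨⟨0, 0, 0⟩, ⟨0, 0, 0⟩⟩, ⟨⟨0, 0, 0⟩, ⟨-3, 0, 1⟩⟩⟩),
   (⟨⟨⟨0, 0, 0⟩, ⟨0, 0, 0⟩⟩, ⟨⟨0, 0, 0⟩, ⟨0, -1, 0⟩⟩⟩, ⟨⟨⟨0, 0, 0⟩, ⟨0, 0, 0⟩⟩, ⟨⟨0, 0, 0⟩, ⟨3, 0, -1⟩⟩⟩),
   (⟨⟨⟨0, -1, 0⟩, ⟨0, 0, 1⟩⟩, ⟨⟨0, 0, 0⟩, ⟨0, 0, 0⟩⟩⟩, ⟨⟨⟨-3, 1, 1⟩, ⟨-1, 0, 0⟩⟩, ⟨⟨0, 0, 0⟩, ⟨0, 0, 0⟩⟩⟩),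
   (⟨⟨⟨0, 1, 0⟩, ⟨0, 0, -1⟩⟩, ⟨⟨0, 0, 0⟩, ⟨0, 0, 0⟩⟩⟩, ⟨⟨⟨3, -1, -1⟩, ⟨1, 0, 0⟩⟩, ⟨⟨0, 0, 0⟩, ⟨0, 0, 0⟩⟩⟩),
   (⟨⟨⟨0, 0, 0⟩, ⟨0, 0, 0⟩⟩, ⟨⟨0, -1, 0⟩, ⟨0, 0, 1⟩⟩⟩, ⟨⟨⟨0, 0, 0⟩, ⟨0, 0, 0⟩⟩, ⟨⟨3, 0, -1⟩, ⟨-1, 0, 0⟩⟩⟩),
   (⟨⟨⟨0, 0, 0⟩, ⟨0, 0, 0⟩⟩, ⟨⟨0, 1, 0⟩, ⟨0, 0, -1⟩⟩⟩, ⟨⟨⟨0, 0, 0⟩, ⟨0, 0, 0⟩⟩, ⟨⟨-3, 0, 1⟩, ⟨1, 0, 0⟩⟩⟩),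
   (⟨⟨⟨0, 0, 1⟩, ⟨0, 0, 0⟩⟩, ⟨⟨0, 0, 0⟩, ⟨0, 0, 0⟩⟩⟩, ⟨⟨⟨9, -1, -3⟩, ⟨0, 0, 0⟩⟩, ⟨⟨0, 0, 0⟩, ⟨0, 0, 0⟩⟩⟩),
   (⟨⟨⟨0, 0, -1⟩, ⟨0, 0, 0⟩⟩, ⟨⟨0, 0, 0⟩, ⟨0, 0, 0⟩⟩⟩, ⟨⟨⟨-9, 1, 3⟩, ⟨0, 0, 0⟩⟩, ⟨⟨0, 0, 0⟩, ⟨0, 0, 0⟩⟩⟩),
   (⟨⟨⟨0, 0, 0⟩, ⟨0, 0, 0⟩⟩, ⟨⟨0, 0, 1⟩, ⟨0, 0, 0⟩⟩⟩, ⟨⟨⟨0, 0, 0⟩, ⟨0, 0, 0⟩⟩, ⟨⟨-9, 1, 3⟩, ⟨0, 0, 0⟩⟩⟩),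
   (⟨⟨⟨0, 0, 0⟩, ⟨0, 0, 0⟩⟩, ⟨⟨0, 0, -1⟩, ⟨0, 0, 0⟩⟩⟩, ⟨⟨⟨0, 0, 0⟩, ⟨0, 0, 0⟩⟩, ⟨⟨9, -1, -3⟩, ⟨0, 0, 0⟩⟩⟩),
   (⟨⟨⟨0, 0, 0⟩, ⟨0, 0, 1⟩⟩, ⟨⟨0, 0, 0⟩, ⟨0, 0, 0⟩⟩⟩, ⟨⟨⟨3, 0, -1⟩, ⟨-9, 1, 3⟩⟩, ⟨⟨0, 0, 0⟩, ⟨0, 0, 0⟩⟩⟩),
   (⟨⟨⟨0, 0, 0⟩, ⟨0, 0, -1⟩⟩, ⟨⟨0, 0, 0⟩, ⟨0, 0, 0⟩⟩⟩, ⟨⟨⟨-3, 0, 1⟩, ⟨9, -1, -3⟩⟩, ⟨⟨0, 0, 0⟩, ⟨0, 0, 0⟩⟩⟩),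
   (⟨⟨⟨0, 0, 0⟩, ⟨0, 0, 0⟩⟩, ⟨⟨0, 0, 0⟩, ⟨0, 0, 1⟩⟩⟩, ⟨⟨⟨0, 0, 0⟩, ⟨0, 0, 0⟩⟩, ⟨⟨0, 0, 0⟩, ⟨-9, 1, 3⟩⟩⟩),
   (⟨⟨⟨0, 0, 0⟩, ⟨0, 0, 0⟩⟩, ⟨⟨0, 0, 0⟩, ⟨0, 0, -1⟩⟩⟩, ⟨⟨⟨0, 0, 0⟩, ⟨0, 0, 0⟩⟩, ⟨⟨0, 0, 0⟩, ⟨9, -1, -3⟩⟩⟩),
   (⟨⟨⟨0, 0, -1⟩, ⟨-1, 3, 0⟩⟩, ⟨⟨0, 0, 0⟩, ⟨0, 0, 0⟩⟩⟩, ⟨⟨⟨-8, 1, 3⟩, ⟨-3, 0, 1⟩⟩, ⟨⟨0, 0, 0⟩, ⟨0, 0, 0⟩⟩⟩),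
   (⟨⟨⟨0, 0, 1⟩, ⟨1, -3, 0⟩⟩, ⟨⟨0, 0, 0⟩, ⟨0, 0, 0⟩⟩⟩, ⟨⟨⟨8, -1, -3⟩, ⟨3, 0, -1⟩⟩, ⟨⟨0, 0, 0⟩, ⟨0, 0, 0⟩⟩⟩),
   (⟨⟨⟨0, 0, 0⟩, ⟨0, 0, 0⟩⟩, ⟨⟨0, 0, -1⟩, ⟨-1, 3, 0⟩⟩⟩, ⟨⟨⟨0, 0, 0⟩, ⟨0, 0, 0⟩⟩, ⟨⟨9, -1, -3⟩, ⟨-3, 0, 1⟩⟩⟩),
   (⟨⟨⟨0, 0, 0⟩, ⟨0, 0, 0⟩⟩, ⟨⟨0, 0, 1⟩, ⟨1, -3, 0⟩⟩⟩, ⟨⟨⟨0, 0, 0⟩, ⟨0, 0, 0⟩⟩, ⟨⟨-9, 1, 3⟩, ⟨3, 0, -1⟩⟩⟩)]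

theorem u2l_spec : ∀ p ∈ u2l, p.1 * p.2 = 1 ∧ p.2 * p.1 = 1 := by decide +kernel
theorem u4l_spec : ∀ p ∈ u4l, p.1 * p.2 = 1 ∧ p.2 * p.1 = 1 := by decide +kernel

/-- the gluing units of the four presentations -/
def Ek : Fin 4 → Dbl F3C3 true :=
  ![⟨⟨1, 0, 0⟩, ⟨0, 0, 0⟩⟩, ⟨⟨0, 2, 2⟩, ⟨0, 1, 2⟩⟩, ⟨⟨1, 1, 1⟩, ⟨0, 2, 0⟩⟩, ⟨⟨1, 0, 0⟩, ⟨2, 2, 2⟩⟩]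

/-- right factors -/
def lR : List (Dbl F3C3 true) :=
  [⟨⟨1, 0, 0⟩, ⟨0, 0, 0⟩⟩,
   ⟨⟨2, 0, 0⟩, ⟨0, 0, 0⟩⟩,
   ⟨⟨0, 0, 0⟩, ⟨1, 0, 0⟩⟩,
   ⟨⟨0, 0, 0⟩, ⟨2, 0, 0⟩⟩,
   ⟨⟨0, 1, 0⟩, ⟨0, 0, 0⟩⟩,
   ⟨⟨0, 2, 0⟩, ⟨0, 0, 0⟩⟩,
   ⟨⟨0, 0, 0⟩, ⟨0, 1, 0⟩⟩,
   ⟨⟨0, 0, 0⟩, ⟨0, 2, 0⟩⟩,
   ⟨⟨0, 0, 1⟩, ⟨0, 0, 0⟩⟩,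
   ⟨⟨0, 0, 2⟩, ⟨0, 0, 0⟩⟩,
   ⟨⟨0, 0, 0⟩, ⟨0, 0, 1⟩⟩,
   ⟨⟨0, 0, 0⟩, ⟨0, 0, 2⟩⟩,
   ⟨⟨0, 1, 1⟩, ⟨0, 0, 0⟩⟩,
   ⟨⟨0, 2, 2⟩, ⟨0, 0, 0⟩⟩,
   ⟨⟨0, 0, 0⟩, ⟨0, 1, 1⟩⟩,
   ⟨⟨0, 0, 0⟩, ⟨0, 2, 2⟩⟩,
   ⟨⟨1, 0, 1⟩, ⟨0, 0, 0⟩⟩,
   ⟨⟨2, 0, 2⟩, ⟨0, 0, 0⟩⟩,
   ⟨⟨0, 0, 0⟩, ⟨1, 0, 1⟩⟩,
   ⟨⟨0, 0, 0⟩, ⟨2, 0, 2⟩⟩,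
   ⟨⟨1, 1, 0⟩, ⟨0, 0, 0⟩⟩,
   ⟨⟨2, 2, 0⟩, ⟨0, 0, 0⟩⟩,
   ⟨⟨0, 0, 0⟩, ⟨1, 1, 0⟩⟩,
   ⟨⟨0, 0, 0⟩, ⟨2, 2, 0⟩⟩,
   ⟨⟨2, 1, 1⟩, ⟨0, 0, 0⟩⟩,
   ⟨⟨1, 2, 2⟩, ⟨0, 0, 0⟩⟩,
   ⟨⟨0, 0, 0⟩, ⟨2, 1, 1⟩⟩,
   ⟨⟨0, 0, 0⟩, ⟨1, 2, 2⟩⟩,
   ⟨⟨1, 2, 1⟩, ⟨0, 0, 0⟩⟩,
   ⟨⟨2, 1, 2⟩, ⟨0, 0, 0⟩⟩,
   ⟨⟨0, 0, 0⟩, ⟨1, 2, 1⟩⟩,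
   ⟨⟨0, 0, 0⟩, ⟨2, 1, 2⟩⟩,
   ⟨⟨1, 1, 2⟩, ⟨0, 0, 0⟩⟩,
   ⟨⟨2, 2, 1⟩, ⟨0, 0, 0⟩⟩,
   ⟨⟨0, 0, 0⟩, ⟨1, 1, 2⟩⟩,
   ⟨⟨0, 0, 0⟩, ⟨2, 2, 1⟩⟩]

/-- left factors -/
def lL : List (Dbl F3C3 true) :=
  [⟨⟨1, 0, 0⟩, ⟨0, 0, 0⟩⟩,
   ⟨⟨2, 0, 0⟩, ⟨0, 0, 0⟩⟩,
   ⟨⟨0, 0, 0⟩, ⟨1, 0, 0⟩⟩,
   ⟨⟨0, 0, 0⟩, ⟨2, 0, 0⟩⟩,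
   ⟨⟨0, 1, 0⟩, ⟨0, 0, 0⟩⟩,
   ⟨⟨0, 2, 0⟩, ⟨0, 0, 0⟩⟩,
   ⟨⟨0, 0, 0⟩, ⟨0, 1, 0⟩⟩,
   ⟨⟨0, 0, 0⟩, ⟨0, 2, 0⟩⟩,
   ⟨⟨0, 0, 1⟩, ⟨0, 0, 0⟩⟩,
   ⟨⟨0, 0, 2⟩, ⟨0, 0, 0⟩⟩,
   ⟨⟨0, 0, 0⟩, ⟨0, 0, 1⟩⟩,
   ⟨⟨0, 0, 0⟩, ⟨0, 0, 2⟩⟩,
   ⟨⟨0, 2, 2⟩, ⟨0, 1, 2⟩⟩,
   ⟨⟨0, 1, 1⟩, ⟨0, 2, 1⟩⟩,
   ⟨⟨0, 1, 2⟩, ⟨0, 2, 2⟩⟩,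
   ⟨⟨0, 2, 1⟩, ⟨0, 1, 1⟩⟩,
   ⟨⟨2, 0, 2⟩, ⟨2, 0, 1⟩⟩,
   ⟨⟨1, 0, 1⟩, ⟨1, 0, 2⟩⟩,
   ⟨⟨2, 0, 1⟩, ⟨2, 0, 2⟩⟩,
   ⟨⟨1, 0, 2⟩, ⟨1, 0, 1⟩⟩,
   ⟨⟨2, 2, 0⟩, ⟨1, 2, 0⟩⟩,
   ⟨⟨1, 1, 0⟩, ⟨2, 1, 0⟩⟩,
   ⟨⟨1, 2, 0⟩, ⟨2, 2, 0⟩⟩,
   ⟨⟨2, 1, 0⟩, ⟨1, 1, 0⟩⟩,
   ⟨⟨1, 1, 1⟩, ⟨0, 2, 0⟩⟩,
   ⟨⟨2, 2, 2⟩, ⟨0, 1, 0⟩⟩,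
   ⟨⟨0, 0, 1⟩, ⟨1, 1, 1⟩⟩,
   ⟨⟨0, 0, 2⟩, ⟨2, 2, 2⟩⟩,
   ⟨⟨1, 1, 1⟩, ⟨0, 0, 2⟩⟩,
   ⟨⟨2, 2, 2⟩, ⟨0, 0, 1⟩⟩,
   ⟨⟨1, 0, 0⟩, ⟨1, 1, 1⟩⟩,
   ⟨⟨2, 0, 0⟩, ⟨2, 2, 2⟩⟩,
   ⟨⟨1, 1, 1⟩, ⟨2, 0, 0⟩⟩,
   ⟨⟨2, 2, 2⟩, ⟨1, 0, 0⟩⟩,
   ⟨⟨0, 1, 0⟩, ⟨1, 1, 1⟩⟩,
   ⟨⟨0, 2, 0⟩, ⟨2, 2, 2⟩⟩,
   ⟨⟨1, 0, 0⟩, ⟨2, 2, 2⟩⟩,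
   ⟨⟨2, 0, 0⟩, ⟨1, 1, 1⟩⟩,
   ⟨⟨1, 1, 1⟩, ⟨1, 0, 0⟩⟩,
   ⟨⟨2, 2, 2⟩, ⟨2, 0, 0⟩⟩,
   ⟨⟨0, 1, 0⟩, ⟨2, 2, 2⟩⟩,
   ⟨⟨0, 2, 0⟩, ⟨1, 1, 1⟩⟩,
   ⟨⟨1, 1, 1⟩, ⟨0, 1, 0⟩⟩,
   ⟨⟨2, 2, 2⟩, ⟨0, 2, 0⟩⟩,
   ⟨⟨0, 0, 1⟩, ⟨2, 2, 2⟩⟩,
   ⟨⟨0, 0, 2⟩, ⟨1, 1, 1⟩⟩,
   ⟨⟨1, 1, 1⟩, ⟨0, 0, 1⟩⟩,
   ⟨⟨2, 2, 2⟩, ⟨0, 0, 2⟩⟩]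

theorem lR_eq : u4l.map (fun q => b24 q.1) = lR := by decide +kernel
theorem lL_eq : (List.finRange 4).flatMap (fun k => u2l.map (fun p => a24 p.1 * Ek k)) = lL := by
  decide +kernel

theorem lR_spec (y : Dbl F3C3 true) (hy : y ∈ lR) : ∃ q ∈ u4l, b24 q.1 = y := by
  rw [← lR_eq] at hy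
  exact List.mem_map.1 hy
theorem lL_spec (x : Dbl F3C3 true) (hx : x ∈ lL) : ∃ k : Fin 4, ∃ p ∈ u2l, a24 p.1 * Ek k = x := by
  rw [← lL_eq] at hx
  obtain ⟨k, -, h⟩ := List.mem_flatMap.1 hx
  exact ⟨k, List.mem_map.1 h⟩

/-- the number of an element -/
def code (e : Dbl F3C3 true) : ℕ :=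
  ZMod.val e.fst.x0 + 3 * (ZMod.val e.fst.x1 + 3 * (ZMod.val e.fst.x2 + 3 *
    (ZMod.val e.snd.x0 + 3 * (ZMod.val e.snd.x1 + 3 * ZMod.val e.snd.x2))))

/-- a table of factors -/
def tab : ℕ :=
  0x31e62432232d00062800001b31a32900032500061f00062302c62c00002300061b02801f02400032600000000000068c00071700000000060f00032100079400000000089000081300000000000030262100000000000000e00019500000000008d00062600011600000000021200029100000000000060232a00000000000089400061300000000081700031900069000000000078c00070f00000000000030631c00000000000071200088d00000000079100032f00080e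00000000061600069500000000000030b00068f00c79781000011400059289371400060c00008f00019751121000049600029341538e30d00061900000000000021600009100000000029500062a00001200000000010e00018d00000000000060600081529661178e00009200040c70d69200089600021500001148f18e00031000010d39351459700002f00000000000049100050e00000000041200001c00058d00000000039500031600000000000000b32e00000000000079000080f00000000071300031d00088c00000000069400061700000000000030a31800000000000081600069100000000089500032b00061200000000070e00078d00000000000030700060d08e71589200019600051081179600068e00000d0001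1559329200041400021149730c38f00032000000000000060e00079500000000068d00032700071600000000081200089100000000000030300032461e32831b00062200002d32c32300031f00062500062901a61a00002900062d02202501e00062700000000000008c00011700000000000f00062000019400000000029000021300000000000060300089721469370c00001000048e78f61000081400029700009340d10c00039200018f31159651500062b00000000000029400001300000000021700061800009000000000018c00010f00000000000060701d00000000000041300058c00000000049000002e00050f00000000031700039400000000000000a61d00000000000011200028d00000000019100062e00020e00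000000001600009500000000000060a00079311088f61400020c00039669780c00071000019300028f31501400058e00009750d49241100002b00000000000059500031200000000051600001800039100000000048d00040e00000000000000700071119280d69600028e00031461588e00079200011100020d39709600050c00001558f41049300062f00000000000019000020f00000000011300061c00028c00000000009400001700000000000060b01900000000000051700039000000000059400002a00031300000000040f00048c00000000000000602700000000000038d00041600000000030e00002000049500000000059100051200000000000000302100000000000030f00049400000000038c000026000417000000000513000590000000000000002000300600304309000604000009308305000301000601000605008608000005000609004001000000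

/-- the entry of the table -/
def ent (e : Dbl F3C3 true) : ℕ := tab / 4096 ^ code e % 4096

theorem getD_mem {A : Type} {l : List A} {d : A} (hd : d ∈ l) (i : ℕ) : l.getD i d ∈ l := by
  rw [List.getD_eq_getElem?_getD]
  rcases h : l[i]? with _ | x
  · exact hd
  · exact List.mem_of_getElem? h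

theorem class9_aux : ∀ e : Dbl F3C3 true, augF (Dbl.nrd e) = 1 →
    e * lR.getD (ent e / 64) 1 = lL.getD (ent e % 64) 1 := by
  decide +kernel

theorem one_lR : (1 : Dbl F3C3 true) ∈ lR := by decide +kernel
theorem one_lL : (1 : Dbl F3C3 true) ∈ lL := by decide +kernel

theorem class9 (e : Dbl F3C3 true) (h : augF (Dbl.nrd e) = 1) : ∃ y ∈ lR, e * y ∈ lL :=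
  ⟨lR.getD (ent e / 64) 1, getD_mem one_lR _, by
    rw [class9_aux e h]; exact getD_mem one_lL _⟩

/-- every glued module with trivial invariant is one of four -/
theorem class_iso (e : Dbl F3C3 true) (h : augF (Dbl.nrd e) = 1) :
    ∃ k : Fin 4, Nonempty (G9.Md e ≃ₗ[L9] G9.Md (Ek k)) := by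
  obtain ⟨y, hy, hey⟩ := class9 e h
  obtain ⟨q, hq, hq'⟩ := lR_spec y hy
  obtain ⟨k, p, hp, hp'⟩ := lL_spec _ hey
  obtain ⟨p1, p2⟩ := u2l_spec p hp
  obtain ⟨q1, q2⟩ := u4l_spec q hq
  obtain ⟨ε1, ε1', ε3, ε3', z1, z2, z3, z4, z5, z6, z7⟩ := lft_D18 (b12 p.1) (b12 p.2)
    (by rw [← map_mul, p1, map_one]) (b34 q.1) (b34 q.2) (by rw [← map_mul, q1, map_one])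
  exact ⟨k, G9.Md_iso z1 z2 p1 p2 z3 z4 q1 q2 z6 z7 z5 (by
    change a24 p.1 * Ek k = e * b24 q.1
    rw [hp', hq'])⟩

end Vale.Agent.P246.Q36
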