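import Vale.Agent.P246.Gen.J

/-!
# Relators of the exotic presentations of `Q_36`
-/

set_option linter.all false

namespace Vale.Agent.P246.Q36

open Vale.Agent.P246

/-- `x⁹ y⁻²` -/
def w10 : List (Fin 2 × Bool) :=
  [(0, true), (0, true), (0, true), (0, true), (0, true), (0, true), (0, true), (0, true),
   (0, true), (1, false), (1, false)]
/-- `y⁻¹ x y x x y⁻¹ x⁻¹ x⁻¹ y x⁻¹ x⁻¹ x⁻¹` -/
def w11 : List (Fin 2 × Bool) :=
  [(1, false), (0, true), (1, true), (0, true), (0, true), (1, false), (0, false), (0, false),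
   (1, true), (0, false), (0, false), (0, false)]
/-- `x⁴ y x⁻¹ y⁻¹ x⁴ y⁻²` -/
def w20 : List (Fin 2 × Bool) :=
  [(0, true), (0, true), (0, true), (0, true), (1, true), (0, false), (1, false), (0, true),
   (0, true), (0, true), (0, true), (1, false), (1, false)]
/-- `y x⁻¹ y⁻² x² y x` -/
def w21 : List (Fin 2 × Bool) :=
  [(1, true), (0, false), (1, false), (1, false), (0, true), (0, true), (1, true), (0, true)]
/-- `x y x⁻⁴ y⁻² x⁻⁴ y⁻¹` -/
def w30 : List (Fin 2 × Bool) :=
  [(0, true), (1, true), (0, false), (0, false), (0, false), (0, false), (1, false), (1, false),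
   (0, false), (0, false), (0, false), (0, false), (1, false)]
/-- `y⁻¹ x⁻¹ y² x² y⁻¹ x` -/
def w31 : List (Fin 2 × Bool) :=
  [(1, false), (0, false), (1, true), (1, true), (0, true), (0, true), (1, false), (0, true)]

/-- the relators of the presentation of class 1 -/
def rels1 : Fin 2 → FreeGroup (Fin 2) := ![FreeGroup.mk w10, FreeGroup.mk w11]
/-- the relators of the presentation of class 2 -/
def rels2 : Fin 2 → FreeGroup (Fin 2) := ![FreeGroup.mk w20, FreeGroup.mk w21]
/-- the relators of the presentation of class 3 -/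
def rels3 : Fin 2 → FreeGroup (Fin 2) := ![FreeGroup.mk w30, FreeGroup.mk w31]

end Vale.Agent.P246.Q36
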