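import Vale.Agent.P246.Q36.P3
import Vale.Agent.P246.Q36.JW

/-!
# Block J for `Q_36`: Fox derivatives of the relators
-/

set_option linter.all false

namespace Vale.Agent.P246.Q36

open Vale.Agent.P246 Vale.Agent.P246.Q24 QuaternionGroup Vale.Agent.P246.Cyc

/-- `x⁻¹` -/
noncomputable def X9' : L9 := elt (gensQ 9 0)⁻¹
/-- `y⁻¹` -/
noncomputable def Y9' : L9 := elt (gensQ 9 1)⁻¹

theorem X9'_eq : X9' = X9 ^ 17 := by
  rw [X9_pow]
  rfl

theorem Y9'_eq : Y9' = Y9 * X9 ^ 9 := by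
  rw [X9_pow, Y9, elt_mul_elt]
  rfl

theorem Xn9' : Xn' 9 = X9' := rfl

theorem Nx_eq : Nx 9 = 1 + X9 + X9 ^ 2 + X9 ^ 3 + X9 ^ 4 + X9 ^ 5 + X9 ^ 6 + X9 ^ 7 + X9 ^ 8 := by
  rw [Nx]
  simp only [Finset.sum_range_succ, Finset.sum_range_zero]
  simp only [← X9_pow, pow_zero, pow_one, zero_add]

/-- the inverse of `u` -/
def u9i : C9 := ⟨0, 0, ⟨0, 0, 1⟩⟩

theorem pp_X' : pp X9' = ⟨u9i, 0⟩ := by rw [X9'_eq, map_pow, pp_X]; decide +kernel
theorem pm_X' : pm X9' = ⟨-u9i, 0⟩ := by rw [X9'_eq, map_pow, pm_X]; decide +kernel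
theorem pp_Y' : pp Y9' = ⟨0, 1⟩ := by rw [Y9'_eq, map_mul, map_pow, pp_X, pp_Y]; decide +kernel
theorem pm_Y' : pm Y9' = ⟨0, -1⟩ := by rw [Y9'_eq, map_mul, map_pow, pm_X, pm_Y]; decide +kernel

theorem ppm_inj' {x y : L9} (h1 : pp x = pp y) (h2 : pm x = pm y) : x = y := by
  apply sub_eq_zero.1
  apply ppm_inj
  · rw [map_sub, h1, sub_self]
  · rw [map_sub, h2, sub_self]

theorem fw_nil (i : Fin 2) : foxWord (gensQ 9) [] i = 0 := rfl
theorem fw_0t (w : List (Fin 2 × Bool)) (i : Fin 2) : foxWord (gensQ 9) ((0, true) :: w) i =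
    (Pi.single 0 1 : Fin 2 → L9) i + X9 * foxWord (gensQ 9) w i := by
  rw [foxWord_true]; rfl
theorem fw_1t (w : List (Fin 2 × Bool)) (i : Fin 2) : foxWord (gensQ 9) ((1, true) :: w) i =
    (Pi.single 1 1 : Fin 2 → L9) i + Y9 * foxWord (gensQ 9) w i := by
  rw [foxWord_true]; rfl
theorem fw_0f (w : List (Fin 2 × Bool)) (i : Fin 2) : foxWord (gensQ 9) ((0, false) :: w) i =
    X9' * (foxWord (gensQ 9) w i - (Pi.single 0 1 : Fin 2 → L9) i) := by
  rw [foxWord_false]; rfl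
theorem fw_1f (w : List (Fin 2 × Bool)) (i : Fin 2) : foxWord (gensQ 9) ((1, false) :: w) i =
    Y9' * (foxWord (gensQ 9) w i - (Pi.single 1 1 : Fin 2 → L9) i) := by
  rw [foxWord_false]; rfl

theorem s00 : (Pi.single 0 1 : Fin 2 → L9) 0 = 1 := rfl
theorem s01 : (Pi.single 0 1 : Fin 2 → L9) 1 = 0 := rfl
theorem s10 : (Pi.single 1 1 : Fin 2 → L9) 0 = 0 := rfl
theorem s11 : (Pi.single 1 1 : Fin 2 → L9) 1 = 1 := rfl

/-- coefficients -/
noncomputable def be1 : L9 := X9 ^ 8 * Y9 - X9 ^ 10 * Y9 - X9 ^ 11 * Y9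
/-- coefficients -/
noncomputable def be2 : L9 := X9 ^ 8 * Y9 + X9 ^ 9 * Y9 - X9
/-- coefficients -/
noncomputable def be3 : L9 := 1 + X9 - X9 ^ 9 * Y9
/-- coefficients -/
noncomputable def ga2 : L9 := -X9 ^ 5
/-- coefficients -/
noncomputable def ga3 : L9 := -(X9 ^ 2 + X9 ^ 3 + X9 ^ 4 + X9 ^ 5) -
  (X9 ^ 14 + X9 ^ 15 + X9 ^ 16 + X9 ^ 17) * Y9

theorem f10_0 : foxWord (gensQ 9) w10 0 = 1 * Nx 9 + 0 * (Y9 + X9') := by
  rw [w10, Nx_eq]
  simp only [fw_nil, fw_0t, fw_0f, fw_1t, fw_1f, s00, s10]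
  apply ppm_inj'
  · simp only [map_add, map_sub, map_neg, map_mul, map_pow, map_one, map_zero, pp_X, pp_Y, pp_X', pp_Y']
    decide +kernel
  · simp only [map_add, map_sub, map_neg, map_mul, map_pow, map_one, map_zero, pm_X, pm_Y, pm_X', pm_Y']
    decide +kernel
theorem f10_1 : foxWord (gensQ 9) w10 1 = -(1 * (Y9 + 1)) + 0 * (1 - X9') := by
  rw [w10]
  simp only [fw_nil, fw_0t, fw_0f, fw_1t, fw_1f, s01, s11]
  apply ppm_inj'
  · simp only [map_add, map_sub, map_neg, map_mul, map_pow, map_one, map_zero, pp_X, pp_Y, pp_X', pp_Y']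
    decide +kernel
  · simp only [map_add, map_sub, map_neg, map_mul, map_pow, map_one, map_zero, pm_X, pm_Y, pm_X', pm_Y']
    decide +kernel
theorem f11_0 : foxWord (gensQ 9) w11 0 = 0 * Nx 9 + be1 * (Y9 + X9') := by
  rw [w11, Nx_eq, be1]
  simp only [fw_nil, fw_0t, fw_0f, fw_1t, fw_1f, s00, s10]
  apply ppm_inj'
  · simp only [map_add, map_sub, map_neg, map_mul, map_pow, map_one, map_zero, pp_X, pp_Y, pp_X', pp_Y']
    decide +kernel
  · simp only [map_add, map_sub, map_neg, map_mul, map_pow, map_one, map_zero, pm_X, pm_Y, pm_X', pm_Y']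
    decide +kernel
theorem f11_1 : foxWord (gensQ 9) w11 1 = -(0 * (Y9 + 1)) + be1 * (1 - X9') := by
  rw [w11, be1]
  simp only [fw_nil, fw_0t, fw_0f, fw_1t, fw_1f, s01, s11]
  apply ppm_inj'
  · simp only [map_add, map_sub, map_neg, map_mul, map_pow, map_one, map_zero, pp_X, pp_Y, pp_X', pp_Y']
    decide +kernel
  · simp only [map_add, map_sub, map_neg, map_mul, map_pow, map_one, map_zero, pm_X, pm_Y, pm_X', pm_Y']
    decide +kernel
theorem f20_0 : foxWord (gensQ 9) w20 0 = 1 * Nx 9 + ga2 * (Y9 + X9') := by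
  rw [w20, Nx_eq, ga2]
  simp only [fw_nil, fw_0t, fw_0f, fw_1t, fw_1f, s00, s10]
  apply ppm_inj'
  · simp only [map_add, map_sub, map_neg, map_mul, map_pow, map_one, map_zero, pp_X, pp_Y, pp_X', pp_Y']
    decide +kernel
  · simp only [map_add, map_sub, map_neg, map_mul, map_pow, map_one, map_zero, pm_X, pm_Y, pm_X', pm_Y']
    decide +kernel
theorem f20_1 : foxWord (gensQ 9) w20 1 = -(1 * (Y9 + 1)) + ga2 * (1 - X9') := by
  rw [w20, ga2]
  simp only [fw_nil, fw_0t, fw_0f, fw_1t, fw_1f, s01, s11]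
  apply ppm_inj'
  · simp only [map_add, map_sub, map_neg, map_mul, map_pow, map_one, map_zero, pp_X, pp_Y, pp_X', pp_Y']
    decide +kernel
  · simp only [map_add, map_sub, map_neg, map_mul, map_pow, map_one, map_zero, pm_X, pm_Y, pm_X', pm_Y']
    decide +kernel
theorem f21_0 : foxWord (gensQ 9) w21 0 = 0 * Nx 9 + be2 * (Y9 + X9') := by
  rw [w21, Nx_eq, be2]
  simp only [fw_nil, fw_0t, fw_0f, fw_1t, fw_1f, s00, s10]
  apply ppm_inj'
  · simp only [map_add, map_sub, map_neg, map_mul, map_pow, map_one, map_zero, pp_X, pp_Y, pp_X', pp_Y']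
    decide +kernel
  · simp only [map_add, map_sub, map_neg, map_mul, map_pow, map_one, map_zero, pm_X, pm_Y, pm_X', pm_Y']
    decide +kernel
theorem f21_1 : foxWord (gensQ 9) w21 1 = -(0 * (Y9 + 1)) + be2 * (1 - X9') := by
  rw [w21, be2]
  simp only [fw_nil, fw_0t, fw_0f, fw_1t, fw_1f, s01, s11]
  apply ppm_inj'
  · simp only [map_add, map_sub, map_neg, map_mul, map_pow, map_one, map_zero, pp_X, pp_Y, pp_X', pp_Y']
    decide +kernel
  · simp only [map_add, map_sub, map_neg, map_mul, map_pow, map_one, map_zero, pm_X, pm_Y, pm_X', pm_Y']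
    decide +kernel
theorem f30_0 : foxWord (gensQ 9) w30 0 = 1 * Nx 9 + ga3 * (Y9 + X9') := by
  rw [w30, Nx_eq, ga3]
  simp only [fw_nil, fw_0t, fw_0f, fw_1t, fw_1f, s00, s10]
  apply ppm_inj'
  · simp only [map_add, map_sub, map_neg, map_mul, map_pow, map_one, map_zero, pp_X, pp_Y, pp_X', pp_Y']
    decide +kernel
  · simp only [map_add, map_sub, map_neg, map_mul, map_pow, map_one, map_zero, pm_X, pm_Y, pm_X', pm_Y']
    decide +kernel
theorem f30_1 : foxWord (gensQ 9) w30 1 = -(1 * (Y9 + 1)) + ga3 * (1 - X9') := by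
  rw [w30, ga3]
  simp only [fw_nil, fw_0t, fw_0f, fw_1t, fw_1f, s01, s11]
  apply ppm_inj'
  · simp only [map_add, map_sub, map_neg, map_mul, map_pow, map_one, map_zero, pp_X, pp_Y, pp_X', pp_Y']
    decide +kernel
  · simp only [map_add, map_sub, map_neg, map_mul, map_pow, map_one, map_zero, pm_X, pm_Y, pm_X', pm_Y']
    decide +kernel
theorem f31_0 : foxWord (gensQ 9) w31 0 = 0 * Nx 9 + be3 * (Y9 + X9') := by
  rw [w31, Nx_eq, be3]
  simp only [fw_nil, fw_0t, fw_0f, fw_1t, fw_1f, s00, s10]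
  apply ppm_inj'
  · simp only [map_add, map_sub, map_neg, map_mul, map_pow, map_one, map_zero, pp_X, pp_Y, pp_X', pp_Y']
    decide +kernel
  · simp only [map_add, map_sub, map_neg, map_mul, map_pow, map_one, map_zero, pm_X, pm_Y, pm_X', pm_Y']
    decide +kernel
theorem f31_1 : foxWord (gensQ 9) w31 1 = -(0 * (Y9 + 1)) + be3 * (1 - X9') := by
  rw [w31, be3]
  simp only [fw_nil, fw_0t, fw_0f, fw_1t, fw_1f, s01, s11]
  apply ppm_inj'
  · simp only [map_add, map_sub, map_neg, map_mul, map_pow, map_one, map_zero, pp_X, pp_Y, pp_X', pp_Y']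
    decide +kernel
  · simp only [map_add, map_sub, map_neg, map_mul, map_pow, map_one, map_zero, pm_X, pm_Y, pm_X', pm_Y']
    decide +kernel

theorem fox_of_word {w : List (Fin 2 × Bool)} {α β : L9}
    (h0 : foxWord (gensQ 9) w 0 = α * Nx 9 + β * (Y9 + X9'))
    (h1 : foxWord (gensQ 9) w 1 = -(α * (Y9 + 1)) + β * (1 - X9')) :
    fox (gensQ 9) (FreeGroup.mk w) = Gen.bd 9 ![α, β] := by
  rw [fox_mk, Gen.bd_apply]
  funext i
  fin_cases i
  · exact h0
  · exact h1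

theorem fox10 : fox (gensQ 9) (rels1 0) = Gen.bd 9 ![1, 0] := fox_of_word f10_0 f10_1
theorem fox11 : fox (gensQ 9) (rels1 1) = Gen.bd 9 ![0, be1] := fox_of_word f11_0 f11_1
theorem fox20 : fox (gensQ 9) (rels2 0) = Gen.bd 9 ![1, ga2] := fox_of_word f20_0 f20_1
theorem fox21 : fox (gensQ 9) (rels2 1) = Gen.bd 9 ![0, be2] := fox_of_word f21_0 f21_1
theorem fox30 : fox (gensQ 9) (rels3 0) = Gen.bd 9 ![1, ga3] := fox_of_word f30_0 f30_1
theorem fox31 : fox (gensQ 9) (rels3 1) = Gen.bd 9 ![0, be3] := fox_of_word f31_0 f31_1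

end Vale.Agent.P246.Q36
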