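import Mathlib.Tactic.Group
import Mathlib.Algebra.Group.Conj
import Mathlib.Tactic.NoncommRing

/-!
# The relations of the presentations of `Q_36` of class two and three

`rel2`: `x⁴ y⁻² x⁴ y x⁻¹ y⁻¹ = 1` and `y x⁻¹ y⁻² x² y x = 1` imply `y² = x⁹` and `x y x = y`.
The derivation is a traced Knuth-Bendix completion.
-/

set_option linter.all false

namespace Vale.Agent.P246.Q36

theorem kb2 {M : Type*} [Mul M] (x X y Y : M)
    (g0 : ∀ c : M, x * (X * c) = c)
    (g1 : ∀ c : M, X * (x * c) = c)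
    (g2 : ∀ c : M, y * (Y * c) = c)
    (g3 : ∀ c : M, Y * (y * c) = c)
    (r0 : ∀ c : M, x * (x * (x * (x * (Y * (Y * (x * (x * (x * (x * (y * (X * (Y * c)))))))))))) = c)
    (r1 : ∀ c : M, y * (X * (Y * (Y * (x * (x * (y * (x * c))))))) = c) :
    (∀ c : M, x * (y * (x * c)) = y * c) ∧
    (∀ c : M, y * (y * c) = x * (x * (x * (x * (x * (x * (x * (x * (x * c))))))))) := by
  have e0 : ∀ c : M, x * (X * c) = c := fun c => g0 c
  have e1 : ∀ c : M, X * (x * c) = c := fun c => g1 c
  have e2 : ∀ c : M, y * (Y * c) = c := fun c => g2 c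
  have e3 : ∀ c : M, Y * (y * c) = c := fun c => g3 c
  have e4 : ∀ c : M, y * (X * (Y * (Y * (x * (x * (y * (x * c))))))) = c := fun c => r1 c
  have e5 : ∀ c : M, y * (X * (Y * (Y * (x * (x * (y * c)))))) = X * c := fun c => (congrArg (fun t => y * (X * (Y * (Y * (x * (x * (y * t))))))) ((e0 c).symm)).trans (e4 (X * c))
  have e6 : ∀ c : M, X * (Y * (Y * (x * (x * (y * (x * c)))))) = Y * c := fun c => ((e3 (X * (Y * (Y * (x * (x * (y * (x * c)))))))).symm).trans (congrArg (fun t => Y * t) (e4 c))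
  have e7 : ∀ c : M, y * (X * (Y * (Y * (x * (x * c))))) = X * (Y * c) := fun c => (congrArg (fun t => y * (X * (Y * (Y * (x * (x * t)))))) ((e2 c).symm)).trans (e5 (Y * c))
  have e8 : ∀ c : M, X * (Y * (Y * (x * (x * (y * c))))) = Y * (X * c) := fun c => ((e3 (X * (Y * (Y * (x * (x * (y * c))))))).symm).trans (congrArg (fun t => Y * t) (e5 c))
  have e9 : ∀ c : M, Y * (Y * (x * (x * (y * (x * c))))) = x * (Y * c) := fun c => ((e0 (Y * (Y * (x * (x * (y * (x * c))))))).symm).trans (congrArg (fun t => x * t) (e6 c))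
  have e10 : ∀ c : M, X * (Y * (Y * (x * (x * c)))) = Y * (X * (Y * c)) := fun c => ((e3 (X * (Y * (Y * (x * (x * c)))))).symm).trans (congrArg (fun t => Y * t) (e7 c))
  have e11 : ∀ c : M, Y * (Y * (x * (x * (y * c)))) = x * (Y * (X * c)) := fun c => ((e0 (Y * (Y * (x * (x * (y * c)))))).symm).trans (congrArg (fun t => x * t) (e8 c))
  have e12 : ∀ c : M, Y * (x * (x * (y * (x * c)))) = y * (x * (Y * c)) := fun c => ((e2 (Y * (x * (x * (y * (x * c)))))).symm).trans (congrArg (fun t => y * t) (e9 c))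
  have e13 : ∀ c : M, x * (Y * (X * (Y * c))) = Y * (Y * (x * (x * c))) := fun c => (congrArg (fun t => x * t) ((e10 c).symm)).trans (e0 (Y * (Y * (x * (x * c)))))
  have e14 : ∀ c : M, y * (x * (Y * (X * c))) = Y * (x * (x * (y * c))) := fun c => (congrArg (fun t => y * t) ((e11 c).symm)).trans (e2 (Y * (x * (x * (y * c)))))
  have e15 : ∀ c : M, y * (y * (x * (Y * c))) = x * (x * (y * (x * c))) := fun c => (congrArg (fun t => y * t) ((e12 c).symm)).trans (e2 (x * (x * (y * (x * c)))))
  have e16 : ∀ c : M, Y * (Y * (x * (x * (Y * (x * (x * c)))))) = x * (Y * (Y * (X * (Y * c)))) := fun c => ((e13 (Y * (x * (x * c)))).symm).trans (congrArg (fun t => x * (Y * t)) (e10 c))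
  have e17 : ∀ c : M, x * (x * (x * (x * (Y * (Y * (x * (x * (x * (x * (y * (X * (Y * c)))))))))))) = c := fun c => r0 c
  have e18 : ∀ c : M, x * (x * (x * (Y * (Y * (x * (x * (x * (x * (y * (X * (Y * c))))))))))) = X * c := fun c => ((e1 (x * (x * (x * (Y * (Y * (x * (x * (x * (x * (y * (X * (Y * c))))))))))))).symm).trans (congrArg (fun t => X * t) (e17 c))
  have e19 : ∀ c : M, x * (x * (x * (x * (Y * (Y * (x * (x * (x * (x * (y * (X * c))))))))))) = y * c := fun c => (congrArg (fun t => x * (x * (x * (x * (Y * (Y * (x * (x * (x * (x * (y * (X * t)))))))))))) ((e3 c).symm)).trans (e17 (y * c))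
  have e20 : ∀ c : M, x * (x * (Y * (Y * (x * (x * (x * (x * (y * (X * (Y * c)))))))))) = X * (X * c) := fun c => ((e1 (x * (x * (Y * (Y * (x * (x * (x * (x * (y * (X * (Y * c)))))))))))).symm).trans (congrArg (fun t => X * t) (e18 c))
  have e21 : ∀ c : M, x * (x * (x * (x * (Y * (Y * (x * (x * (x * (x * (y * c)))))))))) = y * (x * c) := fun c => (congrArg (fun t => x * (x * (x * (x * (Y * (Y * (x * (x * (x * (x * (y * t))))))))))) ((e1 c).symm)).trans (e19 (x * c))
  have e22 : ∀ c : M, x * (Y * (Y * (x * (x * (x * (x * (y * (X * (Y * c))))))))) = X * (X * (X * c)) := fun c => ((e1 (x * (Y * (Y * (x * (x * (x * (x * (y * (X * (Y * c))))))))))).symm).trans (congrArg (fun t => X * t) (e20 c))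
  have e23 : ∀ c : M, x * (x * (Y * (Y * (x * (x * (x * (x * (y * (X * c))))))))) = X * (X * (y * c)) := fun c => (congrArg (fun t => x * (x * (Y * (Y * (x * (x * (x * (x * (y * (X * t)))))))))) ((e3 c).symm)).trans (e20 (y * c))
  have e24 : ∀ c : M, x * (x * (x * (x * (Y * (Y * (x * (x * (x * (x * c))))))))) = y * (x * (Y * c)) := fun c => (congrArg (fun t => x * (x * (x * (x * (Y * (Y * (x * (x * (x * (x * t)))))))))) ((e2 c).symm)).trans (e21 (Y * c))
  have e25 : ∀ c : M, Y * (Y * (x * (x * (x * (x * (y * (X * (Y * c)))))))) = X * (X * (X * (X * c))) := fun c => ((e1 (Y * (Y * (x * (x * (x * (x * (y * (X * (Y * c)))))))))).symm).trans (congrArg (fun t => X * t) (e22 c))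
  have e26 : ∀ c : M, x * (x * (Y * (Y * (x * (x * (x * (x * (y * c)))))))) = X * (X * (y * (x * c))) := fun c => (congrArg (fun t => x * (x * (Y * (Y * (x * (x * (x * (x * (y * t))))))))) ((e1 c).symm)).trans (e23 (x * c))
  have e27 : ∀ c : M, x * (x * (x * (x * (Y * (Y * (x * (x * (x * c)))))))) = Y * (x * (x * (y * c))) := fun c => (congrArg (fun t => x * (x * (x * (x * (Y * (Y * (x * (x * (x * t))))))))) ((e0 c).symm)).trans ((e24 (X * c)).trans (e14 c))
  have e28 : ∀ c : M, Y * (x * (x * (x * (x * (y * (X * (Y * c))))))) = y * (X * (X * (X * (X * c)))) := fun c => ((e2 (Y * (x * (x * (x * (x * (y * (X * (Y * c))))))))).symm).trans (congrArg (fun t => y * t) (e25 c))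
  have e29 : ∀ c : M, Y * (X * (Y * (x * (x * (y * (X * (Y * c))))))) = X * (X * (X * (X * (X * c)))) := fun c => ((e10 (x * (x * (y * (X * (Y * c)))))).symm).trans (congrArg (fun t => X * t) (e25 c))
  have e30 : ∀ c : M, x * (x * (Y * (Y * (x * (x * (x * (x * c))))))) = X * (X * (y * (x * (Y * c)))) := fun c => (congrArg (fun t => x * (x * (Y * (Y * (x * (x * (x * (x * t)))))))) ((e2 c).symm)).trans (e26 (Y * c))
  have e31 : ∀ c : M, x * (x * (x * (x * (Y * (Y * (x * (x * c))))))) = Y * (x * (x * (y * (X * c)))) := fun c => (congrArg (fun t => x * (x * (x * (x * (Y * (Y * (x * (x * t)))))))) ((e0 c).symm)).trans (e27 (X * c))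
  have e32 : ∀ c : M, y * (X * (X * (X * (X * (y * c))))) = Y * (x * (x * (x * (x * (y * (X * c)))))) := fun c => ((e28 (y * c)).symm).trans (congrArg (fun t => Y * (x * (x * (x * (x * (y * (X * t))))))) (e3 c))
  have e33 : ∀ c : M, X * (Y * (x * (x * (y * (X * (Y * c)))))) = y * (X * (X * (X * (X * (X * c))))) := fun c => ((e2 (X * (Y * (x * (x * (y * (X * (Y * c)))))))).symm).trans (congrArg (fun t => y * t) (e29 c))
  have e34 : ∀ c : M, x * (x * (Y * (Y * (x * (x * (x * c)))))) = X * (X * (Y * (x * (x * (y * c))))) := fun c => (congrArg (fun t => x * (x * (Y * (Y * (x * (x * (x * t))))))) ((e0 c).symm)).trans ((e30 (X * c)).trans (congrArg (fun t => X * (X * t)) (e14 c)))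
  have e35 : ∀ c : M, x * (x * (x * (x * (Y * (Y * (x * c)))))) = Y * (x * (x * (y * (X * (X * c))))) := fun c => (congrArg (fun t => x * (x * (x * (x * (Y * (Y * (x * t))))))) ((e0 c).symm)).trans (e31 (X * c))
  have e36 : ∀ c : M, X * (X * (Y * (x * (x * (y * (X * c)))))) = x * (x * (Y * (Y * (x * (x * c))))) := fun c => ((e34 (X * c)).symm).trans (congrArg (fun t => x * (x * (Y * (Y * (x * (x * t)))))) (e0 c))
  have e37 : ∀ c : M, Y * (x * (x * (y * (X * (X * (X * c)))))) = x * (x * (x * (x * (Y * (Y * c))))) := fun c => ((e35 (X * c)).symm).trans (congrArg (fun t => x * (x * (x * (x * (Y * (Y * t)))))) (e0 c))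
  have e38 : ∀ c : M, x * (Y * (X * (X * (X * (X * c))))) = Y * (x * (x * (x * (x * (Y * (Y * c)))))) := fun c => ((e11 (X * (X * (X * c)))).symm).trans (congrArg (fun t => Y * t) (e37 c))
  have e39 : ∀ c : M, X * (Y * (x * (x * (x * (x * (Y * (Y * c))))))) = Y * (X * (X * (X * (X * c)))) := fun c => (congrArg (fun t => X * t) ((e38 c).symm)).trans (e1 (Y * (X * (X * (X * (X * c))))))
  have e40 : ∀ c : M, X * (y * (X * (X * (X * (X * (X * c)))))) = x * (x * (Y * (Y * (x * (x * (Y * c)))))) := fun c => (congrArg (fun t => X * t) ((e33 c).symm)).trans (e36 (Y * c))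
  have e41 : ∀ c : M, x * (x * (Y * (Y * (x * (x * (Y * (x * c))))))) = X * (y * (X * (X * (X * (X * c))))) := fun c => ((e40 (x * c)).symm).trans (congrArg (fun t => X * (y * (X * (X * (X * (X * t)))))) (e1 c))
  have e42 : ∀ c : M, x * (x * (x * (Y * (Y * (X * (Y * c)))))) = X * (y * (X * (X * (X * c)))) := fun c => (congrArg (fun t => x * (x * t)) ((e16 c).symm)).trans ((e41 (x * c)).trans (congrArg (fun t => X * (y * (X * (X * (X * t))))) (e1 c)))
  have e43 : ∀ c : M, X * (X * (y * (X * (X * (X * c))))) = x * (x * (Y * (Y * (X * (Y * c))))) := fun c => (congrArg (fun t => X * t) ((e42 c).symm)).trans (e1 (x * (x * (Y * (Y * (X * (Y * c)))))))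
  have e44 : ∀ c : M, X * (y * (X * (X * (X * (y * c))))) = x * (x * (x * (Y * (Y * (X * c))))) := fun c => ((e42 (y * c)).symm).trans (congrArg (fun t => x * (x * (x * (Y * (Y * (X * t)))))) (e3 c))
  have e45 : ∀ c : M, x * (x * (Y * (Y * (X * (Y * (x * c)))))) = X * (X * (y * (X * (X * c)))) := fun c => ((e43 (x * c)).symm).trans (congrArg (fun t => X * (X * (y * (X * (X * t))))) (e1 c))
  have e46 : ∀ c : M, x * (x * (x * (x * (Y * (Y * (X * c)))))) = y * (X * (X * (X * (y * c)))) := fun c => (congrArg (fun t => x * t) ((e44 c).symm)).trans (e0 (y * (X * (X * (X * (y * c))))))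
  have e47 : ∀ c : M, X * (X * (X * (y * (X * (X * c))))) = x * (Y * (Y * (X * (Y * (x * c))))) := fun c => (congrArg (fun t => X * t) ((e45 c).symm)).trans (e1 (x * (Y * (Y * (X * (Y * (x * c)))))))
  have e48 : ∀ c : M, x * (Y * (Y * (X * (Y * (x * (x * c)))))) = X * (X * (X * (y * (X * c)))) := fun c => ((e47 (x * c)).symm).trans (congrArg (fun t => X * (X * (X * (y * (X * t))))) (e1 c))
  have e49 : ∀ c : M, X * (X * (X * (X * (y * (X * c))))) = Y * (Y * (X * (Y * (x * (x * c))))) := fun c => (congrArg (fun t => X * t) ((e48 c).symm)).trans (e1 (Y * (Y * (X * (Y * (x * (x * c)))))))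
  have e50 : ∀ c : M, Y * (Y * (X * (Y * (x * (x * (x * c)))))) = X * (X * (X * (X * (y * c)))) := fun c => ((e49 (x * c)).symm).trans (congrArg (fun t => X * (X * (X * (X * (y * t))))) (e1 c))
  have e51 : ∀ c : M, Y * (x * (x * (x * (x * (y * (X * c)))))) = Y * (X * (Y * (x * (x * (x * c))))) := fun c => ((e32 c).symm).trans ((congrArg (fun t => y * t) ((e50 c).symm)).trans (e2 (Y * (X * (Y * (x * (x * (x * c))))))))
  have e52 : ∀ c : M, y * (X * (X * (X * (X * (y * c))))) = Y * (X * (Y * (x * (x * (x * c))))) := fun c => (e32 c).trans (e51 c)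
  have e53 : ∀ c : M, Y * (X * (X * (X * (X * (X * c))))) = X * (X * (X * (X * (y * c)))) := fun c => ((e39 (X * c)).symm).trans ((congrArg (fun t => X * (Y * t)) (e46 c)).trans (congrArg (fun t => X * t) (e3 (X * (X * (X * (y * c)))))))
  have e54 : ∀ c : M, X * (X * (X * (X * (X * c)))) = Y * (X * (Y * (x * (x * (x * c))))) := fun c => ((e2 (X * (X * (X * (X * (X * c)))))).symm).trans ((congrArg (fun t => y * t) (e53 c)).trans (e52 c))
  have e55 : ∀ c : M, Y * (Y * (x * (x * (x * (x * (x * c)))))) = X * (X * (X * (X * c))) := fun c => ((e13 (x * (x * (x * c)))).symm).trans ((congrArg (fun t => x * t) ((e54 c).symm)).trans (e0 (X * (X * (X * (X * c))))))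
  have e56 : ∀ c : M, y * (X * (X * (X * (X * c)))) = Y * (x * (x * (x * (x * (x * c))))) := fun c => (congrArg (fun t => y * t) ((e55 c).symm)).trans (e2 (Y * (x * (x * (x * (x * (x * c)))))))
  have e57 : ∀ c : M, Y * (x * (x * (x * (x * (x * (x * c)))))) = y * (X * (X * (X * c))) := fun c => ((e56 (x * c)).symm).trans (congrArg (fun t => y * (X * (X * (X * t)))) (e1 c))
  have e58 : ∀ c : M, y * (y * (X * (X * (X * c)))) = x * (x * (x * (x * (x * (x * c))))) := fun c => (congrArg (fun t => y * t) ((e57 c).symm)).trans (e2 (x * (x * (x * (x * (x * (x * c)))))))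
  have e59 : ∀ c : M, x * (x * (x * (x * (x * (x * (x * c)))))) = y * (y * (X * (X * c))) := fun c => ((e58 (x * c)).symm).trans (congrArg (fun t => y * (y * (X * (X * t)))) (e1 c))
  have e60 : ∀ c : M, x * (y * (y * (X * (X * c)))) = y * (y * (X * c)) := fun c => (congrArg (fun t => x * t) ((e59 c).symm)).trans ((e59 (x * c)).trans (congrArg (fun t => y * (y * (X * t))) (e1 c)))
  have e61 : ∀ c : M, x * (y * (y * (X * c))) = y * (y * c) := fun c => (congrArg (fun t => x * (y * (y * (X * t)))) ((e1 c).symm)).trans ((e60 (x * c)).trans (congrArg (fun t => y * (y * t)) (e1 c)))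
  have e62 : ∀ c : M, y * (y * (x * c)) = x * (y * (y * c)) := fun c => ((e61 (x * c)).symm).trans (congrArg (fun t => x * (y * (y * t))) (e1 c))
  have e63 : ∀ c : M, x * (x * (y * (x * c))) = x * (y * c) := fun c => ((e15 c).symm).trans ((e62 (Y * c)).trans (congrArg (fun t => x * (y * t)) (e2 c)))
  have e64 : ∀ c : M, x * (y * (x * c)) = y * c := fun c => ((e1 (x * (y * (x * c)))).symm).trans ((congrArg (fun t => X * t) (e63 c)).trans (e1 (y * c)))
  have e65 : ∀ c : M, y * (X * c) = x * (y * c) := fun c => ((e64 (X * c)).symm).trans (congrArg (fun t => x * (y * t)) (e0 c))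
  have e66 : ∀ c : M, x * (x * (x * (x * (x * (x * c))))) = y * (x * (x * (x * (y * c)))) := fun c => (congrArg (fun t => x * (x * (x * (x * (x * (x * t)))))) ((e0 c).symm)).trans ((e59 (X * c)).trans ((congrArg (fun t => y * t) (e65 (X * (X * c)))).trans ((congrArg (fun t => y * (x * t)) (e65 (X * c))).trans (congrArg (fun t => y * (x * (x * t))) (e65 c)))))
  exact ⟨fun c => e64 c, fun c => (congrArg (fun t => y * t) ((e64 c).symm)).trans ((congrArg (fun t => y * (x * t)) ((e64 (x * c)).symm)).trans ((congrArg (fun t => y * (x * (x * t))) ((e64 (x * (x * c))).symm)).trans ((e66 (x * (x * (x * c)))).symm)))⟩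

theorem rel2 {H : Type*} [Group H] (x y : H)
    (h0 : x * x * x * x * y⁻¹ * y⁻¹ * x * x * x * x * y * x⁻¹ * y⁻¹ = 1)
    (h1 : y * x⁻¹ * y⁻¹ * y⁻¹ * x * x * y * x = 1) :
    y * y = x ^ 9 ∧ x * y * x = y := by
  have h := kb2 x x⁻¹ y y⁻¹ (mul_inv_cancel_left x) (inv_mul_cancel_left x)
    (mul_inv_cancel_left y) (inv_mul_cancel_left y)
    (by
      intro c
      have := congrArg (fun t => t * c) h0
      simpa only [mul_assoc, one_mul] using this)
    (by
      intro c
      have := congrArg (fun t => t * c) h1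
      simpa only [mul_assoc, one_mul] using this)
  constructor
  · have := h.2 1
    simp only [mul_one] at this
    rw [this]
    simp only [pow_succ, pow_zero, one_mul, mul_assoc]
  · have := h.1 1
    simp only [mul_one] at this
    rw [mul_assoc]
    exact this

theorem rel3 {H : Type*} [Group H] (x y : H)
    (h0 : x * x * x * x * y * y * x * x * x * x * y⁻¹ * x⁻¹ * y = 1)
    (h1 : y⁻¹ * x⁻¹ * y * y * x * x * y⁻¹ * x = 1) :
    y * y = x ^ 9 ∧ x * y * x = y := by
  obtain ⟨e1, e2⟩ := rel2 x y⁻¹ (by rw [inv_inv]; exact h0) (by rw [inv_inv]; exact h1)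
  have e3 : x * y * x = y := by
    have h4 : x⁻¹ * y * x⁻¹ = y := by
      have h5 : x⁻¹ * y * x⁻¹ = (x * y⁻¹ * x)⁻¹ := by
        simp only [mul_inv_rev, inv_inv, mul_assoc]
      rw [h5, e2, inv_inv]
    calc x * y * x = x * (x⁻¹ * y * x⁻¹) * x := by rw [h4]
      _ = y := by group
  refine ⟨?_, e3⟩
  have e4 : y * x * y⁻¹ = x⁻¹ := by
    calc y * x * y⁻¹ = (x * y * x) * x * (x * y * x)⁻¹ := by rw [e3]
      _ = x * (y * x * y⁻¹) * x⁻¹ := by group
      _ = x⁻¹ := by
        have : y * x = x⁻¹ * y := by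
          calc y * x = x⁻¹ * (x * y * x) := by group
            _ = x⁻¹ * y := by rw [e3]
        rw [this]
        group
  have e5 : y * y = (x ^ 9)⁻¹ := by
    rw [← e1, mul_inv_rev, inv_inv]
  have e6 : (x ^ 9)⁻¹ = x ^ 9 := by
    calc (x ^ 9)⁻¹ = y * (y * y) * y⁻¹ := by rw [← e5]; group
      _ = y * (x ^ 9)⁻¹ * y⁻¹ := by rw [e5]
      _ = ((y * x * y⁻¹) ^ 9)⁻¹ := by
        rw [conj_pow, mul_inv_rev, mul_inv_rev, inv_inv, mul_assoc]
      _ = x ^ 9 := by rw [e4]; group
  rw [e5, e6]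

end Vale.Agent.P246.Q36
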