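import Vale.Agent.P246.Q36.JW
import Vale.Agent.P246.Q36.JRel

/-!
# The exotic presentations present `Q_36`
-/

set_option linter.all false

namespace Vale.Agent.P246.Q36

open Vale.Agent.P246 Vale.Agent.P246.Q24 QuaternionGroup Vale.Agent.P246.Gen

theorem mk_w10 : (FreeGroup.mk w10 : FreeGroup (Fin 2)) =
    FreeGroup.of 0 * FreeGroup.of 0 * FreeGroup.of 0 * FreeGroup.of 0 * FreeGroup.of 0 *
    FreeGroup.of 0 * FreeGroup.of 0 * FreeGroup.of 0 * FreeGroup.of 0 * (FreeGroup.of 1)⁻¹ *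
    (FreeGroup.of 1)⁻¹ := rfl
theorem mk_w11 : (FreeGroup.mk w11 : FreeGroup (Fin 2)) =
    (FreeGroup.of 1)⁻¹ * FreeGroup.of 0 * FreeGroup.of 1 * FreeGroup.of 0 * FreeGroup.of 0 *
    (FreeGroup.of 1)⁻¹ * (FreeGroup.of 0)⁻¹ * (FreeGroup.of 0)⁻¹ * FreeGroup.of 1 *
    (FreeGroup.of 0)⁻¹ * (FreeGroup.of 0)⁻¹ * (FreeGroup.of 0)⁻¹ := rfl
theorem mk_w20 : (FreeGroup.mk w20 : FreeGroup (Fin 2)) =
    FreeGroup.of 0 * FreeGroup.of 0 * FreeGroup.of 0 * FreeGroup.of 0 * FreeGroup.of 1 *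
    (FreeGroup.of 0)⁻¹ * (FreeGroup.of 1)⁻¹ * FreeGroup.of 0 * FreeGroup.of 0 * FreeGroup.of 0 *
    FreeGroup.of 0 * (FreeGroup.of 1)⁻¹ * (FreeGroup.of 1)⁻¹ := rfl
theorem mk_w21 : (FreeGroup.mk w21 : FreeGroup (Fin 2)) =
    FreeGroup.of 1 * (FreeGroup.of 0)⁻¹ * (FreeGroup.of 1)⁻¹ * (FreeGroup.of 1)⁻¹ *
    FreeGroup.of 0 * FreeGroup.of 0 * FreeGroup.of 1 * FreeGroup.of 0 := rfl
theorem mk_w30 : (FreeGroup.mk w30 : FreeGroup (Fin 2)) =
    FreeGroup.of 0 * FreeGroup.of 1 * (FreeGroup.of 0)⁻¹ * (FreeGroup.of 0)⁻¹ *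
    (FreeGroup.of 0)⁻¹ * (FreeGroup.of 0)⁻¹ * (FreeGroup.of 1)⁻¹ * (FreeGroup.of 1)⁻¹ *
    (FreeGroup.of 0)⁻¹ * (FreeGroup.of 0)⁻¹ * (FreeGroup.of 0)⁻¹ * (FreeGroup.of 0)⁻¹ *
    (FreeGroup.of 1)⁻¹ := rfl
theorem mk_w31 : (FreeGroup.mk w31 : FreeGroup (Fin 2)) =
    (FreeGroup.of 1)⁻¹ * (FreeGroup.of 0)⁻¹ * FreeGroup.of 1 * FreeGroup.of 1 *
    FreeGroup.of 0 * FreeGroup.of 0 * (FreeGroup.of 1)⁻¹ * FreeGroup.of 0 := rfl

theorem lift_w10 : FreeGroup.lift (gensQ 9) (FreeGroup.mk w10) = 1 := by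
  rw [FreeGroup.lift_mk]
  decide
theorem lift_w11 : FreeGroup.lift (gensQ 9) (FreeGroup.mk w11) = 1 := by
  rw [FreeGroup.lift_mk]
  decide
theorem lift_w20 : FreeGroup.lift (gensQ 9) (FreeGroup.mk w20) = 1 := by
  rw [FreeGroup.lift_mk]
  decide
theorem lift_w21 : FreeGroup.lift (gensQ 9) (FreeGroup.mk w21) = 1 := by
  rw [FreeGroup.lift_mk]
  decide
theorem lift_w30 : FreeGroup.lift (gensQ 9) (FreeGroup.mk w30) = 1 := by
  rw [FreeGroup.lift_mk]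
  decide
theorem lift_w31 : FreeGroup.lift (gensQ 9) (FreeGroup.mk w31) = 1 := by
  rw [FreeGroup.lift_mk]
  decide

theorem hker1 : (FreeGroup.lift (gensQ 9)).ker = Subgroup.normalClosure (Set.range rels1) := by
  apply pres_ker
  · intro j
    fin_cases j
    · exact lift_w10
    · exact lift_w11
  · intro H _ q hq
    have h0 : q (FreeGroup.mk w10) = 1 := hq 0
    have h1 : q (FreeGroup.mk w11) = 1 := hq 1
    rw [mk_w10] at h0
    rw [mk_w11] at h1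
    simp only [map_mul, map_inv] at h0 h1
    generalize q (FreeGroup.of 0) = x at *
    generalize q (FreeGroup.of 1) = y at *
    have h2 : y * y = x ^ 9 := by
      calc y * y = x * x * x * x * x * x * x * x * x * y⁻¹ * y⁻¹ * (y * y) := by rw [h0, one_mul]
        _ = x ^ 9 := by
          simp only [pow_succ, pow_zero, one_mul]
          group
    exact ⟨h2, xyx_of (rel_aux 9 _ _ h2 h1)⟩

theorem hker2 : (FreeGroup.lift (gensQ 9)).ker = Subgroup.normalClosure (Set.range rels2) := by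
  apply pres_ker
  · intro j
    fin_cases j
    · exact lift_w20
    · exact lift_w21
  · intro H _ q hq
    have h0 : q (FreeGroup.mk w20) = 1 := hq 0
    have h1 : q (FreeGroup.mk w21) = 1 := hq 1
    rw [mk_w20] at h0
    rw [mk_w21] at h1
    simp only [map_mul, map_inv] at h0 h1
    generalize q (FreeGroup.of 0) = x at *
    generalize q (FreeGroup.of 1) = y at *
    refine rel2 x y ?_ h1
    calc x * x * x * x * y⁻¹ * y⁻¹ * x * x * x * x * y * x⁻¹ * y⁻¹ =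
        (x * x * x * x * y * x⁻¹ * y⁻¹)⁻¹ * (x * x * x * x * y * x⁻¹ * y⁻¹ * x * x * x * x *
          y⁻¹ * y⁻¹) * (x * x * x * x * y * x⁻¹ * y⁻¹) := by group
      _ = 1 := by rw [h0]; group

theorem hker3 : (FreeGroup.lift (gensQ 9)).ker = Subgroup.normalClosure (Set.range rels3) := by
  apply pres_ker
  · intro j
    fin_cases j
    · exact lift_w30
    · exact lift_w31
  · intro H _ q hq
    have h0 : q (FreeGroup.mk w30) = 1 := hq 0
    have h1 : q (FreeGroup.mk w31) = 1 := hq 1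
    rw [mk_w30] at h0
    rw [mk_w31] at h1
    simp only [map_mul, map_inv] at h0 h1
    generalize q (FreeGroup.of 0) = x at *
    generalize q (FreeGroup.of 1) = y at *
    refine rel3 x y ?_ h1
    calc x * x * x * x * y * y * x * x * x * x * y⁻¹ * x⁻¹ * y =
        y⁻¹ * (x * y * x⁻¹ * x⁻¹ * x⁻¹ * x⁻¹ * y⁻¹ * y⁻¹ * x⁻¹ * x⁻¹ * x⁻¹ * x⁻¹ * y⁻¹)⁻¹ *
          y := by simp only [mul_inv_rev, inv_inv, mul_assoc, inv_mul_cancel_left]
      _ = 1 := by rw [h0]; group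

end Vale.Agent.P246.Q36
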