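import Vale.Agent.P246.Q36.I3

/-!
# Certificates for the columns of the presentations of `Q_36`
-/

set_option linter.all false

namespace Vale.Agent.P246.Q36

open Vale.Agent.P246 Vale.Agent.P246.Q24 Vale.Agent.P246.Cyc

/-- the column of class 1 -/
noncomputable def cA1 : L9 := X9 ^ 8 * Y9 - X9 ^ 10 * Y9 - X9 ^ 11 * Y9
/-- the column of class 1 -/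
noncomputable def cB1 : L9 := Y9 - X9

theorem pi1_cA1 : pi1 cA1 = ⟨⟨0, 0, 0⟩, ⟨0, -1, 0⟩⟩ := by
  rw [cA1]
  simp only [map_add, map_sub, map_neg, map_mul, map_pow, map_one, pi1_X, pi1_Y]
  decide +kernel
theorem pi1_cB1 : pi1 cB1 = ⟨⟨0, -1, 0⟩, ⟨1, 0, 0⟩⟩ := by
  rw [cB1]
  simp only [map_add, map_sub, map_neg, map_mul, map_pow, map_one, pi1_X, pi1_Y]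
  decide +kernel
theorem pi2_cA1 : pi2 cA1 = ⟨⟨0, 0, 0⟩, ⟨0, -1, 2⟩⟩ := by
  rw [cA1]
  simp only [map_add, map_sub, map_neg, map_mul, map_pow, map_one, pi2_X, pi2_Y]
  decide +kernel
theorem pi2_cB1 : pi2 cB1 = ⟨⟨0, 1, 0⟩, ⟨1, 0, 0⟩⟩ := by
  rw [cB1]
  simp only [map_add, map_sub, map_neg, map_mul, map_pow, map_one, pi2_X, pi2_Y]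
  decide +kernel
theorem pi3_cA1 : pi3 cA1 = ⟨⟨⟨0, 0, 0⟩, ⟨0, 0, 0⟩⟩, ⟨⟨1, 1, 0⟩, ⟨-2, -1, 0⟩⟩⟩ := by
  rw [cA1]
  simp only [map_add, map_sub, map_neg, map_mul, map_pow, map_one, pi3_X, pi3_Y]
  decide +kernel
theorem pi3_cB1 : pi3 cB1 = ⟨⟨⟨0, 0, 0⟩, ⟨-1, 0, 0⟩⟩, ⟨⟨1, 0, 0⟩, ⟨0, 0, 0⟩⟩⟩ := by
  rw [cB1]
  simp only [map_add, map_sub, map_neg, map_mul, map_pow, map_one, pi3_X, pi3_Y]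
  decide +kernel
theorem pi4_cA1 : pi4 cA1 = ⟨⟨⟨0, 0, 0⟩, ⟨0, 0, 0⟩⟩, ⟨⟨-1, 1, 0⟩, ⟨-2, 1, 0⟩⟩⟩ := by
  rw [cA1]
  simp only [map_add, map_sub, map_neg, map_mul, map_pow, map_one, pi4_X, pi4_Y]
  decide +kernel
theorem pi4_cB1 : pi4 cB1 = ⟨⟨⟨0, 0, 0⟩, ⟨1, 0, 0⟩⟩, ⟨⟨1, 0, 0⟩, ⟨0, 0, 0⟩⟩⟩ := by
  rw [cB1]
  simp only [map_add, map_sub, map_neg, map_mul, map_pow, map_one, pi4_X, pi4_Y]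
  decide +kernel

theorem KG2_1 : KG (pi2 cA1) (pi2 cB1)
    ⟨⟨1, 0, 0⟩, ⟨-1, 0, 0⟩⟩
    ⟨⟨-1, 1, -1⟩, ⟨-1, 1, 0⟩⟩ := by
  rw [pi2_cA1, pi2_cB1]
  exact KG_mk
    ⟨⟨0, 0, 0⟩, ⟨0, 1, 0⟩⟩
    ⟨⟨0, 1, 0⟩, ⟨0, 0, -1⟩⟩
    ⟨⟨0, 1, 0⟩, ⟨0, 1, 0⟩⟩
    ⟨⟨0, 0, 1⟩, ⟨0, 0, 0⟩⟩
    (by decide +kernel)
theorem KG4_1 : KG (pi4 cA1) (pi4 cB1)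
    ⟨⟨⟨-1, 0, 1⟩, ⟨0, -1, 0⟩⟩, ⟨⟨-1, 1, 0⟩, ⟨-1, 1, 0⟩⟩⟩
    ⟨⟨⟨0, 0, 0⟩, ⟨-2, 0, 1⟩⟩, ⟨⟨0, 0, 0⟩, ⟨0, 0, 0⟩⟩⟩ := by
  rw [pi4_cA1, pi4_cB1]
  exact KG_mk
    ⟨⟨⟨0, 0, 0⟩, ⟨0, 0, 0⟩⟩, ⟨⟨1, -2, -1⟩, ⟨0, 1, 1⟩⟩⟩
    ⟨⟨⟨0, 0, 0⟩, ⟨0, 0, 0⟩⟩, ⟨⟨0, 0, 0⟩, ⟨0, 0, 0⟩⟩⟩
    ⟨⟨⟨0, 0, 0⟩, ⟨0, 0, 0⟩⟩, ⟨⟨0, 0, 0⟩, ⟨0, 0, 0⟩⟩⟩
    ⟨⟨⟨-1, 2, 1⟩, ⟨1, -1, -1⟩⟩, ⟨⟨0, 0, 0⟩, ⟨0, 0, 0⟩⟩⟩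
    (by decide +kernel)
theorem uni1_1 : (⟨⟨0, 0, 0⟩, ⟨0, -1, 0⟩⟩ : T1) * pi1 cA1 +
    ⟨⟨0, 0, 0⟩, ⟨0, 0, 0⟩⟩ * pi1 cB1 = 1 := by
  rw [pi1_cA1, pi1_cB1]
  decide +kernel
theorem uni2_1 : (⟨⟨0, 0, 0⟩, ⟨0, 1, 0⟩⟩ : T2) * pi2 cA1 +
    ⟨⟨0, 1, 0⟩, ⟨0, 0, -1⟩⟩ * pi2 cB1 = 1 := by
  rw [pi2_cA1, pi2_cB1]
  decide +kernel
theorem uni3_1 : (⟨⟨⟨-1, 1, 0⟩, ⟨-1, 1, 0⟩⟩, ⟨⟨1, 1, -1⟩, ⟨-1, 1, 0⟩⟩⟩ : T3) * pi3 cA1 +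
    ⟨⟨⟨2, -1, -1⟩, ⟨-1, 1, 1⟩⟩, ⟨⟨-1, 1, 0⟩, ⟨-1, 1, 0⟩⟩⟩ * pi3 cB1 = 1 := by
  rw [pi3_cA1, pi3_cB1]
  decide +kernel
theorem uni4_1 : (⟨⟨⟨0, 0, 0⟩, ⟨0, 0, 0⟩⟩, ⟨⟨1, -2, -1⟩, ⟨0, 1, 1⟩⟩⟩ : T4) * pi4 cA1 +
    ⟨⟨⟨0, 0, 0⟩, ⟨0, 0, 0⟩⟩, ⟨⟨0, 0, 0⟩, ⟨0, 0, 0⟩⟩⟩ * pi4 cB1 = 1 := by
  rw [pi4_cA1, pi4_cB1]
  decide +kernel

theorem loc_c1 : ∃ u1 v1 u2 v2 u3 v3 u4 v4, G9.Loc cA1 cB1 u1 v1 u2 v2 u3 v3 u4 v4 (Ek 1) := by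
  obtain ⟨u1, v1, u3, v3, h⟩ := loc_of_minus uni1_1 uni2_1 uni3_1 uni4_1 KG2_1 KG4_1
    (E := Ek 1) (by decide +kernel) (by decide +kernel)
  exact ⟨u1, v1, _, _, u3, v3, _, _, h⟩

/-- the column of class 2 -/
noncomputable def cA2 : L9 := X9 ^ 8 * Y9 + X9 ^ 9 * Y9 - X9
/-- the column of class 2 -/
noncomputable def cB2 : L9 := X9 ^ 5 + Y9 - X9 - X9 ^ 6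

theorem pi1_cA2 : pi1 cA2 = ⟨⟨0, -1, 0⟩, ⟨1, 0, 1⟩⟩ := by
  rw [cA2]
  simp only [map_add, map_sub, map_neg, map_mul, map_pow, map_one, pi1_X, pi1_Y]
  decide +kernel
theorem pi1_cB2 : pi1 cB2 = ⟨⟨-1, -1, 1⟩, ⟨1, 0, 0⟩⟩ := by
  rw [cB2]
  simp only [map_add, map_sub, map_neg, map_mul, map_pow, map_one, pi1_X, pi1_Y]
  decide +kernel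
theorem pi2_cA2 : pi2 cA2 = ⟨⟨0, 1, 0⟩, ⟨-1, 0, 1⟩⟩ := by
  rw [cA2]
  simp only [map_add, map_sub, map_neg, map_mul, map_pow, map_one, pi2_X, pi2_Y]
  decide +kernel
theorem pi2_cB2 : pi2 cB2 = ⟨⟨-1, 1, -1⟩, ⟨1, 0, 0⟩⟩ := by
  rw [cB2]
  simp only [map_add, map_sub, map_neg, map_mul, map_pow, map_one, pi2_X, pi2_Y]
  decide +kernel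
theorem pi3_cA2 : pi3 cA2 = ⟨⟨⟨0, 0, 0⟩, ⟨-1, 0, 0⟩⟩, ⟨⟨1, 1, 0⟩, ⟨-1, 0, 0⟩⟩⟩ := by
  rw [cA2]
  simp only [map_add, map_sub, map_neg, map_mul, map_pow, map_one, pi3_X, pi3_Y]
  decide +kernel
theorem pi3_cB2 : pi3 cB2 = ⟨⟨⟨2, -2, 0⟩, ⟨-1, -1, 1⟩⟩, ⟨⟨1, 0, 0⟩, ⟨0, 0, 0⟩⟩⟩ := by
  rw [cB2]
  simp only [map_add, map_sub, map_neg, map_mul, map_pow, map_one, pi3_X, pi3_Y]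
  decide +kernel
theorem pi4_cA2 : pi4 cA2 = ⟨⟨⟨0, 0, 0⟩, ⟨1, 0, 0⟩⟩, ⟨⟨-1, 1, 0⟩, ⟨-1, 0, 0⟩⟩⟩ := by
  rw [cA2]
  simp only [map_add, map_sub, map_neg, map_mul, map_pow, map_one, pi4_X, pi4_Y]
  decide +kernel
theorem pi4_cB2 : pi4 cB2 = ⟨⟨⟨0, 0, 0⟩, ⟨-1, 1, 1⟩⟩, ⟨⟨1, 0, 0⟩, ⟨0, 0, 0⟩⟩⟩ := by
  rw [cB2]
  simp only [map_add, map_sub, map_neg, map_mul, map_pow, map_one, pi4_X, pi4_Y]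
  decide +kernel

theorem KG2_2 : KG (pi2 cA2) (pi2 cB2)
    ⟨⟨1, -1, 1⟩, ⟨0, -1, 0⟩⟩
    ⟨⟨1, 0, 0⟩, ⟨0, 1, -1⟩⟩ := by
  rw [pi2_cA2, pi2_cB2]
  exact KG_mk
    ⟨⟨1, 1, 1⟩, ⟨-1, 0, -1⟩⟩
    ⟨⟨0, 1, 1⟩, ⟨0, 0, 0⟩⟩
    ⟨⟨-1, 0, -1⟩, ⟨0, 0, 0⟩⟩
    ⟨⟨1, 1, 1⟩, ⟨0, -1, -1⟩⟩
    (by decide +kernel)
theorem KG4_2 : KG (pi4 cA2) (pi4 cB2)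
    ⟨⟨⟨0, -1, 0⟩, ⟨0, 1, 1⟩⟩, ⟨⟨1, 0, 0⟩, ⟨0, 0, 0⟩⟩⟩
    ⟨⟨⟨-1, -1, 1⟩, ⟨1, -1, 0⟩⟩, ⟨⟨1, 0, -1⟩, ⟨-1, 1, 0⟩⟩⟩ := by
  rw [pi4_cA2, pi4_cB2]
  exact KG_mk
    ⟨⟨⟨-1, 0, 0⟩, ⟨2, 0, -1⟩⟩, ⟨⟨0, 0, 0⟩, ⟨0, 0, 0⟩⟩⟩
    ⟨⟨⟨-3, 1, 1⟩, ⟨2, 0, -1⟩⟩, ⟨⟨-2, 0, 1⟩, ⟨1, -1, 0⟩⟩⟩
    ⟨⟨⟨1, 0, 0⟩, ⟨-3, 0, 1⟩⟩, ⟨⟨-2, 0, 1⟩, ⟨1, -1, 0⟩⟩⟩
    ⟨⟨⟨0, 1, 0⟩, ⟨2, 0, -1⟩⟩, ⟨⟨0, 0, 0⟩, ⟨0, 0, 0⟩⟩⟩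
    (by decide +kernel)
theorem uni1_2 : (⟨⟨0, 1, 0⟩, ⟨0, 0, 0⟩⟩ : T1) * pi1 cA2 +
    ⟨⟨0, 0, -1⟩, ⟨0, 1, 0⟩⟩ * pi1 cB2 = 1 := by
  rw [pi1_cA2, pi1_cB2]
  decide +kernel
theorem uni2_2 : (⟨⟨1, 1, 1⟩, ⟨-1, 0, -1⟩⟩ : T2) * pi2 cA2 +
    ⟨⟨0, 1, 1⟩, ⟨0, 0, 0⟩⟩ * pi2 cB2 = 1 := by
  rw [pi2_cA2, pi2_cB2]
  decide +kernel
theorem uni3_2 : (⟨⟨⟨0, 0, 0⟩, ⟨-1, 0, 0⟩⟩, ⟨⟨-1, -1, 2⟩, ⟨1, -2, 0⟩⟩⟩ : T3) * pi3 cA2 +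
    ⟨⟨⟨1, 0, 0⟩, ⟨2, -1, -1⟩⟩, ⟨⟨0, 1, -1⟩, ⟨0, 1, -1⟩⟩⟩ * pi3 cB2 = 1 := by
  rw [pi3_cA2, pi3_cB2]
  decide +kernel
theorem uni4_2 : (⟨⟨⟨-1, 0, 0⟩, ⟨2, 0, -1⟩⟩, ⟨⟨0, 0, 0⟩, ⟨0, 0, 0⟩⟩⟩ : T4) * pi4 cA2 +
    ⟨⟨⟨-3, 1, 1⟩, ⟨2, 0, -1⟩⟩, ⟨⟨-2, 0, 1⟩, ⟨1, -1, 0⟩⟩⟩ * pi4 cB2 = 1 := by
  rw [pi4_cA2, pi4_cB2]
  decide +kernel

theorem loc_c2 : ∃ u1 v1 u2 v2 u3 v3 u4 v4, G9.Loc cA2 cB2 u1 v1 u2 v2 u3 v3 u4 v4 (Ek 2) := by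
  obtain ⟨u1, v1, u3, v3, h⟩ := loc_of_minus uni1_2 uni2_2 uni3_2 uni4_2 KG2_2 KG4_2
    (E := Ek 2) (by decide +kernel) (by decide +kernel)
  exact ⟨u1, v1, _, _, u3, v3, _, _, h⟩

/-- the column of class 3 -/
noncomputable def cA3 : L9 := 1 + X9 - X9 ^ 9 * Y9
/-- the column of class 3 -/
noncomputable def cB3 : L9 := X9 ^ 2 + X9 ^ 14 * Y9 - X9 - X9 ^ 6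

theorem pi1_cA3 : pi1 cA3 = ⟨⟨1, 1, 0⟩, ⟨-1, 0, 0⟩⟩ := by
  rw [cA3]
  simp only [map_add, map_sub, map_neg, map_mul, map_pow, map_one, pi1_X, pi1_Y]
  decide +kernel
theorem pi1_cB3 : pi1 cB3 = ⟨⟨-1, -1, 1⟩, ⟨0, 0, 1⟩⟩ := by
  rw [cB3]
  simp only [map_add, map_sub, map_neg, map_mul, map_pow, map_one, pi1_X, pi1_Y]
  decide +kernel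
theorem pi2_cA3 : pi2 cA3 = ⟨⟨1, -1, 0⟩, ⟨1, 0, 0⟩⟩ := by
  rw [cA3]
  simp only [map_add, map_sub, map_neg, map_mul, map_pow, map_one, pi2_X, pi2_Y]
  decide +kernel
theorem pi2_cB3 : pi2 cB3 = ⟨⟨-1, 1, 1⟩, ⟨0, 0, 1⟩⟩ := by
  rw [cB3]
  simp only [map_add, map_sub, map_neg, map_mul, map_pow, map_one, pi2_X, pi2_Y]
  decide +kernel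
theorem pi3_cA3 : pi3 cA3 = ⟨⟨⟨1, 0, 0⟩, ⟨1, 0, 0⟩⟩, ⟨⟨-1, 0, 0⟩, ⟨0, 0, 0⟩⟩⟩ := by
  rw [cA3]
  simp only [map_add, map_sub, map_neg, map_mul, map_pow, map_one, pi3_X, pi3_Y]
  decide +kernel
theorem pi3_cB3 : pi3 cB3 = ⟨⟨⟨0, -1, 0⟩, ⟨-2, 1, 1⟩⟩, ⟨⟨1, -1, 0⟩, ⟨1, -1, 0⟩⟩⟩ := by
  rw [cB3]
  simp only [map_add, map_sub, map_neg, map_mul, map_pow, map_one, pi3_X, pi3_Y]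
  decide +kernel
theorem pi4_cA3 : pi4 cA3 = ⟨⟨⟨1, 0, 0⟩, ⟨-1, 0, 0⟩⟩, ⟨⟨1, 0, 0⟩, ⟨0, 0, 0⟩⟩⟩ := by
  rw [cA3]
  simp only [map_add, map_sub, map_neg, map_mul, map_pow, map_one, pi4_X, pi4_Y]
  decide +kernel
theorem pi4_cB3 : pi4 cB3 = ⟨⟨⟨0, -1, 0⟩, ⟨0, 1, 1⟩⟩, ⟨⟨1, -1, 0⟩, ⟨1, -1, 0⟩⟩⟩ := by
  rw [cB3]
  simp only [map_add, map_sub, map_neg, map_mul, map_pow, map_one, pi4_X, pi4_Y]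
  decide +kernel

theorem KG2_3 : KG (pi2 cA3) (pi2 cB3)
    ⟨⟨-1, 1, -1⟩, ⟨0, -1, 0⟩⟩
    ⟨⟨0, 1, -1⟩, ⟨1, 0, 0⟩⟩ := by
  rw [pi2_cA3, pi2_cB3]
  exact KG_mk
    ⟨⟨0, -1, 0⟩, ⟨0, 0, 0⟩⟩
    ⟨⟨0, 0, 1⟩, ⟨0, 0, 0⟩⟩
    ⟨⟨0, -1, 0⟩, ⟨0, 0, 0⟩⟩
    ⟨⟨-1, 0, 0⟩, ⟨0, 0, 0⟩⟩
    (by decide +kernel)
theorem KG4_3 : KG (pi4 cA3) (pi4 cB3)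
    ⟨⟨⟨1, 0, -1⟩, ⟨0, 1, 0⟩⟩, ⟨⟨0, 0, 0⟩, ⟨-1, 1, 1⟩⟩⟩
    ⟨⟨⟨-1, 1, 0⟩, ⟨1, 1, -1⟩⟩, ⟨⟨1, 0, 0⟩, ⟨0, 0, 0⟩⟩⟩ := by
  rw [pi4_cA3, pi4_cB3]
  exact KG_mk
    ⟨⟨⟨-1, 0, 1⟩, ⟨1, -1, 0⟩⟩, ⟨⟨0, 1, 0⟩, ⟨-1, 0, 0⟩⟩⟩
    ⟨⟨⟨-2, 2, 0⟩, ⟨0, 1, -1⟩⟩, ⟨⟨-2, 0, 1⟩, ⟨1, -1, 0⟩⟩⟩
    ⟨⟨⟨0, 0, 0⟩, ⟨0, 0, 0⟩⟩, ⟨⟨0, 2, -1⟩, ⟨2, 1, -2⟩⟩⟩
    ⟨⟨⟨0, -1, 0⟩, ⟨1, 0, 0⟩⟩, ⟨⟨-1, 0, 0⟩, ⟨0, 1, 0⟩⟩⟩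
    (by decide +kernel)
theorem uni1_3 : (⟨⟨0, 0, 0⟩, ⟨0, 1, 0⟩⟩ : T1) * pi1 cA3 +
    ⟨⟨-1, 0, 0⟩, ⟨0, 1, 0⟩⟩ * pi1 cB3 = 1 := by
  rw [pi1_cA3, pi1_cB3]
  decide +kernel
theorem uni2_3 : (⟨⟨0, -1, 0⟩, ⟨0, 0, 0⟩⟩ : T2) * pi2 cA3 +
    ⟨⟨0, 0, 1⟩, ⟨0, 0, 0⟩⟩ * pi2 cB3 = 1 := by
  rw [pi2_cA3, pi2_cB3]
  decide +kernel
theorem uni3_3 : (⟨⟨⟨2, 0, 0⟩, ⟨0, -1, 0⟩⟩, ⟨⟨1, 0, 0⟩, ⟨0, 0, 0⟩⟩⟩ : T3) * pi3 cA3 +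
    ⟨⟨⟨1, 0, 0⟩, ⟨0, 0, 0⟩⟩, ⟨⟨0, 0, 0⟩, ⟨0, 0, 0⟩⟩⟩ * pi3 cB3 = 1 := by
  rw [pi3_cA3, pi3_cB3]
  decide +kernel
theorem uni4_3 : (⟨⟨⟨-1, 0, 1⟩, ⟨1, -1, 0⟩⟩, ⟨⟨0, 1, 0⟩, ⟨-1, 0, 0⟩⟩⟩ : T4) * pi4 cA3 +
    ⟨⟨⟨-2, 2, 0⟩, ⟨0, 1, -1⟩⟩, ⟨⟨-2, 0, 1⟩, ⟨1, -1, 0⟩⟩⟩ * pi4 cB3 = 1 := by
  rw [pi4_cA3, pi4_cB3]
  decide +kernel

theorem loc_c3 : ∃ u1 v1 u2 v2 u3 v3 u4 v4, G9.Loc cA3 cB3 u1 v1 u2 v2 u3 v3 u4 v4 (Ek 3) := by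
  obtain ⟨u1, v1, u3, v3, h⟩ := loc_of_minus uni1_3 uni2_3 uni3_3 uni4_3 KG2_3 KG4_3
    (E := Ek 3) (by decide +kernel) (by decide +kernel)
  exact ⟨u1, v1, _, _, u3, v3, _, _, h⟩

end Vale.Agent.P246.Q36
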