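import Vale.Agent.P246.Q36.Maps
import Vale.Agent.P246.Cyc.Lift2
import Vale.Agent.P246.Cyc.Bez

/-!
# Lifting pairs of units of `GL_2(𝔽_8) × 𝔽_3[D_6]` to `Dbl ℤ[ζ_9] false`
-/

set_option linter.all false

namespace Vale.Agent.P246.Q36

open Vale.Agent.P246.Q24 Vale.Agent.P246.Cyc

/-- the reduction `Dbl ℤ[ζ_9] b → Dbl 𝔽_3[C_3] b` -/
def r3 (b : Bool) : Dbl Z9 b →+* Dbl F3C3 b := Dbl.map zF3C3 zF3C3_conj

/-- both reductions of `Dbl ℤ[ζ_9] false` -/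
def r23 : Dbl Z9 false →+* Dbl F64 false × Dbl F3C3 false := (r2 true).prod (r3 false)

/-- the augmentation modulo three -/
def augF3 : F3C3 →+* F3 := Tri.ev (RingHom.id F3) 1 (by simp)

theorem augF3_conj (x : F3C3) : augF3 (conj x) = conj (augF3 x) :=
  Tri.ev_conj (RingHom.id F3) (fun _ => rfl) 1 (by simp) (by simp) x

/-- the augmentation `𝔽_3[D_6] → 𝔽_3[C_2]` -/
def ag3 : Dbl F3C3 false →+* Dbl F3 false := Dbl.map augF3 augF3_conj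

/-- `4 (ζ - ζ⁻¹)` -/
def dz : Z9 := ⟨⟨0, -4, 0⟩, ⟨8, 0, 0⟩⟩

theorem lft_of {x x' : Dbl Z9 false} {δ : Dbl F3C3 false} (h1 : x * x' = 1) (h2 : x' * x = 1)
    (h3 : r3 false x = δ) (h4 : r2 true x = 1) : Lft r23 (1, δ) :=
  ⟨x, x', h1, h2, Prod.ext h4 h3⟩

/-- `1 + X d (1 - y)` -/
def ta (X : F3) : Dbl F3C3 false := ⟨⟨1, X, -X⟩, ⟨0, -X, X⟩⟩
/-- `1 + Y d (1 + y)` -/
def tb (Y : F3) : Dbl F3C3 false := ⟨⟨1, Y, -Y⟩, ⟨0, Y, -Y⟩⟩
/-- `1 + w ε` -/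
def te (w : F3) : Dbl F3C3 false := ⟨⟨1 + w, w, w⟩, 0⟩
/-- `1 + v ε y` -/
def tv (v : F3) : Dbl F3C3 false := ⟨1, ⟨v, v, v⟩⟩

theorem F3_cases (X : F3) : X = 0 ∨ X = 1 ∨ X = 2 := by revert X; decide

theorem lft_ta (X : F3) : Lft r23 (1, ta X) := by
  rcases F3_cases X with rfl | rfl | rfl
  · exact lft_of (x := 1) (x' := 1) (by decide) (by decide) (by decide) (by decide)
  · exact lft_of (x := ⟨1 + dz, -dz⟩) (x' := ⟨1 - dz, dz⟩) (by decide) (by decide) (by decide)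
      (by decide)
  · exact lft_of (x := ⟨1 - dz, dz⟩) (x' := ⟨1 + dz, -dz⟩) (by decide) (by decide) (by decide)
      (by decide)

theorem lft_tb (X : F3) : Lft r23 (1, tb X) := by
  rcases F3_cases X with rfl | rfl | rfl
  · exact lft_of (x := 1) (x' := 1) (by decide) (by decide) (by decide) (by decide)
  · exact lft_of (x := ⟨1 + dz, dz⟩) (x' := ⟨1 - dz, -dz⟩) (by decide) (by decide) (by decide)
      (by decide)
  · exact lft_of (x := ⟨1 - dz, -dz⟩) (x' := ⟨1 + dz, dz⟩) (by decide) (by decide) (by decide)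
      (by decide)

/-- `η^14` -/
def e14 : Dbl Z9 false := ⟨⟨⟨417, -1548, 1000⟩, 0⟩, 0⟩
/-- `η^(-14)` -/
def e14' : Dbl Z9 false := ⟨⟨⟨2938977, -354484, -1020696⟩, 0⟩, 0⟩

theorem lft_te (X : F3) : Lft r23 (1, te X) := by
  rcases F3_cases X with rfl | rfl | rfl
  · exact lft_of (x := 1) (x' := 1) (by decide) (by decide) (by decide) (by decide)
  · exact lft_of (x := e14) (x' := e14') (by decide) (by decide) (by decide) (by decide)
  · exact lft_of (x := e14') (x' := e14) (by decide) (by decide) (by decide) (by decide)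

theorem Lft.mul1 {x y : Dbl F3C3 false} (hx : Lft r23 (1, x)) (hy : Lft r23 (1, y)) :
    Lft r23 (1, x * y) := by
  have h := Lft.mul hx hy
  rw [Prod.mk_mul_mk, one_mul] at h
  exact h

theorem tv_one : tv 1 = ta 1 * tb 1 * ta 2 * tb 2 := by decide
theorem tv_two : tv 2 = tv 1 * tv 1 := by decide

theorem lft_tv (X : F3) : Lft r23 (1, tv X) := by
  have h1 : Lft r23 (1, tv 1) := by
    rw [tv_one]
    exact Lft.mul1 (Lft.mul1 (Lft.mul1 (lft_ta 1) (lft_tb 1)) (lft_ta 2)) (lft_tb 2)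
  rcases F3_cases X with rfl | rfl | rfl
  · exact lft_of (x := 1) (x' := 1) (by decide) (by decide) (by decide) (by decide)
  · exact h1
  · rw [tv_two]; exact Lft.mul1 h1 h1

theorem dec3 (r0 r1 s0 s1 : F3) : ta (s1 - s0 - (r1 - r0 + 1)) * tb (2 * (s1 - s0 + (r1 - r0 + 1))) *
    te (r0 - 1 - 2 * (s1 - s0 - (r1 - r0 + 1)) * (2 * (s1 - s0 + (r1 - r0 + 1)))) *
    tv (s0 - 2 * (s1 - s0 - (r1 - r0 + 1)) * (2 * (s1 - s0 + (r1 - r0 + 1)))) =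
    ⟨⟨r0, r1, 1 - r0 - r1⟩, ⟨s0, s1, -s0 - s1⟩⟩ := by
  revert r0 r1 s0 s1
  decide

theorem lft_one3 (δ : Dbl F3C3 false) (h : ag3 δ = 1) : Lft r23 (1, δ) := by
  have h1 : δ.fst.x0 + δ.fst.x1 + δ.fst.x2 = 1 := by
    have := congrArg Dbl.fst h
    simpa [ag3, augF3] using this
  have h2 : δ.snd.x0 + δ.snd.x1 + δ.snd.x2 = 0 := by
    have := congrArg Dbl.snd h
    simpa [ag3, augF3] using this
  have e1 : δ = ⟨⟨δ.fst.x0, δ.fst.x1, 1 - δ.fst.x0 - δ.fst.x1⟩,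
      ⟨δ.snd.x0, δ.snd.x1, -δ.snd.x0 - δ.snd.x1⟩⟩ := by
    ext
    · rfl
    · rfl
    · linear_combination h1
    · rfl
    · rfl
    · linear_combination h2
  rw [e1, ← dec3]
  exact Lft.mul1 (Lft.mul1 (Lft.mul1 (lft_ta _) (lft_tb _)) (lft_te _)) (lft_tv _)

/-- `diag(1, -1)` in the order `{(a, b; π c, d)}` -/
def dd : Dbl Z9 false := ⟨⟨⟨-1, 4, -2⟩, ⟨-2, 4, -2⟩⟩, ⟨⟨2, -4, 2⟩, ⟨2, -4, 2⟩⟩⟩

theorem units_ag3 : ∀ x x' : Dbl F3 false, x * x' = 1 →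
    ∃ p ∈ ([((1 : Dbl Z9 false), (1 : Dbl F3 false)),
    (-1, -1), (dd, ⟨0, 1⟩), (-dd, ⟨0, -1⟩)] : List _),
    p.1 * p.1 = 1 ∧ r2 true p.1 = 1 ∧ ag3 (r3 false p.1) = p.2 ∧ p.2 * x = 1 := by
  decide

/-- every unit of `𝔽_3[D_6]` lifts to a unit which is `1` modulo two -/
theorem lft_1d (δ δ' : Dbl F3C3 false) (h : δ * δ' = 1) : Lft r23 (1, δ) := by
  have h1 : ag3 δ * ag3 δ' = 1 := by rw [← map_mul, h, map_one]
  obtain ⟨p, -, a1, a2, a3, a4⟩ := units_ag3 _ _ h1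
  have h2 : Lft r23 (1, r3 false p.1) := ⟨p.1, p.1, a1, a1, Prod.ext a2 rfl⟩
  refine Lft.cancel h2 ?_
  rw [Prod.mk_mul_mk, one_mul]
  apply lft_one3
  rw [map_mul, a3, a4]

/-- every unit of `GL_2(𝔽_8)` lifts to a unit which is `1` modulo three -/
theorem lft_d1 (δ δ' : Dbl F64 false) (h : δ * δ' = 1) : Lft r23 (δ, 1) :=
  lft2 true (r3 false) (N := 3) rfl (by decide) (by decide) δ δ' h

/-- every pair of units lifts -/
theorem lft23 (δ δ' : Dbl F64 false) (h : δ * δ' = 1) (d d' : Dbl F3C3 false) (h' : d * d' = 1) :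
    Lft r23 (δ, d) := by
  have h1 := Lft.mul (lft_d1 δ δ' h) (lft_1d d d' h')
  rw [Prod.mk_mul_mk, one_mul, mul_one] at h1
  exact h1

/-- every unit of `𝔽_3[D_6]` lifts to `Dbl ℤ[ζ_9] false` -/
theorem lft3 (δ δ' : Dbl F3C3 false) (h : δ * δ' = 1) : Lft (r3 false) δ := by
  obtain ⟨ε, ε', h1, h2, h3⟩ := lft_1d δ δ' h
  exact ⟨ε, ε', h1, h2, congrArg Prod.snd h3⟩

/-- transitivity for `ℤ[D_18]` -/
theorem TR_C9f : TR (Dbl C9 false) :=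
  TR_glue_Dbl c9z c9c3 zF3C3 c3f c9z_conj c9c3_conj zF3C3_conj c3f_conj sq9 inj9 surj9 false
    (TR_Zt_false true) TR_C3f (fun δ δ' h _ => lft3 δ δ' h)

end Vale.Agent.P246.Q36
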