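import Vale.Agent.P246.Q36.K1
import Vale.Agent.P246.Q36.J1
import Vale.Agent.P246.Q36.J2
import Vale.Agent.P246.Max9.M4

/-!
# The D(2) property of `Q_36` (algebraic form)
-/

set_option linter.all false

namespace Vale.Agent.P246.Q36

open Vale.Agent.P246 Vale.Agent.P246.Q24 QuaternionGroup Vale.Agent.P246.Cyc Vale.Agent.P246.Gen

theorem Xn9 : Xn 9 = X9 := rfl
theorem Yn9 : Yn 9 = Y9 := rfl

theorem colA (β γ : L9) : β - 0 * γ = β := by rw [zero_mul, sub_zero]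

theorem colB1 : (Xn 9 - 1) * 0 - (Xn 9 - Yn 9) = cB1 := by
  rw [Xn9, Yn9, cB1, mul_zero, zero_sub, neg_sub]

theorem colB2 : (Xn 9 - 1) * ga2 - (Xn 9 - Yn 9) = cB2 := by
  rw [Xn9, Yn9, cB2, ga2]
  noncomm_ring

theorem colB3 : (Xn 9 - 1) * ga3 - (Xn 9 - Yn 9) = cB3 := by
  rw [Xn9, Yn9, cB3, ga3]
  apply ppm_inj'
  · simp only [map_add, map_sub, map_neg, map_mul, map_pow, map_one, map_zero, pp_X, pp_Y]
    decide +kernel
  · simp only [map_add, map_sub, map_neg, map_mul, map_pow, map_one, map_zero, pm_X, pm_Y]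
    decide +kernel

theorem colA1 : be1 = cA1 := rfl
theorem colA2 : be2 = cA2 := by rw [be2, cA2]
theorem colA3 : be3 = cA3 := by rw [be3, cA3]

/-- every unimodular column is realized -/
theorem realized (a b c d : ZG (QuaternionGroup 9)) (h : c * a + d * b = 1) : Realized 9 a b := by
  obtain ⟨u1, v1, u2, v2, u3, v3, u4, v4, E, hL, -, hE⟩ := exists_loc9 Max9.TR_T9 h
  obtain ⟨e1⟩ := hL.equiv
  obtain ⟨k, ⟨e2⟩⟩ := class_iso E hE
  have e3 := e1.trans e2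
  fin_cases k
  · obtain ⟨e4⟩ := (Glue.Loc_col G9 (X9 - Y9)).equiv
    exact realized_std 9 ⟨e3.trans e4.symm⟩
  · obtain ⟨_, _, _, _, _, _, _, _, hk⟩ := loc_c1
    obtain ⟨e4⟩ := hk.equiv
    refine ⟨rels1, 0, be1, 0, hker1, fox10, fox11, ?_⟩
    rw [colA, colB1, colA1]
    exact ⟨e3.trans e4.symm⟩
  · obtain ⟨_, _, _, _, _, _, _, _, hk⟩ := loc_c2
    obtain ⟨e4⟩ := hk.equiv
    refine ⟨rels2, 0, be2, ga2, hker2, fox20, fox21, ?_⟩
    rw [colA, colB2, colA2]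
    exact ⟨e3.trans e4.symm⟩
  · obtain ⟨_, _, _, _, _, _, _, _, hk⟩ := loc_c3
    obtain ⟨e4⟩ := hk.equiv
    refine ⟨rels3, 0, be3, ga3, hker3, fox30, fox31, ?_⟩
    rw [colA, colB3, colA3]
    exact ⟨e3.trans e4.symm⟩

theorem main : AlgebraicD2Property (QuaternionGroup 9) := d2_of 9 realized

end Vale.Agent.P246.Q36
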