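import Vale.Agent.P246.Q36.Maps
import Vale.Agent.P246.Q24.E1
import Vale.Agent.P246.Q24.B2

/-!
# The two projections of `ℤ[Q_36]` to `ℤ[C_9]∘y`
-/

set_option linter.all false

namespace Vale.Agent.P246.Q36

open Vale.Agent.P246 Vale.Agent.P246.Q24 QuaternionGroup Vale.Agent.P246.Cyc

section rep

variable {K : Type} [CommRing K] [Invo K] (b : Bool)

/-- the image `± u` of `x` -/
def xr (b : Bool) (u : K) : Dbl K b := ⟨sg K b * u, 0⟩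
/-- the image of `y` -/
def yr (K : Type) [CommRing K] [Invo K] (b : Bool) : Dbl K b := ⟨0, 1⟩

theorem xr_sq (u : K) : xr b u * xr b u = ⟨u * u, 0⟩ := by
  cases b <;> ext <;> simp [xr]

theorem xr_pow2 (u : K) (k : ℕ) : xr b u ^ (2 * k) = (⟨u ^ (2 * k), 0⟩ : Dbl K b) := by
  induction k with
  | zero => rw [mul_zero, pow_zero, pow_zero]; rfl
  | succ k ih =>
    rw [mul_add, mul_one, pow_add, ih, sq, xr_sq, pow_add, sq]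
    ext <;> simp

theorem xr_pow_odd (u : K) (k : ℕ) :
    xr b u ^ (2 * k + 1) = (⟨sg K b * u ^ (2 * k + 1), 0⟩ : Dbl K b) := by
  rw [pow_succ, xr_pow2, pow_succ]
  ext
  · simp [xr]; ring
  · simp [xr]

theorem xr_h1 (u : K) (k : ℕ) (hu : u ^ (2 * k + 1) = 1) : xr b u ^ (2 * (2 * k + 1)) = 1 := by
  rw [xr_pow2, mul_comm, pow_mul, hu, one_pow]
  rfl

theorem xr_h2 (u : K) (k : ℕ) (hu : u ^ (2 * k + 1) = 1) :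
    yr K b * yr K b = xr b u ^ (2 * k + 1) := by
  rw [xr_pow_odd, hu]
  ext <;> simp [yr]

theorem xr_h3 (u : K) (hc : u * conj u = 1) : xr b u * yr K b * xr b u = yr K b := by
  cases b
  · ext
    · simp [yr, xr]
    · simp [yr, xr, hc]
  · ext
    · simp [yr, xr]
    · simp [yr, xr, hc]

/-- the representation of `QuaternionGroup 9` -/
def qr (u : K) (hu : u ^ 9 = 1) (hc : u * conj u = 1) : QuaternionGroup 9 →* Dbl K b :=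
  quatHom (xr b u) (yr K b) (xr_h1 b u 4 hu) (xr_h2 b u 4 hu) (xr_h3 b u hc)

/-- the projection of the group ring -/
noncomputable def pr (u : K) (hu : u ^ 9 = 1) (hc : u * conj u = 1) :
    ZG (QuaternionGroup 9) →+* Dbl K b :=
  (MonoidAlgebra.lift ℤ (Dbl K b) (QuaternionGroup 9) (qr b u hu hc)).toRingHom

theorem pr_elt (u : K) (hu : u ^ 9 = 1) (hc : u * conj u = 1) (g : QuaternionGroup 9) :
    pr b u hu hc (elt g) = qr b u hu hc g := by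
  simp [pr, elt]

end rep

/-- the group ring -/
abbrev L9 : Type := ZG (QuaternionGroup 9)

/-- `x` -/
noncomputable def X9 : L9 := elt (a 1 : QuaternionGroup 9)
/-- `y` -/
noncomputable def Y9 : L9 := elt (xa 0 : QuaternionGroup 9)

theorem pr_X {K : Type} [CommRing K] [Invo K] (b : Bool) (u : K) (hu : u ^ 9 = 1)
    (hc : u * conj u = 1) : pr b u hu hc X9 = xr b u := by
  rw [X9, pr_elt]
  exact pow_one _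

theorem pr_Y {K : Type} [CommRing K] [Invo K] (b : Bool) (u : K) (hu : u ^ 9 = 1)
    (hc : u * conj u = 1) : pr b u hu hc Y9 = yr K b := by
  rw [Y9, pr_elt]
  change yr K b * xr b u ^ 0 = _
  rw [pow_zero, mul_one]

/-- two ring homomorphisms agree if they agree on the generators -/
theorem L9_hom_ext {R : Type*} [Ring R] {f g : L9 →+* R} (h1 : f X9 = g X9) (h2 : f Y9 = g Y9) :
    f = g := by
  apply MonoidAlgebra.ringHom_ext'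
  · exact RingHom.ext_int _ _
  · exact quat_hom_ext h1 h2

theorem u9_pow : u9 ^ 9 = 1 := by decide +kernel
theorem u9_conj : u9 * conj u9 = 1 := by decide +kernel

/-- the projection to `ℤ[D_18]` -/
noncomputable def pp : L9 →+* Dbl C9 false := pr false u9 u9_pow u9_conj
/-- the projection to `ℤ[C_9]⟨j⟩` -/
noncomputable def pm : L9 →+* Dbl C9 true := pr true u9 u9_pow u9_conj

theorem pp_X : pp X9 = xr false u9 := pr_X _ _ _ _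
theorem pp_Y : pp Y9 = yr C9 false := pr_Y _ _ _ _
theorem pm_X : pm X9 = xr true u9 := pr_X _ _ _ _
theorem pm_Y : pm Y9 = yr C9 true := pr_Y _ _ _ _

/-! ### coordinates -/

/-- `x^10`, of order nine -/
noncomputable def W9 : L9 := X9 ^ 10
/-- `x^9`, central of order two -/
noncomputable def z9 : L9 := X9 ^ 9

/-- the inclusion of `ℤ[C_9]` -/
noncomputable def inc (t : C9) : L9 :=
  t.x0.x0 • 1 + t.x1.x0 • W9 + t.x2.x0 • W9 ^ 2 + t.x0.x1 • W9 ^ 3 + t.x1.x1 • W9 ^ 4 +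
  t.x2.x1 • W9 ^ 5 + t.x0.x2 • W9 ^ 6 + t.x1.x2 • W9 ^ 7 + t.x2.x2 • W9 ^ 8

theorem inc_add (s t : C9) : inc (s + t) = inc s + inc t := by
  simp only [inc, Tri.add_x0, Tri.add_x1, Tri.add_x2, add_smul]
  abel

theorem inc_zero : inc 0 = 0 := by
  simp [inc]

theorem pp_W : pp W9 = ⟨⟨0, 1, 0⟩, 0⟩ := by
  rw [W9, map_pow, pp_X]
  decide +kernel

theorem pm_W : pm W9 = ⟨⟨0, 1, 0⟩, 0⟩ := by
  rw [W9, map_pow, pm_X]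
  decide +kernel

theorem pp_z : pp z9 = 1 := by
  rw [z9, map_pow, pp_X]
  decide +kernel

theorem pm_z : pm z9 = -1 := by
  rw [z9, map_pow, pm_X]
  decide +kernel

theorem zsmul_mk {K : Type} [CommRing K] {b : Bool} (n : ℤ) (x y : K) :
    n • (⟨x, y⟩ : Dbl K b) = ⟨n • x, n • y⟩ := rfl

theorem W_powers : ((⟨⟨0, 1, 0⟩, 0⟩ : Dbl C9 false) ^ 2 = ⟨⟨0, 0, ⟨1, 0, 0⟩⟩, 0⟩ ∧
    (⟨⟨0, 1, 0⟩, 0⟩ : Dbl C9 false) ^ 3 = ⟨⟨⟨0, 1, 0⟩, 0, 0⟩, 0⟩ ∧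
    (⟨⟨0, 1, 0⟩, 0⟩ : Dbl C9 false) ^ 4 = ⟨⟨0, ⟨0, 1, 0⟩, 0⟩, 0⟩ ∧
    (⟨⟨0, 1, 0⟩, 0⟩ : Dbl C9 false) ^ 5 = ⟨⟨0, 0, ⟨0, 1, 0⟩⟩, 0⟩ ∧
    (⟨⟨0, 1, 0⟩, 0⟩ : Dbl C9 false) ^ 6 = ⟨⟨⟨0, 0, 1⟩, 0, 0⟩, 0⟩ ∧
    (⟨⟨0, 1, 0⟩, 0⟩ : Dbl C9 false) ^ 7 = ⟨⟨0, ⟨0, 0, 1⟩, 0⟩, 0⟩ ∧
    (⟨⟨0, 1, 0⟩, 0⟩ : Dbl C9 false) ^ 8 = ⟨⟨0, 0, ⟨0, 0, 1⟩⟩, 0⟩) ∧
    ((⟨⟨0, 1, 0⟩, 0⟩ : Dbl C9 true) ^ 2 = ⟨⟨0, 0, ⟨1, 0, 0⟩⟩, 0⟩ ∧
    (⟨⟨0, 1, 0⟩, 0⟩ : Dbl C9 true) ^ 3 = ⟨⟨⟨0, 1, 0⟩, 0, 0⟩, 0⟩ ∧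
    (⟨⟨0, 1, 0⟩, 0⟩ : Dbl C9 true) ^ 4 = ⟨⟨0, ⟨0, 1, 0⟩, 0⟩, 0⟩ ∧
    (⟨⟨0, 1, 0⟩, 0⟩ : Dbl C9 true) ^ 5 = ⟨⟨0, 0, ⟨0, 1, 0⟩⟩, 0⟩ ∧
    (⟨⟨0, 1, 0⟩, 0⟩ : Dbl C9 true) ^ 6 = ⟨⟨⟨0, 0, 1⟩, 0, 0⟩, 0⟩ ∧
    (⟨⟨0, 1, 0⟩, 0⟩ : Dbl C9 true) ^ 7 = ⟨⟨0, ⟨0, 0, 1⟩, 0⟩, 0⟩ ∧
    (⟨⟨0, 1, 0⟩, 0⟩ : Dbl C9 true) ^ 8 = ⟨⟨0, 0, ⟨0, 0, 1⟩⟩, 0⟩) := by decide +kernel

theorem pp_inc (t : C9) : pp (inc t) = ⟨t, 0⟩ := by
  obtain ⟨⟨h2, h3, h4, h5, h6, h7, h8⟩, -⟩ := W_powers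
  simp only [inc, map_add, map_zsmul, map_one, map_pow, pp_W, h2, h3, h4, h5, h6, h7, h8]
  apply Dbl.ext
  · ext <;> simp
  · simp

theorem pm_inc (t : C9) : pm (inc t) = ⟨t, 0⟩ := by
  obtain ⟨-, ⟨h2, h3, h4, h5, h6, h7, h8⟩⟩ := W_powers
  simp only [inc, map_add, map_zsmul, map_one, map_pow, pm_W, h2, h3, h4, h5, h6, h7, h8]
  apply Dbl.ext
  · ext <;> simp
  · simp

end Vale.Agent.P246.Q36
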