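import Vale.Agent.P246.Q36.P1

/-!
# The four projections of `ℤ[Q_36]`: injectivity and image
-/

set_option linter.all false

namespace Vale.Agent.P246.Q36

open Vale.Agent.P246 Vale.Agent.P246.Q24 QuaternionGroup Vale.Agent.P246.Cyc

/-- the additive inclusion of `ℤ[C_9]` -/
noncomputable def incH : C9 →+ L9 where
  toFun := inc
  map_zero' := inc_zero
  map_add' := inc_add

theorem incH_apply (t : C9) : incH t = inc t := rfl

theorem X9_pow (k : ℕ) : X9 ^ k = elt (a (k : ZMod (2 * 9)) : QuaternionGroup 9) := by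
  have h : X9 ^ k = elt ((a 1 : QuaternionGroup 9) ^ k) := by
    induction k with
    | zero => rw [pow_zero, pow_zero, elt_one]
    | succ k ih => rw [pow_succ, ih, pow_succ, X9, elt_mul_elt]
  rw [h, a_one_pow]

theorem X9_18 : X9 ^ 18 = 1 := by
  rw [X9_pow]
  have : ((18 : ℕ) : ZMod (2 * 9)) = 0 := by decide
  rw [this, a_zero, elt_one]

theorem X9_split (m : ℕ) : X9 ^ m = W9 ^ (m % 9) * z9 ^ (m % 2) := by
  have h1 : W9 ^ 9 = 1 := by
    rw [W9, ← pow_mul, show 10 * 9 = 18 * 5 from rfl, pow_mul, X9_18, one_pow]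
  have h2 : z9 ^ 2 = 1 := by
    rw [z9, ← pow_mul, show 9 * 2 = 18 from rfl, X9_18]
  have h3 : W9 ^ m * z9 ^ m = X9 ^ m := by
    rw [W9, z9, ← pow_mul, ← pow_mul, ← pow_add, ← add_mul,
      show (10 + 9) * m = 18 * m + m from by ring, pow_add, pow_mul, X9_18, one_pow, one_mul]
  rw [← h3]
  congr 1
  · conv_lhs => rw [← Nat.mod_add_div m 9, pow_add, pow_mul, h1, one_pow, mul_one]
  · conv_lhs => rw [← Nat.mod_add_div m 2, pow_add, pow_mul, h2, one_pow, mul_one]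

theorem inc_basis (j : ℕ) (hj : j < 9) : ∃ t, inc t = W9 ^ j := by
  interval_cases j
  · exact ⟨⟨⟨1, 0, 0⟩, 0, 0⟩, by simp [inc]⟩
  · exact ⟨⟨0, ⟨1, 0, 0⟩, 0⟩, by simp [inc]⟩
  · exact ⟨⟨0, 0, ⟨1, 0, 0⟩⟩, by simp [inc]⟩
  · exact ⟨⟨⟨0, 1, 0⟩, 0, 0⟩, by simp [inc]⟩
  · exact ⟨⟨0, ⟨0, 1, 0⟩, 0⟩, by simp [inc]⟩
  · exact ⟨⟨0, 0, ⟨0, 1, 0⟩⟩, by simp [inc]⟩
  · exact ⟨⟨⟨0, 0, 1⟩, 0, 0⟩, by simp [inc]⟩
  · exact ⟨⟨0, ⟨0, 0, 1⟩, 0⟩, by simp [inc]⟩
  · exact ⟨⟨0, 0, ⟨0, 0, 1⟩⟩, by simp [inc]⟩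

/-- powers of `x` in coordinates -/
theorem X9_coord (i : ZMod (2 * 9)) : ∃ p q, elt (a i : QuaternionGroup 9) =
    incH p + incH q * z9 := by
  have : NeZero (2 * 9) := ⟨by decide⟩
  have h : elt (a i : QuaternionGroup 9) = X9 ^ i.val := by
    rw [X9_pow, ZMod.natCast_zmod_val]
  obtain ⟨t, ht⟩ := inc_basis (i.val % 9) (Nat.mod_lt _ (by norm_num))
  rw [h, X9_split, ← ht]
  rcases Nat.mod_two_eq_zero_or_one i.val with h2 | h2
  · exact ⟨t, 0, by rw [h2, pow_zero, mul_one, map_zero, zero_mul, add_zero]; rfl⟩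
  · exact ⟨0, t, by rw [h2, pow_one, map_zero, zero_add]; rfl⟩

theorem exists_inc (x : L9) : ∃ p q r s, x = incH p + incH q * z9 +
    (incH r + incH s * z9) * Y9 := by
  induction x using MonoidAlgebra.induction_linear with
  | zero => exact ⟨0, 0, 0, 0, by simp⟩
  | add x y hx hy =>
    obtain ⟨p, q, r, s, rfl⟩ := hx
    obtain ⟨p', q', r', s', rfl⟩ := hy
    refine ⟨p + p', q + q', r + r', s + s', ?_⟩
    simp only [map_add, add_mul]
    abel
  | single g n =>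
    have h0 : (MonoidAlgebra.single g n : L9) = n • elt g := by
      simp [elt]
    rw [h0]
    rcases g with i | i
    · obtain ⟨p, q, h⟩ := X9_coord i
      refine ⟨n • p, n • q, 0, 0, ?_⟩
      rw [h, smul_add, map_zsmul, map_zsmul, smul_mul_assoc]
      simp
    · obtain ⟨p, q, h⟩ := X9_coord (-i)
      refine ⟨0, 0, n • p, n • q, ?_⟩
      have h1 : (elt (xa i) : L9) = elt (a (-i)) * Y9 := by
        rw [Y9, elt_mul_elt, a_mul_xa]
        congr 2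
        abel
      rw [h1, h, map_zsmul, map_zsmul, map_zero, zero_mul, add_zero, zero_add, ← smul_mul_assoc,
        smul_add, smul_mul_assoc]

theorem pp_coord (p q r s : C9) : pp (incH p + incH q * z9 + (incH r + incH s * z9) * Y9) =
    ⟨p + q, r + s⟩ := by
  simp only [incH_apply, map_add, map_mul, pp_inc, pp_z, pp_Y, mul_one]
  ext1 <;> simp [yr]

theorem pm_coord (p q r s : C9) : pm (incH p + incH q * z9 + (incH r + incH s * z9) * Y9) =
    ⟨p - q, r - s⟩ := by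
  simp only [incH_apply, map_add, map_mul, pm_inc, pm_z, pm_Y, mul_neg, mul_one]
  ext1 <;> simp [yr, sub_eq_add_neg]

theorem half_zero {p q : C9} (h1 : p + q = 0) (h2 : p - q = 0) : p = 0 ∧ q = 0 := by
  have h3 : p = q := sub_eq_zero.1 h2
  subst h3
  have e0 := congrArg (fun t : C9 => t.x0.x0) h1
  have e1 := congrArg (fun t : C9 => t.x0.x1) h1
  have e2 := congrArg (fun t : C9 => t.x0.x2) h1
  have e3 := congrArg (fun t : C9 => t.x1.x0) h1
  have e4 := congrArg (fun t : C9 => t.x1.x1) h1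
  have e5 := congrArg (fun t : C9 => t.x1.x2) h1
  have e6 := congrArg (fun t : C9 => t.x2.x0) h1
  have e7 := congrArg (fun t : C9 => t.x2.x1) h1
  have e8 := congrArg (fun t : C9 => t.x2.x2) h1
  simp only [Tri.add_x0, Tri.add_x1, Tri.add_x2, Tri.zero_x0, Tri.zero_x1, Tri.zero_x2] at *
  have : p = 0 := by ext <;> simp <;> omega
  exact ⟨this, this⟩

theorem ppm_inj (x : L9) (h1 : pp x = 0) (h2 : pm x = 0) : x = 0 := by
  obtain ⟨p, q, r, s, rfl⟩ := exists_inc x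
  rw [pp_coord] at h1
  rw [pm_coord] at h2
  obtain ⟨rfl, rfl⟩ := half_zero (congrArg Dbl.fst h1) (congrArg Dbl.fst h2)
  obtain ⟨rfl, rfl⟩ := half_zero (congrArg Dbl.snd h1) (congrArg Dbl.snd h2)
  simp

theorem dvd2' {x y : ℤ} (h : zF2 x = zF2 y) : (2 : ℤ) ∣ x - y := by
  have h' : ((x : ℤ) : ZMod 2) = ((y : ℤ) : ZMod 2) := h
  exact (ZMod.intCast_eq_intCast_iff_dvd_sub y x 2).1 h'.symm

theorem zF2_congr {x y : ℤ} (h : (2 : ℤ) ∣ x - y) : zF2 x = zF2 y := by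
  have h' := (ZMod.intCast_eq_intCast_iff_dvd_sub y x 2).2 h
  exact h'.symm

theorem half_C9 {A B : C9} (h : c9m A = c9m B) : ∃ q : C9, A = B + q + q := by
  obtain ⟨e0, h0⟩ := dvd2' (congrArg (fun t : F2C9 => t.x0.x0) h)
  obtain ⟨e1, h1⟩ := dvd2' (congrArg (fun t : F2C9 => t.x0.x1) h)
  obtain ⟨e2, h2⟩ := dvd2' (congrArg (fun t : F2C9 => t.x0.x2) h)
  obtain ⟨e3, h3⟩ := dvd2' (congrArg (fun t : F2C9 => t.x1.x0) h)
  obtain ⟨e4, h4⟩ := dvd2' (congrArg (fun t : F2C9 => t.x1.x1) h)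
  obtain ⟨e5, h5⟩ := dvd2' (congrArg (fun t : F2C9 => t.x1.x2) h)
  obtain ⟨e6, h6⟩ := dvd2' (congrArg (fun t : F2C9 => t.x2.x0) h)
  obtain ⟨e7, h7⟩ := dvd2' (congrArg (fun t : F2C9 => t.x2.x1) h)
  obtain ⟨e8, h8⟩ := dvd2' (congrArg (fun t : F2C9 => t.x2.x2) h)
  refine ⟨⟨⟨e0, e1, e2⟩, ⟨e3, e4, e5⟩, ⟨e6, e7, e8⟩⟩, ?_⟩
  ext <;> simp <;> omega

theorem ppm_surj (s : Dbl C9 false) (s' : Dbl C9 true) (h1 : c9m s.fst = c9m s'.fst)
    (h2 : c9m s.snd = c9m s'.snd) : ∃ x, pp x = s ∧ pm x = s' := by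
  obtain ⟨q, hq⟩ := half_C9 h1
  obtain ⟨t, ht⟩ := half_C9 h2
  refine ⟨incH (s'.fst + q) + incH q * z9 + (incH (s'.snd + t) + incH t * z9) * Y9, ?_, ?_⟩
  · rw [pp_coord]
    exact Dbl.ext hq.symm ht.symm
  · rw [pm_coord]
    apply Dbl.ext
    · simp
    · simp

/-- reduction modulo two is determined by the two reductions -/
theorem c9m_of (t t' : C9) (h1 : c3m (c9c3 t) = c3m (c9c3 t'))
    (h2 : zF64 (c9z t) = zF64 (c9z t')) : c9m t = c9m t' := by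
  have a0 := dvd2' (congrArg Tri.x0 h1)
  have a1 := dvd2' (congrArg Tri.x1 h1)
  have a2 := dvd2' (congrArg Tri.x2 h1)
  have b0 := dvd2' (congrArg (fun z : F64 => z.re.x0) h2)
  have b1 := dvd2' (congrArg (fun z : F64 => z.re.x1) h2)
  have b2 := dvd2' (congrArg (fun z : F64 => z.re.x2) h2)
  have b3 := dvd2' (congrArg (fun z : F64 => z.im.x0) h2)
  have b4 := dvd2' (congrArg (fun z : F64 => z.im.x1) h2)
  have b5 := dvd2' (congrArg (fun z : F64 => z.im.x2) h2)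
  rw [c9c3_x0, c9c3_x0] at a0
  rw [c9c3_x1, c9c3_x1] at a1
  rw [c9c3_x2, c9c3_x2] at a2
  rw [c9z_re0, c9z_re0] at b0
  rw [c9z_re1, c9z_re1] at b1
  rw [c9z_re2, c9z_re2] at b2
  rw [c9z_im0, c9z_im0] at b3
  rw [c9z_im1, c9z_im1] at b4
  rw [c9z_im2, c9z_im2] at b5
  ext
  all_goals
    apply zF2_congr
    omega

end Vale.Agent.P246.Q36
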