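import Vale.Agent.P246.Q36.P2
import Vale.Agent.P246.Q36.Glue

/-!
# The four projections of `ℤ[Q_36]` and the glued modules
-/

set_option linter.all false

namespace Vale.Agent.P246.Q36

open Vale.Agent.P246 Vale.Agent.P246.Q24 QuaternionGroup Vale.Agent.P246.Cyc

/-- `ℤ[D_6]` -/
abbrev T1 : Type := Dbl C3 false
/-- `ℤ[C_3]⟨j⟩` -/
abbrev T2 : Type := Dbl C3 true
/-- `ℤ[ζ_9]∘C_2` -/
abbrev T3 : Type := Dbl Z9 false
/-- `ℤ[ζ_9]⟨j⟩` -/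
abbrev T4 : Type := Dbl Z9 true

theorem neg_one_F2C3 : (-1 : F2C3) = 1 := by decide
theorem neg_one_F64 : (-1 : F64) = 1 := by decide

/-- `T1 → 𝔽_2[D_6]` -/
def a12 : T1 →+* Dbl F2C3 false := Dbl.map c3m c3m_conj
/-- `T2 → 𝔽_2[D_6]` -/
def b12 : T2 →+* Dbl F2C3 false := Dbl.red2 neg_one_F2C3 c3m c3m_conj
/-- `T3 → 𝔽_64∘C_2` -/
def a34 : T3 →+* Dbl F64 false := Dbl.map zF64 zF64_conj
/-- `T4 → 𝔽_64∘C_2` -/
def b34 : T4 →+* Dbl F64 false := Dbl.red2 neg_one_F64 zF64 zF64_conj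
/-- `T1 → 𝔽_3[D_6]` -/
def a13 : T1 →+* Dbl F3C3 false := Dbl.map c3f c3f_conj
/-- `T3 → 𝔽_3[D_6]` -/
def b13 : T3 →+* Dbl F3C3 false := Dbl.map zF3C3 zF3C3_conj
/-- `T2 → 𝔽_3[C_3]⟨j⟩` -/
def a24 : T2 →+* Dbl F3C3 true := Dbl.map c3f c3f_conj
/-- `T4 → 𝔽_3[C_3]⟨j⟩` -/
def b24 : T4 →+* Dbl F3C3 true := Dbl.map zF3C3 zF3C3_conj

/-- the projection to `ℤ[D_6]` -/
noncomputable def pi1 : L9 →+* T1 := (Dbl.map c9c3 c9c3_conj).comp pp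
/-- the projection to `ℤ[C_3]⟨j⟩` -/
noncomputable def pi2 : L9 →+* T2 := (Dbl.map c9c3 c9c3_conj).comp pm
/-- the projection to `ℤ[ζ_9]∘C_2` -/
noncomputable def pi3 : L9 →+* T3 := (Dbl.map c9z c9z_conj).comp pp
/-- the projection to `ℤ[ζ_9]⟨j⟩` -/
noncomputable def pi4 : L9 →+* T4 := (Dbl.map c9z c9z_conj).comp pm

theorem pi1_X : pi1 X9 = ⟨⟨0, 1, 0⟩, 0⟩ := by
  rw [pi1, RingHom.comp_apply, pp_X]; decide +kernel
theorem pi2_X : pi2 X9 = ⟨⟨0, -1, 0⟩, 0⟩ := by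
  rw [pi2, RingHom.comp_apply, pm_X]; decide +kernel
theorem pi3_X : pi3 X9 = ⟨⟨0, 1⟩, 0⟩ := by
  rw [pi3, RingHom.comp_apply, pp_X]; decide +kernel
theorem pi4_X : pi4 X9 = ⟨⟨0, -1⟩, 0⟩ := by
  rw [pi4, RingHom.comp_apply, pm_X]; decide +kernel
theorem pi1_Y : pi1 Y9 = ⟨0, 1⟩ := by
  rw [pi1, RingHom.comp_apply, pp_Y]; decide +kernel
theorem pi2_Y : pi2 Y9 = ⟨0, 1⟩ := by
  rw [pi2, RingHom.comp_apply, pm_Y]; decide +kernel
theorem pi3_Y : pi3 Y9 = ⟨0, 1⟩ := by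
  rw [pi3, RingHom.comp_apply, pp_Y]; decide +kernel
theorem pi4_Y : pi4 Y9 = ⟨0, 1⟩ := by
  rw [pi4, RingHom.comp_apply, pm_Y]; decide +kernel

theorem pi_12 (a : L9) : a12 (pi1 a) = b12 (pi2 a) := by
  have h : a12.comp pi1 = b12.comp pi2 := by
    apply L9_hom_ext
    · rw [RingHom.comp_apply, RingHom.comp_apply, pi1_X, pi2_X]; decide +kernel
    · rw [RingHom.comp_apply, RingHom.comp_apply, pi1_Y, pi2_Y]; decide +kernel
  exact DFunLike.congr_fun h a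

theorem pi_34 (a : L9) : a34 (pi3 a) = b34 (pi4 a) := by
  have h : a34.comp pi3 = b34.comp pi4 := by
    apply L9_hom_ext
    · rw [RingHom.comp_apply, RingHom.comp_apply, pi3_X, pi4_X]; decide +kernel
    · rw [RingHom.comp_apply, RingHom.comp_apply, pi3_Y, pi4_Y]; decide +kernel
  exact DFunLike.congr_fun h a

theorem pi_13 (a : L9) : a13 (pi1 a) = b13 (pi3 a) := by
  have h : a13.comp pi1 = b13.comp pi3 := by
    apply L9_hom_ext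
    · rw [RingHom.comp_apply, RingHom.comp_apply, pi1_X, pi3_X]; decide +kernel
    · rw [RingHom.comp_apply, RingHom.comp_apply, pi1_Y, pi3_Y]; decide +kernel
  exact DFunLike.congr_fun h a

theorem pi_24 (a : L9) : a24 (pi2 a) = b24 (pi4 a) := by
  have h : a24.comp pi2 = b24.comp pi4 := by
    apply L9_hom_ext
    · rw [RingHom.comp_apply, RingHom.comp_apply, pi2_X, pi4_X]; decide +kernel
    · rw [RingHom.comp_apply, RingHom.comp_apply, pi2_Y, pi4_Y]; decide +kernel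
  exact DFunLike.congr_fun h a

theorem pi1_fst (x : L9) : (pi1 x).fst = c9c3 (pp x).fst := rfl
theorem pi1_snd (x : L9) : (pi1 x).snd = c9c3 (pp x).snd := rfl
theorem pi2_fst (x : L9) : (pi2 x).fst = c9c3 (pm x).fst := rfl
theorem pi2_snd (x : L9) : (pi2 x).snd = c9c3 (pm x).snd := rfl
theorem pi3_fst (x : L9) : (pi3 x).fst = c9z (pp x).fst := rfl
theorem pi3_snd (x : L9) : (pi3 x).snd = c9z (pp x).snd := rfl
theorem pi4_fst (x : L9) : (pi4 x).fst = c9z (pm x).fst := rfl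
theorem pi4_snd (x : L9) : (pi4 x).snd = c9z (pm x).snd := rfl

theorem pi_zero (x : L9) (h1 : pi1 x = 0) (h2 : pi2 x = 0) (h3 : pi3 x = 0) (h4 : pi4 x = 0) :
    x = 0 := by
  have a1 := pi1_fst x
  have a2 := pi1_snd x
  have b1 := pi2_fst x
  have b2 := pi2_snd x
  have c1 := pi3_fst x
  have c2 := pi3_snd x
  have d1 := pi4_fst x
  have d2 := pi4_snd x
  rw [h1] at a1 a2
  rw [h2] at b1 b2
  rw [h3] at c1 c2
  rw [h4] at d1 d2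
  apply ppm_inj
  · apply Dbl.ext
    · exact inj9 _ c1.symm a1.symm
    · exact inj9 _ c2.symm a2.symm
  · apply Dbl.ext
    · exact inj9 _ d1.symm b1.symm
    · exact inj9 _ d2.symm b2.symm

theorem a12_ext {s : T1} {t : T2} (h : a12 s = b12 t) :
    c3m s.fst = c3m t.fst ∧ c3m s.snd = c3m t.snd :=
  ⟨congrArg Dbl.fst h, congrArg Dbl.snd h⟩
theorem a34_ext {s : T3} {t : T4} (h : a34 s = b34 t) :
    zF64 s.fst = zF64 t.fst ∧ zF64 s.snd = zF64 t.snd :=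
  ⟨congrArg Dbl.fst h, congrArg Dbl.snd h⟩
theorem a13_ext {s : T1} {t : T3} (h : a13 s = b13 t) :
    zF3C3 t.fst = c3f s.fst ∧ zF3C3 t.snd = c3f s.snd :=
  ⟨(congrArg Dbl.fst h).symm, (congrArg Dbl.snd h).symm⟩
theorem a24_ext {s : T2} {t : T4} (h : a24 s = b24 t) :
    zF3C3 t.fst = c3f s.fst ∧ zF3C3 t.snd = c3f s.snd :=
  ⟨(congrArg Dbl.fst h).symm, (congrArg Dbl.snd h).symm⟩

theorem pi_surj (t1 : T1) (t2 : T2) (t3 : T3) (t4 : T4) (h12 : a12 t1 = b12 t2)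
    (h34 : a34 t3 = b34 t4) (h13 : a13 t1 = b13 t3) (h24 : a24 t2 = b24 t4) :
    ∃ x, pi1 x = t1 ∧ pi2 x = t2 ∧ pi3 x = t3 ∧ pi4 x = t4 := by
  obtain ⟨k1, k2⟩ := a12_ext h12
  obtain ⟨l1, l2⟩ := a34_ext h34
  obtain ⟨m1, m2⟩ := a13_ext h13
  obtain ⟨n1, n2⟩ := a24_ext h24
  obtain ⟨p1, hp1, hp1'⟩ := surj9 t3.fst t1.fst m1
  obtain ⟨p2, hp2, hp2'⟩ := surj9 t3.snd t1.snd m2
  obtain ⟨q1, hq1, hq1'⟩ := surj9 t4.fst t2.fst n1
  obtain ⟨q2, hq2, hq2'⟩ := surj9 t4.snd t2.snd n2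
  obtain ⟨x, hx1, hx2⟩ := ppm_surj ⟨p1, p2⟩ ⟨q1, q2⟩
    (c9m_of p1 q1 (by rw [hp1', hq1']; exact k1) (by rw [hp1, hq1]; exact l1))
    (c9m_of p2 q2 (by rw [hp2', hq2']; exact k2) (by rw [hp2, hq2]; exact l2))
  refine ⟨x, ?_, ?_, ?_, ?_⟩
  · apply Dbl.ext
    · rw [pi1_fst, hx1, hp1']
    · rw [pi1_snd, hx1, hp2']
  · apply Dbl.ext
    · rw [pi2_fst, hx2, hq1']
    · rw [pi2_snd, hx2, hq2']
  · apply Dbl.ext
    · rw [pi3_fst, hx1, hp1]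
    · rw [pi3_snd, hx1, hp2]
  · apply Dbl.ext
    · rw [pi4_fst, hx2, hq1]
    · rw [pi4_snd, hx2, hq2]

/-- the gluing data -/
noncomputable def G9 : Glue L9 T1 T2 T3 T4 (Dbl F2C3 false) (Dbl F64 false) (Dbl F3C3 false)
    (Dbl F3C3 true) where
  p1 := pi1
  p2 := pi2
  p3 := pi3
  p4 := pi4
  a12 := a12
  b12 := b12
  a34 := a34
  b34 := b34
  a13 := a13
  b13 := b13
  a24 := a24
  b24 := b24
  h12 := pi_12
  h34 := pi_34
  h13 := pi_13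
  h24 := pi_24
  inj := pi_zero
  surj := pi_surj

end Vale.Agent.P246.Q36
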